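import Crest.Agent.N336.T.Defs
import Crest.Agent.N336.Q.Swp
import Crest.Agent.N336.Eng.Pure

/-!
# Row 336: ordered products and small tools for the tilt engine (helper87)
-/

set_option autoImplicit false
set_option linter.unusedSectionVars false

open Matrix Finset
open scoped ComplexOrder MatrixOrder Matrix.Norms.L2Operator InnerProductSpace

namespace Crest.Agent.N336.T

open Crest.Agent.N336.Q Crest.Agent.N336.A

attribute [local irreducible] ev eU

section matrices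

variable {n : Type} [Fintype n] [DecidableEq n] {Y Y' : ℕ → Matrix n n ℂ}

@[simp] lemma seg_zero (Y : ℕ → Matrix n n ℂ) (k : ℕ) : seg Y k 0 = 1 := rfl

lemma seg_succ (Y : ℕ → Matrix n n ℂ) (k l : ℕ) : seg Y k (l + 1) = Y (k + l) * seg Y k l := rfl

lemma seg_add (Y : ℕ → Matrix n n ℂ) (k a b : ℕ) :
    seg Y k (a + b) = seg Y (k + a) b * seg Y k a := by
  induction b with
  | zero => simp
  | succ b ih => rw [← add_assoc, seg_succ, seg_succ, ih, Matrix.mul_assoc, add_assoc]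

lemma seg_congr {k l : ℕ} (h : ∀ j, k ≤ j → j < k + l → Y j = Y' j) : seg Y k l = seg Y' k l := by
  induction l with
  | zero => rfl
  | succ l ih =>
    rw [seg_succ, seg_succ, h _ (by omega) (by omega), ih fun j h1 h2 => h j h1 (by omega)]

lemma seg_split (Y : ℕ → Matrix n n ℂ) {j m : ℕ} (h : j < m) :
    seg Y j (m - j) = seg Y (j + 1) (m - (j + 1)) * Y j := by
  rw [show m - j = 1 + (m - (j + 1)) by omega, seg_add, seg_succ, seg_zero, Matrix.mul_one,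
    add_zero]

lemma seg_cut (Y : ℕ → Matrix n n ℂ) {k m : ℕ} (h : k ≤ m) :
    seg Y 0 m = seg Y k (m - k) * seg Y 0 k := by
  conv_lhs => rw [show m = k + (m - k) by omega, seg_add, zero_add]

lemma seg_cut' (Y : ℕ → Matrix n n ℂ) {j m : ℕ} (h : j < m) :
    seg Y 0 m = seg Y (j + 1) (m - (j + 1)) * Y j * seg Y 0 j := by
  rw [seg_cut Y h.le, seg_split Y h]

lemma seg_one (k l : ℕ) : seg (fun _ => (1 : Matrix n n ℂ)) k l = 1 := by
  induction l with
  | zero => rfl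
  | succ l ih => rw [seg_succ, ih, Matrix.mul_one]

lemma norm_one_le' : ‖(1 : Matrix n n ℂ)‖ ≤ 1 := norm_of_unitary_le (by simp)

lemma norm_seg_le {k l : ℕ} (h : ∀ j, k ≤ j → j < k + l → ‖Y j‖ ≤ 1) : ‖seg Y k l‖ ≤ 1 := by
  induction l with
  | zero => exact norm_one_le'
  | succ l ih =>
    exact (norm_mul_le _ _).trans (mul_le_one₀ (h _ (by omega) (by omega)) (norm_nonneg _)
      (ih fun j h1 h2 => h j h1 (by omega)))

lemma le_norm_seg {k l : ℕ} {c : ℝ} (hc : 0 ≤ c)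
    (h : ∀ j, k ≤ j → j < k + l → ∀ v, c * ‖v‖ ≤ ‖ap (Y j) v‖) (v : Q.Vec n) :
    c ^ l * ‖v‖ ≤ ‖ap (seg Y k l) v‖ := by
  induction l with
  | zero => simp
  | succ l ih =>
    rw [seg_succ, ap_mul, pow_succ', mul_assoc]
    exact (mul_le_mul_of_nonneg_left (ih fun j h1 h2 => h j h1 (by omega)) hc).trans
      (h _ (by omega) (by omega) _)

lemma commute_seg {k l : ℕ} {M : Matrix n n ℂ} (h : ∀ j, k ≤ j → j < k + l → Commute M (Y j)) :
    Commute M (seg Y k l) := by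
  induction l with
  | zero => exact Commute.one_right M
  | succ l ih =>
    exact (h _ (by omega) (by omega)).mul_right (ih fun j h1 h2 => h j h1 (by omega))

/-- the first variation of the product -/
noncomputable def dseg (Y C : ℕ → Matrix n n ℂ) (m : ℕ) : Matrix n n ℂ :=
  ∑ j ∈ range m, seg Y (j + 1) (m - (j + 1)) * C j * seg Y 0 j

lemma dseg_succ (Y C : ℕ → Matrix n n ℂ) (m : ℕ) :
    dseg Y C (m + 1) = C m * seg Y 0 m + Y m * dseg Y C m := by
  rw [dseg, dseg, Finset.sum_range_succ, add_comm, Matrix.mul_sum, Nat.sub_self, seg_zero,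
    Matrix.one_mul]
  congr 1
  refine Finset.sum_congr rfl fun j hj => ?_
  rw [mem_range] at hj
  rw [show m + 1 - (j + 1) = m - (j + 1) + 1 by omega, seg_succ,
    show j + 1 + (m - (j + 1)) = m by omega]
  simp only [Matrix.mul_assoc]

theorem seg_taylor {m : ℕ} {α : ℝ} (hα : 0 ≤ α)
    (h : ∀ j < m, ‖Y j‖ ≤ 1 ∧ ‖Y' j‖ ≤ 1 ∧ ‖Y' j - Y j‖ ≤ α) :
    ‖seg Y' 0 m - seg Y 0 m‖ ≤ m * α ∧
      ‖seg Y' 0 m - seg Y 0 m - dseg Y (fun j => Y' j - Y j) m‖ ≤ (m * α) ^ 2 := by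
  induction m with
  | zero => simp [dseg]
  | succ m ih =>
    obtain ⟨h1, h2⟩ := ih fun j hj => h j (by omega)
    obtain ⟨a1, a2, a3⟩ := h m (by omega)
    have b1 : ‖seg Y' 0 m‖ ≤ 1 := norm_seg_le fun j _ hj => (h j (by omega)).2.1
    have e1 : seg Y' 0 (m + 1) - seg Y 0 (m + 1) =
        (Y' m - Y m) * seg Y' 0 m + Y m * (seg Y' 0 m - seg Y 0 m) := by
      simp only [seg_succ, zero_add]; noncomm_ring
    have e2 : seg Y' 0 (m + 1) - seg Y 0 (m + 1) - dseg Y (fun j => Y' j - Y j) (m + 1) =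
        (Y' m - Y m) * (seg Y' 0 m - seg Y 0 m) +
          Y m * (seg Y' 0 m - seg Y 0 m - dseg Y (fun j => Y' j - Y j) m) := by
      simp only [seg_succ, zero_add, dseg_succ]; noncomm_ring
    rw [e2, e1]
    push_cast
    constructor
    · refine (norm_add_le _ _).trans ((add_le_add (norm_mul_le_of_le a3 b1)
        (norm_mul_le_of_le a1 h1)).trans (by linarith))
    · refine (norm_add_le _ _).trans ((add_le_add (norm_mul_le_of_le a3 h1)
        (norm_mul_le_of_le a1 h2)).trans ?_)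
      have : (0 : ℝ) ≤ m := Nat.cast_nonneg m
      nlinarith [mul_nonneg this (mul_nonneg hα hα), mul_nonneg hα hα]

theorem hasDerivAt_seg {𝕜 : Type} [RCLike 𝕜] [NormedAlgebra 𝕜 (Matrix n n ℂ)]
    {F : ℕ → 𝕜 → Matrix n n ℂ} {C : ℕ → Matrix n n ℂ} {z : 𝕜} {m : ℕ}
    (h : ∀ j < m, HasDerivAt (F j) (C j) z) :
    HasDerivAt (fun w => seg (fun j => F j w) 0 m) (dseg (fun j => F j z) C m) z := by
  induction m with
  | zero => simpa [dseg] using hasDerivAt_const z (1 : Matrix n n ℂ)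
  | succ m ih =>
    rw [dseg_succ]
    simp only [seg_succ, zero_add]
    exact (h m (by omega)).mul (ih fun j hj => h j (by omega))

lemma sb_seg {F : ℕ → ℂ → Matrix n n ℂ} {k l : ℕ} (h : ∀ j, k ≤ j → j < k + l → Eng.SB (F j)) :
    Eng.SB fun w => seg (fun j => F j w) k l := by
  induction l with
  | zero => exact Eng.SB.const _
  | succ l ih => exact (h _ (by omega) (by omega)).mul (ih fun j h1 h2 => h j h1 (by omega))

/-- expectations of positive operators in close states -/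
theorem close {ψ φ : Q.Vec n} (h1 : ‖ψ‖ = 1) (h2 : ‖φ‖ = 1) {T : Matrix n n ℂ}
    (hT : T.PosSemidef) : (⟪ψ, ap T ψ⟫_ℂ).re ≤
      (⟪φ, ap T φ⟫_ℂ).re + 2 * ‖T‖ * Real.sqrt (1 - ‖⟪ψ, φ⟫_ℂ‖ ^ 2) := by
  set c := ⟪φ, ψ⟫_ℂ with hc
  set r := ψ - c • φ with hr
  have hφ : ⟪φ, φ⟫_ℂ = 1 := by rw [inner_self_eq_norm_sq_to_K, h2]; simp
  have hc1 : ‖c‖ ≤ 1 := by simpa [h1, h2] using norm_inner_le_norm (𝕜 := ℂ) φ ψ
  have h0 : ⟪c • φ, r⟫_ℂ = 0 := by
    rw [inner_smul_left, hr, inner_sub_right, inner_smul_right, hφ, ← hc]; simp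
  have e : ψ = c • φ + r := by rw [hr]; abel
  have hn : ‖r‖ = Real.sqrt (1 - ‖⟪ψ, φ⟫_ℂ‖ ^ 2) := by
    have := norm_add_sq_eq_norm_sq_add_norm_sq_of_inner_eq_zero (𝕜 := ℂ) _ _ h0
    rw [← e, h1, norm_smul, h2] at this
    rw [norm_inner_symm, ← hc, ← Real.sqrt_sq (norm_nonneg r)]
    congr 1; nlinarith
  have e1 : ⟪ψ, ap T ψ⟫_ℂ = ⟪c • φ, ap T (c • φ)⟫_ℂ + ⟪c • φ, ap T r⟫_ℂ + ⟪r, ap T ψ⟫_ℂ := by
    rw [← inner_add_right, ← map_add, ← e, ← inner_add_left, ← e]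
  have a1 : (⟪c • φ, ap T (c • φ)⟫_ℂ).re ≤ (⟪φ, ap T φ⟫_ℂ).re := by
    rw [map_smul, inner_smul_left, inner_smul_right, ← mul_assoc, Complex.conj_mul',
      ← Complex.ofReal_pow, Complex.re_ofReal_mul]
    exact mul_le_of_le_one_left (re_inner_ap_nonneg hT φ) (pow_le_one₀ (norm_nonneg _) hc1)
  have a2 := (Complex.re_le_norm _).trans (norm_inner_ap_le T (c • φ) r)
  have a3 := (Complex.re_le_norm _).trans (norm_inner_ap_le T r ψ)
  rw [norm_smul, h2] at a2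
  rw [h1] at a3
  rw [e1, Complex.add_re, Complex.add_re, ← hn]
  have := mul_nonneg (norm_nonneg T) (norm_nonneg r)
  nlinarith

end matrices

section sites

variable {ι : Type} [Fintype ι] [DecidableEq ι]
  {d : ι → Type} [∀ x, Fintype (d x)] [∀ x, DecidableEq (d x)] [∀ x, Nonempty (d x)]


lemma tF_eq {n : Type} [Fintype n] [DecidableEq n] (F : ℝ → ℝ) (W : Matrix n n ℂ) :
    tF F W = (trace (fr F W)).re := (re_trace_fr F W).symm

lemma tX_lift (X : Finset ι) (F : ℝ → ℝ) {w : Q.Op (sub (sb X) d)} (hw : w.IsHermitian) :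
    tX X F (lift X w) = ∑ i, F (ev w i) := by
  rw [tX, tF_eq, ← emb_fr _ _ hw, trace_lift, ← re_trace_fr]
  have := dim_pos_real (d := d) Xᶜ
  simp only [Complex.mul_re, Complex.natCast_re, Complex.natCast_im, zero_mul, sub_zero]
  field_simp

lemma tX_mg (X : Finset ι) (F : ℝ → ℝ) {ω : Q.Op d} (h : ω.IsHermitian) :
    tX X F (mg X ω) = ∑ i, F (ev (red (sb X) ω) i) := tX_lift X F (red_isHermitian _ h)

lemma tX_fr (X : Finset ι) (F g : ℝ → ℝ) (W : Q.Op d) :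
    tX X F (fr g W) = tX X (fun x => F (g x)) W := by
  rw [tX, tX, tF_eq, tF_eq, fr, fc_fr]

lemma tX_fr_mg (X : Finset ι) (F g : ℝ → ℝ) {ω : Q.Op d} (h : ω.IsHermitian) :
    tX X F (fr g (mg X ω)) = ∑ i, F (g (ev (red (sb X) ω) i)) := by
  rw [tX_fr, tX_mg _ _ h]

lemma fr_sq {n : Type} [Fintype n] [DecidableEq n] (g : ℝ → ℝ) (W : Matrix n n ℂ) :
    (fr g W)ᴴ * fr g W = fr (fun x => g x ^ 2) W := by
  rw [(fr_isHermitian g W).eq, fc_mul]
  exact fc_congr fun i => by push_cast; ring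

lemma ev_mg_mem {χ : Q.Vec (Cfg d)} (h : ‖χ‖ = 1) (X : Finset ι) (i : Cfg d) :
    0 ≤ ev (mg X (pj χ)) i ∧ ev (mg X (pj χ)) i ≤ 1 := by
  have hp := mg_posSemidef X (pj_posSemidef χ)
  refine ⟨ev_nonneg hp i, (le_abs_self _).trans ((abs_ev_le hp.1 i).trans ?_)⟩
  have hD := (dens_pj h).red (sb X)
  refine (norm_emb_le _ _).trans ?_
  rw [← fc_id hD.herm]
  refine norm_fc_le zero_le_one fun j => ?_
  rw [Complex.norm_real, Real.norm_eq_abs, abs_of_nonneg (ev_nonneg hD.psd j)]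
  exact hD.ev_le_one j

variable {s : ℝ} {I : Set ℝ} {F y : ℕ → ℝ → ℝ} {A : ℕ → Finset ι} {m : ℕ} {Ω χ : Q.Vec (Cfg d)}
  {Y : ℕ → Q.Op d} {N : ℝ}

lemma Stat.norm_seg (h : Stat s I F A m Ω y Y χ N) : ‖ap (seg Y 0 m) Ω‖ = N := by
  rw [h.chi, norm_smul, h.norm, mul_one, Complex.norm_real, Real.norm_eq_abs, abs_of_pos h.pos]

/-- the value of the functional at the minimiser -/
lemma LL_stat (h : Stat s I F A m Ω y Y χ N) : LL s F A m Ω Y = s * Real.log (N ^ 2) +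
    ∑ j ∈ range m, ∑ i, F j (y j (ev (red (sb (A j)) (pj χ)) i) ^ 2) := by
  rw [LL, h.norm_seg]
  congr 1
  refine Finset.sum_congr rfl fun j hj => ?_
  rw [h.eq j (mem_range.1 hj), fr_sq, tX_fr_mg _ _ _ (pj_isHermitian χ)]

/-- first variation at the minimiser -/
lemma Stat.inner_dseg (h : Stat s I F A m Ω y Y χ N) {a : ℕ → Q.Op d}
    (ha : ∀ j < m, Supp (A j) (a j)) :
    ⟪χ, ap (dseg Y (fun j => Y j * a j) m) Ω⟫_ℂ = N * ∑ j ∈ range m, ⟪χ, ap (a j) χ⟫_ℂ := by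
  rw [dseg, ap_sum, inner_sum, Finset.mul_sum]
  refine Finset.sum_congr rfl fun j hj => ?_
  rw [mem_range] at hj
  rw [← Matrix.mul_assoc, ← seg_split Y hj, h.phi j hj.le _ fun _ => ha j hj]

end sites

end Crest.Agent.N336.T
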