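import Crest.Agent.N336.T.Defs
import Crest.Agent.N336.T.Seg

-- ▼ part N336/T/PLS
section

/-!
# Row 336: scalar lemmas for the patch lemma (helper37)
-/

set_option autoImplicit false

namespace Crest.Agent.N336.T.PL

open Real

/-- the tilt function -/
noncomputable def yy (D δ x : ℝ) : ℝ := (1 + D * x) ^ (-δ)

/-- the barrier -/
noncomputable def FF (D δ w : ℝ) : ℝ := (2 * δ * w ^ (-(1 / (2 * δ))) + log w - 2 * δ) / D

/-- the value of the barrier at the tilt, divided by `2 δ` -/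
noncomputable def GG (D x : ℝ) : ℝ := x - log (1 + D * x) / D

variable {D δ : ℝ}

lemma FF_one (D δ : ℝ) : FF D δ 1 = 0 := by simp [FF]

lemma barrier (hD : 0 < D) (hδ : 0 < δ) : Barrier 1 (Set.Ioi 0) (FF D δ) where
  smooth w hw := by
    have hw0 : w ≠ 0 := ne_of_gt hw
    refine ContDiffAt.contDiffWithinAt (ContDiffAt.div_const (ContDiffAt.sub (ContDiffAt.add
      (contDiffAt_const.mul (contDiffAt_id.rpow_const_of_ne hw0)) (contDiffAt_id.log hw0))
      contDiffAt_const) D)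
  sub c hc M := by
    set p := 1 / (2 * δ) with hp
    have hp0 : 0 < p := by positivity
    have hpδ : 2 * δ * p = 1 := by rw [hp]; field_simp
    set c' := c / D with hc'
    have hc0 : 0 < c' := by positivity
    set k := c' * p / 2 with hk
    have hk0 : 0 < k := by positivity
    have hM := abs_nonneg M
    have hM' := le_abs_self M
    have h1k : 0 < 1 / k := by positivity
    have hb : 0 ≤ |M| / c' + 2 * δ := by positivity
    refine ⟨exp (-(1 / k + |M| + 1)), exp_pos _, exp (|M| / c' + 2 * δ), exp_pos _,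
      fun w hw h => ?_⟩
    have hw0 : 0 < w := hw
    have hF : c * FF D δ w = c' * (2 * δ * w ^ (-p) + log w - 2 * δ) := by
      rw [FF, hc']; ring
    rw [hF, one_mul] at h
    rcases le_total w 1 with h1 | h1
    · refine ⟨?_, h1.trans (one_le_exp hb)⟩
      have hx : 0 ≤ -log w := neg_nonneg.2 (log_nonpos hw0.le h1)
      rw [min_eq_left (by linarith)] at h
      have h2 : w ^ (-p) = exp (p * -log w) := by
        rw [rpow_def_of_pos hw0]; congr 1; ring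
      have h3 := quadratic_le_exp_of_nonneg (mul_nonneg hp0.le hx)
      rw [← h2] at h3
      rw [← le_log_iff_exp_le hw0]
      set x := -log w with hxdef
      have h4 : p * x ^ 2 / 2 ≤ 2 * δ * w ^ (-p) + log w - 2 * δ := by
        have h5 := mul_le_mul_of_nonneg_left h3 (by positivity : 0 ≤ 2 * δ)
        have h6 : 2 * δ * (1 + p * x + (p * x) ^ 2 / 2) =
            2 * δ + 2 * δ * p * x + 2 * δ * p * (p * x ^ 2 / 2) := by ring
        rw [h6, hpδ] at h5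
        linarith
      have h7 : k * x ^ 2 - x ≤ M := by
        have := mul_le_mul_of_nonneg_left h4 hc0.le
        have e : c' * (p * x ^ 2 / 2) = k * x ^ 2 := by rw [hk]; ring
        linarith
      by_contra hlt
      have h8 : 1 / k + |M| + 1 < x := by linarith
      have h9 : k * (|M| + 1) ≤ k * x - 1 := by
        have := mul_le_mul_of_nonneg_left h8.le hk0.le
        rw [add_assoc, mul_add, mul_one_div_cancel hk0.ne'] at this
        linarith
      have h10 : 1 / k * (k * (|M| + 1)) ≤ x * (k * x - 1) :=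
        mul_le_mul (by linarith) h9 (by positivity) hx
      rw [← mul_assoc, one_div_mul_cancel hk0.ne'] at h10
      nlinarith
    · refine ⟨(exp_le_one_iff.2 (by linarith)).trans h1, ?_⟩
      rw [min_eq_right (log_nonneg h1), add_zero] at h
      rw [← log_le_iff_le_exp hw0, ← sub_le_iff_le_add, le_div_iff₀ hc0]
      have h2 : 0 ≤ c' * (2 * δ * w ^ (-p)) := by positivity
      linarith

lemma yy_deriv (hD : 0 < D) (hδ : 0 < δ) {w : ℝ} (hw : 0 < w) :
    yy D δ (-(w * deriv (FF D δ) w) / 1) = √w := by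
  have h1 : HasDerivAt (FF D δ)
      ((2 * δ * (-(1 / (2 * δ)) * w ^ (-(1 / (2 * δ)) - 1)) + w⁻¹) / D) w :=
    ((((hasDerivAt_rpow_const (Or.inl hw.ne')).const_mul (2 * δ)).add
      (hasDerivAt_log hw.ne')).sub_const (2 * δ)).div_const D
  have h2 : 1 + D * (-(w * deriv (FF D δ) w) / 1) = w ^ (-(1 / (2 * δ))) := by
    rw [h1.deriv, rpow_sub_one hw.ne']
    field_simp
    ring
  rw [yy, h2, ← rpow_mul hw.le, sqrt_eq_rpow]
  congr 1
  field_simp

lemma one_add_pos (hD : 0 < D) {x : ℝ} (hx : 0 ≤ x) : 0 < 1 + D * x := by positivity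

lemma yy_pos (hD : 0 < D) (δ : ℝ) {x : ℝ} (hx : 0 ≤ x) : 0 < yy D δ x :=
  rpow_pos_of_pos (one_add_pos hD hx) _

lemma yy_le_one (hD : 0 < D) (hδ : 0 ≤ δ) {x : ℝ} (hx : 0 ≤ x) : yy D δ x ≤ 1 :=
  rpow_le_one_of_one_le_of_nonpos (by have := mul_nonneg hD.le hx; linarith) (by linarith)

lemma le_yy (hD : 0 < D) (hδ : 0 ≤ δ) (hδ1 : δ ≤ 1) {x : ℝ} (hx : 0 ≤ x) (hx1 : x ≤ 1) :
    (1 + D)⁻¹ ≤ yy D δ x := by
  have h0 := mul_nonneg hD.le hx
  have h1 : D * x ≤ D := mul_le_of_le_one_right hD.le hx1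
  rw [← rpow_neg_one]
  exact (rpow_le_rpow_of_exponent_le (by linarith) (by linarith)).trans
    (rpow_le_rpow_of_nonpos (one_add_pos hD hx) (by linarith) (by linarith))

lemma yy_add (hD : 0 < D) (δ e : ℝ) {x : ℝ} (hx : 0 ≤ x) :
    yy D (δ + e) x = yy D δ x * yy D e x := by
  rw [yy, yy, yy, neg_add, rpow_add (one_add_pos hD hx)]

lemma log_yy (hD : 0 < D) (δ : ℝ) {x : ℝ} (hx : 0 ≤ x) :
    log (yy D δ x) = -δ * log (1 + D * x) := log_rpow (one_add_pos hD hx) _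

lemma yy_lip (hD : 0 < D) (hδ : 0 ≤ δ) {a b : ℝ} (ha : 0 < a) (hb : 0 < b) :
    |log (yy D δ a) - log (yy D δ b)| ≤ δ * |log a - log b| := by
  rw [log_yy hD δ ha.le, log_yy hD δ hb.le, ← mul_sub, abs_mul, abs_neg, abs_of_nonneg hδ]
  refine mul_le_mul_of_nonneg_left ?_ hδ
  have key : ∀ {a b : ℝ}, 0 < a → 0 < b → a ≤ b →
      |log (1 + D * a) - log (1 + D * b)| ≤ |log a - log b| := by
    intro a b ha hb hab
    have h1 := one_add_pos hD ha.le
    have h2 := one_add_pos hD hb.le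
    have h3 : log (1 + D * a) ≤ log (1 + D * b) := log_le_log h1 (by gcongr)
    have h4 : log a ≤ log b := log_le_log ha hab
    have h5 : log ((1 + D * b) * a) ≤ log (b * (1 + D * a)) :=
      log_le_log (by positivity) (by nlinarith)
    rw [log_mul h2.ne' ha.ne', log_mul hb.ne' h1.ne'] at h5
    rw [abs_of_nonpos (by linarith), abs_of_nonpos (by linarith)]
    linarith
  rcases le_total a b with h | h
  · exact key ha hb h
  · rw [abs_sub_comm, abs_sub_comm (log a)]; exact key hb ha h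

lemma FF_yy (hD : 0 < D) (hδ : 0 < δ) {x : ℝ} (hx : 0 ≤ x) :
    FF D δ (yy D δ x ^ 2) = 2 * δ * GG D x := by
  have h := one_add_pos hD hx
  rw [sq, ← yy_add hD δ δ hx, FF, log_yy hD _ hx, yy, ← rpow_mul h.le,
    show -(δ + δ) * -(1 / (2 * δ)) = 1 by field_simp; ring, rpow_one, GG]
  field_simp
  ring

lemma GG_nonneg (hD : 0 < D) {x : ℝ} (hx : 0 ≤ x) : 0 ≤ GG D x := by
  have := log_le_sub_one_of_pos (one_add_pos hD hx)
  rw [GG, sub_nonneg, div_le_iff₀ hD]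
  linarith

lemma GG_le (hD : 0 < D) {x : ℝ} (hx : 0 ≤ x) : GG D x ≤ x := by
  have h0 := mul_nonneg hD.le hx
  have : 0 ≤ log (1 + D * x) / D := div_nonneg (log_nonneg (by linarith)) hD.le
  rw [GG]; linarith

lemma log_one_add_mem (hD : 0 < D) {x : ℝ} (hx : 0 ≤ x) (hx1 : x ≤ 1) :
    0 ≤ log (1 + D * x) ∧ log (1 + D * x) ≤ log (1 + D) := by
  have h0 := mul_nonneg hD.le hx
  have h1 : D * x ≤ D := mul_le_of_le_one_right hD.le hx1
  exact ⟨log_nonneg (by linarith), log_le_log (by linarith) (by linarith)⟩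

lemma yy_eq_exp (hD : 0 < D) (e : ℝ) {x : ℝ} (hx : 0 ≤ x) :
    yy D e x = exp (-(e * log (1 + D * x))) := by
  rw [yy, rpow_def_of_pos (one_add_pos hD hx)]; congr 1; ring

lemma abs_yy_sub_one (hD : 0 < D) {e : ℝ} (he : 0 ≤ e) {x : ℝ} (hx : 0 ≤ x) (hx1 : x ≤ 1) :
    |yy D e x - 1| ≤ e * log (1 + D) := by
  obtain ⟨h1, h2⟩ := log_one_add_mem hD hx hx1
  rw [abs_of_nonpos (sub_nonpos.2 (yy_le_one hD he hx)), yy_eq_exp hD e hx]
  have h3 := add_one_le_exp (-(e * log (1 + D * x)))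
  have h4 : e * log (1 + D * x) ≤ e * log (1 + D) := by gcongr
  linarith

lemma exp_neg_sub_one_le {z : ℝ} (hz : 0 ≤ z) : exp (-z) - 1 ≤ -z + z ^ 2 := by
  have h1 := add_one_le_exp z
  have h2 : exp (-z) * exp z = 1 := by rw [← exp_add]; simp
  have h3 := exp_pos (-z)
  have h4 : exp (-z) * (z + 1) ≤ 1 := (mul_le_mul_of_nonneg_left h1 h3.le).trans h2.le
  by_contra h
  have h5 : (1 - z + z ^ 2) * (z + 1) < exp (-z) * (z + 1) := by gcongr; linarith
  nlinarith [pow_nonneg hz 3]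

lemma yy_sub_one_mul (hD : 0 < D) {e : ℝ} (he : 0 ≤ e) {x : ℝ} (hx : 0 ≤ x) (hx1 : x ≤ 1) :
    (yy D e x - 1) * x ≤ -e * (x * log (1 + D * x)) + (e * log (1 + D)) ^ 2 * x := by
  obtain ⟨h1, h2⟩ := log_one_add_mem hD hx hx1
  have h3 := exp_neg_sub_one_le (mul_nonneg he h1)
  rw [← yy_eq_exp hD e hx] at h3
  have h4 : (e * log (1 + D * x)) ^ 2 ≤ (e * log (1 + D)) ^ 2 := by gcongr
  have h5 := mul_le_mul_of_nonneg_right (h3.trans (add_le_add_right h4 _)) hx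
  linarith

lemma ind_mul_ge {a x : ℝ} (ha : 0 < a) (hx : 0 ≤ x) (hx1 : x ≤ 1) :
    x - negMulLog x / a ≤ (if exp (-a) ≤ x then 1 else 0) * x := by
  split_ifs with h
  · have := div_nonneg (negMulLog_nonneg hx hx1) ha.le
    linarith
  · rw [zero_mul, sub_nonpos, le_div_iff₀ ha]
    rcases hx.eq_or_lt with rfl | hx0
    · simp
    · have h1 : log x ≤ -a := (log_le_iff_le_exp hx0).2 (not_le.1 h).le
      rw [negMulLog]
      nlinarith

lemma ind_le {a x : ℝ} (hx : 0 ≤ x) : (if exp (-a) ≤ x then 1 else 0 : ℝ) ≤ exp a * x := by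
  split_ifs with h
  · have h1 : exp a * exp (-a) = 1 := by rw [← exp_add]; simp
    rw [← h1]; gcongr
  · positivity

lemma typ_point (hD : 0 < D) {t μ x p : ℝ} (ht : 0 ≤ t) (hμ : 0 ≤ μ) (h : exp (10 * t) ≤ D * μ)
    (hx : 0 ≤ x) (hp : 0 ≤ p) (hp1 : p ≤ 1) : 10 * t * ((x - μ) * p) ≤ x * log (1 + D * x) := by
  have h0 := mul_nonneg hD.le hx
  rcases le_total x μ with h1 | h1
  · exact (mul_nonpos_of_nonneg_of_nonpos (by positivity)
      (mul_nonpos_of_nonpos_of_nonneg (by linarith) hp)).trans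
      (mul_nonneg hx (log_nonneg (by linarith)))
  · have h2 : 10 * t ≤ log (1 + D * x) := by
      rw [le_log_iff_exp_le (by linarith)]
      have : D * μ ≤ D * x := by gcongr
      linarith
    have h3 : (x - μ) * p ≤ x := (mul_le_of_le_one_right (by linarith) hp1).trans (by linarith)
    calc 10 * t * ((x - μ) * p) ≤ 10 * t * x := by gcongr
      _ = x * (10 * t) := mul_comm _ _
      _ ≤ _ := by gcongr

lemma exp_le_D_mu (s₀ t : ℝ) :
    exp (10 * t) ≤ exp (10 * s₀ + 10 * t + 4) * (exp (-(10 * s₀ + 1)) / 10) := by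
  rw [← mul_div_assoc, ← exp_add, show 10 * s₀ + 10 * t + 4 + -(10 * s₀ + 1) = 10 * t + 3 by ring,
    exp_add, mul_div_assoc]
  refine le_mul_of_one_le_right (exp_pos _).le ?_
  rw [le_div_iff₀ (by norm_num), one_mul, show (3 : ℝ) = 1 + 1 + 1 by norm_num, exp_add, exp_add]
  nlinarith [exp_one_gt_d9, mul_pos (exp_pos 1) (exp_pos 1)]

end Crest.Agent.N336.T.PL
end

-- ▼ part N336/T/PL
section

/-!
# Row 336: the abstract patch lemma `tiltPL : EngStmt → EnergyStmt → TiltPLStmt` (helper37)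
-/

set_option autoImplicit false
set_option linter.unusedSectionVars false

open Matrix Finset
open scoped ComplexOrder MatrixOrder Matrix.Norms.L2Operator InnerProductSpace

namespace Crest.Agent.N336.T

open Crest.Agent.N336.Q Crest.Agent.N336.A

attribute [local irreducible] ev eU

namespace PL

variable {ι : Type} [Fintype ι] [DecidableEq ι]
  {d : ι → Type} [∀ x, Fintype (d x)] [∀ x, DecidableEq (d x)] [∀ x, Nonempty (d x)]
  {D δ : ℝ} {A : ℕ → Finset ι} {m : ℕ} {Ω χ : Q.Vec (Cfg d)}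

/-- the tilt family of a unit vector -/
noncomputable def Yd (D δ : ℝ) (A : ℕ → Finset ι) (χ : Q.Vec (Cfg d)) (j : ℕ) : Q.Op d :=
  fr (yy D δ) (mg (A j) (pj χ))

lemma supp_fr_mg (g : ℝ → ℝ) (X : Finset ι) (χ : Q.Vec (Cfg d)) : Supp X (fr g (mg X (pj χ))) :=
  (supp_mg _ _).fc _ (mg_isHermitian _ (pj_isHermitian χ))

lemma adm_Yd (hD : 0 < D) (hχ : ‖χ‖ = 1) : Adm (Set.Ioi 0) A m (Yd D δ A χ) := fun j _ =>
  ⟨supp_fr_mg _ _ _, fun i => by
    rw [Yd, fr_sq]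
    exact ev_pos (Eng.fr_posDef fun i => pow_pos (yy_pos hD δ (ev_mg_mem hχ _ i).1) 2) i⟩

lemma norm_Yd_le (hD : 0 < D) (hδ : 0 ≤ δ) (hχ : ‖χ‖ = 1) (j : ℕ) : ‖Yd D δ A χ j‖ ≤ 1 := by
  rw [Yd]
  refine norm_fc_le zero_le_one fun i => ?_
  rw [Complex.norm_real, Real.norm_eq_abs, abs_of_pos (yy_pos hD δ (ev_mg_mem hχ _ i).1)]
  exact yy_le_one hD hδ (ev_mg_mem hχ _ i).1

lemma le_norm_Yd (hD : 0 < D) (hδ1 : δ ≤ 1) (hχ : ‖χ‖ = 1) (hδ : 0 ≤ δ) (j : ℕ)
    (v : Q.Vec (Cfg d)) : (1 + D)⁻¹ * ‖v‖ ≤ ‖ap (Yd D δ A χ j) v‖ := by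
  refine (pow_le_pow_iff_left₀ (by positivity) (norm_nonneg _) two_ne_zero).1 ?_
  rw [Yd, norm_ap_fc_sq, mul_pow, ← sum_sq_inner_evec (mg (A j) (pj χ)), mul_sum]
  refine sum_le_sum fun i _ => mul_le_mul_of_nonneg_right ?_ (sq_nonneg _)
  obtain ⟨h0, h1⟩ := ev_mg_mem hχ (A j) i
  rw [Complex.norm_real, Real.norm_eq_abs, abs_of_pos (yy_pos hD δ h0)]
  exact pow_le_pow_left₀ (by positivity) (le_yy hD hδ hδ1 h0 h1) 2

lemma sum_FF_yy (hD : 0 < D) (hδ : 0 < δ) (X : Finset ι) (χ : Q.Vec (Cfg d)) :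
    ∑ i, FF D δ (yy D δ (ev (red (sb X) (pj χ)) i) ^ 2) =
      2 * δ * ∑ i, GG D (ev (red (sb X) (pj χ)) i) := by
  rw [mul_sum]
  exact sum_congr rfl fun i _ => FF_yy hD hδ (ev_nonneg (rd_psd X χ) i)

lemma sum_GG_nonneg (hD : 0 < D) (X : Finset ι) (χ : Q.Vec (Cfg d)) :
    0 ≤ ∑ i, GG D (ev (red (sb X) (pj χ)) i) :=
  sum_nonneg fun i _ => GG_nonneg hD (ev_nonneg (rd_psd X χ) i)

lemma sum_GG_le (hD : 0 < D) (X : Finset ι) (hχ : ‖χ‖ = 1) :
    ∑ i, GG D (ev (red (sb X) (pj χ)) i) ≤ 1 := by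
  rw [← ((dens_pj hχ).red (sb X)).sum_ev]
  exact sum_le_sum fun i _ => GG_le hD (ev_nonneg (rd_psd X χ) i)

lemma LL_Yd (hD : 0 < D) (hδ : 0 < δ) (Ω χ : Q.Vec (Cfg d)) :
    LL 1 (fun _ => FF D δ) A m Ω (Yd D δ A χ) = Real.log (‖ap (seg (Yd D δ A χ) 0 m) Ω‖ ^ 2) +
      2 * δ * ∑ j ∈ range m, ∑ i, GG D (ev (red (sb (A j)) (pj χ)) i) := by
  rw [LL, one_mul, mul_sum]
  congr 1
  refine sum_congr rfl fun j _ => ?_
  rw [Yd, fr_sq, tX_fr_mg _ _ _ (pj_isHermitian χ), sum_FF_yy hD hδ]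

/-- a state close to a state of small entropy has large Schmidt weights -/
theorem typ (hΩ : ‖Ω‖ = 1) (hχ : ‖χ‖ = 1) (h : 1 - ‖⟪Ω, χ⟫_ℂ‖ ^ 2 ≤ 1 / 400) {X : Finset ι}
    {s₀ t : ℝ} (hs₀ : 0 ≤ s₀) (ht : 0 ≤ t) (hS : SX X (pj Ω) ≤ s₀) :
    7 * t ≤ ∑ i, ev (red (sb X) (pj χ)) i *
      Real.log (1 + Real.exp (10 * s₀ + 10 * t + 4) * ev (red (sb X) (pj χ)) i) := by
  set a := 10 * s₀ + 1 with ha
  have ha0 : 0 < a := by positivity
  have hρ := (dens_pj hΩ).red (sb X)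
  have hσ := (dens_pj hχ).red (sb X)
  set g : ℝ → ℝ := fun x => if Real.exp (-a) ≤ x then 1 else 0 with hg
  have hg0 : ∀ x, 0 ≤ g x := fun x => by simp only [hg]; split_ifs <;> norm_num
  have hg1 : ∀ x, ‖(g x : ℂ)‖ ≤ 1 := fun x => by simp only [hg]; split_ifs <;> simp
  set P := fr g (red (sb X) (pj Ω)) with hP
  have hP0 : P.PosSemidef := fr_posSemidef fun i => hg0 _
  have hP1 : ‖P‖ ≤ 1 := norm_fc_le zero_le_one fun i => hg1 _
  have h1 : (trace P).re ≤ Real.exp a := by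
    rw [hP, re_trace_fr, ← mul_one (Real.exp a), ← hρ.sum_ev, mul_sum]
    exact sum_le_sum fun i _ => ind_le (ev_nonneg hρ.psd i)
  have h2 : 9 / 10 ≤ (⟪Ω, ap (lift X P) Ω⟫_ℂ).re := by
    have e := Eng.qf_fr_mg g X Ω
    rw [Eng.qf, mg, ← emb_fr _ _ hρ.herm] at e
    rw [e]
    refine le_trans ?_ (sum_le_sum fun i _ =>
      ind_mul_ge ha0 (ev_nonneg hρ.psd i) (hρ.ev_le_one i))
    rw [sum_sub_distrib, hρ.sum_ev, ← sum_div]
    have : SX X (pj Ω) / a ≤ 1 / 10 := by rw [div_le_iff₀ ha0]; linarith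
    exact le_trans (by linarith) (le_refl (1 - SX X (pj Ω) / a))
  have h3 := close hΩ hχ (emb_posSemidef (sb X) hP0)
  have h4 : Real.sqrt (1 - ‖⟪Ω, χ⟫_ℂ‖ ^ 2) ≤ 1 / 20 :=
    Real.sqrt_le_iff.2 ⟨by norm_num, h.trans (by norm_num)⟩
  have h5 : ‖lift X P‖ * Real.sqrt (1 - ‖⟪Ω, χ⟫_ℂ‖ ^ 2) ≤ 1 * (1 / 20) :=
    mul_le_mul ((norm_emb_le _ _).trans hP1) h4 (Real.sqrt_nonneg _) zero_le_one
  set p : Cfg (sub (sb X) d) → ℝ := fun i =>
    (⟪evec (red (sb X) (pj χ)) i, ap P (evec (red (sb X) (pj χ)) i)⟫_ℂ).re with hp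
  have h6 : (⟪χ, ap (lift X P) χ⟫_ℂ).re = ∑ i, ev (red (sb X) (pj χ)) i * p i := by
    rw [inner_lift, rd]
    conv_lhs => arg 1; arg 1; arg 2; rw [← fc_id hσ.herm]
    rw [trace_mul_fc, Complex.re_sum]
    exact sum_congr rfl fun i _ => Complex.re_ofReal_mul _ _
  have h7 : (trace P).re = ∑ i, p i := by
    have := trace_mul_fc P (fun _ => 1) (red (sb X) (pj χ))
    rw [fc_one, Matrix.mul_one] at this
    rw [this, Complex.re_sum]
    simp only [one_mul, hp]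
  have hp0 : ∀ i, 0 ≤ p i := fun i => re_inner_ap_nonneg hP0 _
  have hp1 : ∀ i, p i ≤ 1 := fun i => by
    have := (Complex.re_le_norm _).trans (norm_inner_ap_le P (evec (red (sb X) (pj χ)) i)
      (evec (red (sb X) (pj χ)) i))
    rw [norm_evec, mul_one, mul_one] at this
    exact this.trans hP1
  have hμ : 0 ≤ Real.exp (-a) / 10 := by positivity
  refine le_trans ?_ (sum_le_sum fun i _ => typ_point (Real.exp_pos _) ht hμ (exp_le_D_mu s₀ t)
    (ev_nonneg hσ.psd i) (hp0 i) (hp1 i))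
  simp only [sub_mul, ← mul_sum, sum_sub_distrib]
  rw [← h6, ← h7]
  have h8 : Real.exp (-a) / 10 * (trace P).re ≤ 1 / 10 := by
    have e : Real.exp (-a) * Real.exp a = 1 := by rw [← Real.exp_add]; simp
    calc _ ≤ Real.exp (-a) / 10 * Real.exp a := by gcongr
      _ = 1 / 10 := by rw [div_mul_eq_mul_div, e]
  have h9 : 7 / 10 ≤ (⟪χ, ap (lift X P) χ⟫_ℂ).re - Real.exp (-a) / 10 * (trace P).re := by
    linarith
  nlinarith

/-- the constant of the second order terms -/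
noncomputable def KK (D : ℝ) (m : ℕ) : ℝ :=
  2 * m * Real.log (1 + D) ^ 2 + 3 * m ^ 2 * Real.log (1 + D) ^ 2 * (1 + D) ^ (2 * m)

/-- increasing the exponent decreases the functional -/
theorem step (hD : 0 < D) (hδ : 0 < δ) {e t N : ℝ} (he : 0 ≤ e) (h1 : δ + e ≤ 1) (hΩ : ‖Ω‖ = 1)
    {Y : ℕ → Q.Op d} (hS : Stat 1 (Set.Ioi 0) (fun _ => FF D δ) A m Ω (fun _ => yy D δ) Y χ N)
    (htyp : ∀ j < m, 7 * t ≤ ∑ i, ev (red (sb (A j)) (pj χ)) i *
      Real.log (1 + D * ev (red (sb (A j)) (pj χ)) i)) :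
    LL 1 (fun _ => FF D (δ + e)) A m Ω (Yd D (δ + e) A χ) ≤
      LL 1 (fun _ => FF D δ) A m Ω Y - e * (2 * m * (7 * t - 1) - KK D m * e) := by
  have hχ := hS.norm
  have hN := hS.pos
  have hY : ∀ j < m, Y j = Yd D δ A χ j := hS.eq
  have hl : 0 ≤ Real.log (1 + D) := Real.log_nonneg (by linarith)
  set α := e * Real.log (1 + D) with hα
  have hα0 : 0 ≤ α := mul_nonneg he hl
  set Y' := Yd D (δ + e) A χ with hY'
  set a : ℕ → Q.Op d := fun j => fr (fun x => yy D e x - 1) (mg (A j) (pj χ)) with ha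
  have hdiff : ∀ j < m, Y' j - Y j = Y j * a j := fun j hj => by
    rw [hY j hj, hY', Yd, Yd, ha, fc_sub, fc_mul]
    refine fc_congr fun i => ?_
    rw [yy_add hD δ e (ev_mg_mem hχ _ i).1]
    push_cast
    ring
  have hY1 : ∀ j < m, ‖Y j‖ ≤ 1 := fun j hj => by rw [hY j hj]; exact norm_Yd_le hD hδ.le hχ j
  have ha1 : ∀ j, ‖a j‖ ≤ α := fun j => norm_fc_le hα0 fun i => by
    rw [Complex.norm_real, Real.norm_eq_abs]
    exact abs_yy_sub_one hD he (ev_mg_mem hχ _ i).1 (ev_mg_mem hχ _ i).2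
  obtain ⟨t1, t2⟩ := seg_taylor (Y := Y) (Y' := Y') (m := m) hα0 fun j hj =>
    ⟨hY1 j hj, norm_Yd_le hD (by linarith) hχ j, by
      rw [hdiff j hj]
      exact (norm_mul_le_of_le (hY1 j hj) (ha1 j)).trans (one_mul _).le⟩
  have hd : dseg Y (fun j => Y' j - Y j) m = dseg Y (fun j => Y j * a j) m :=
    sum_congr rfl fun j hj => by beta_reduce; rw [hdiff j (mem_range.1 hj)]
  rw [hd] at t2
  have hN1 : N ≤ 1 := by
    rw [← hS.norm_seg]
    refine (norm_ap_le _ _).trans ?_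
    rw [hΩ, mul_one]
    exact norm_seg_le fun j _ hj => hY1 j (by omega)
  have hN2 : (1 + D)⁻¹ ^ m ≤ N := by
    have := le_norm_seg (Y := Y) (k := 0) (l := m) (c := (1 + D)⁻¹) (by positivity)
      (fun j _ hj v => by
        rw [hY j (by omega)]; exact le_norm_Yd hD (by linarith) hχ hδ.le j v) Ω
    rwa [hΩ, mul_one, hS.norm_seg] at this
  have hv' : 0 < ‖ap (seg Y' 0 m) Ω‖ := by
    have := le_norm_seg (Y := Y') (k := 0) (l := m) (c := (1 + D)⁻¹) (by positivity)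
      (fun j _ _ v => le_norm_Yd hD h1 hχ (by linarith) j v) Ω
    rw [hΩ, mul_one] at this
    exact lt_of_lt_of_le (by positivity) this
  have hq : ∀ j ∈ range m, (⟪χ, ap (a j) χ⟫_ℂ).re ≤ -(7 * t * e) + α ^ 2 := fun j hj => by
    have hσ := (dens_pj hχ).red (sb (A j))
    refine (Eng.qf_fr_mg _ _ _).le.trans ((sum_le_sum fun i _ =>
      yy_sub_one_mul hD he (ev_nonneg hσ.psd i) (hσ.ev_le_one i)).trans ?_)
    rw [sum_add_distrib, ← mul_sum, ← mul_sum, hσ.sum_ev]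
    have := mul_le_mul_of_nonneg_left (htyp j (mem_range.1 hj)) he
    linarith
  have hq' := sum_le_card_nsmul _ _ _ hq
  rw [card_range, nsmul_eq_mul] at hq'
  have c1 : (⟪χ, ap (seg Y' 0 m - seg Y 0 m) Ω⟫_ℂ).re ≤
      (m * α) ^ 2 + N * (m * (-(7 * t * e) + α ^ 2)) := by
    rw [← sub_add_cancel (seg Y' 0 m - seg Y 0 m) (dseg Y (fun j => Y j * a j) m), ap_add,
      inner_add_right, Complex.add_re, hS.inner_dseg fun j _ => supp_fr_mg _ _ _,
      Complex.re_ofReal_mul, Complex.re_sum]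
    have := (Complex.re_le_norm _).trans (norm_inner_ap_le
      (seg Y' 0 m - seg Y 0 m - dseg Y (fun j => Y j * a j) m) χ Ω)
    rw [hχ, hΩ, mul_one, mul_one] at this
    exact add_le_add (this.trans t2) (mul_le_mul_of_nonneg_left hq' hN.le)
  have c2 : ‖ap (seg Y' 0 m - seg Y 0 m) Ω‖ ≤ m * α := by
    have := norm_ap_le (seg Y' 0 m - seg Y 0 m) Ω
    rw [hΩ, mul_one] at this
    exact this.trans t1
  have c3 : ‖ap (seg Y' 0 m) Ω‖ ^ 2 ≤
      N ^ 2 + 2 * N ^ 2 * (m * (-(7 * t * e) + α ^ 2)) + 3 * (m * α) ^ 2 := by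
    have e1 : ap (seg Y' 0 m) Ω = (N : ℂ) • χ + ap (seg Y' 0 m - seg Y 0 m) Ω := by
      rw [ap_sub, hS.chi, add_sub_cancel]
    rw [e1, @norm_add_sq ℂ, inner_smul_left, Complex.conj_ofReal, RCLike.re_to_complex,
      Complex.re_ofReal_mul, norm_smul, hχ, Complex.norm_real, mul_one, Real.norm_eq_abs, sq_abs]
    have b1 := mul_le_mul_of_nonneg_left c1 hN.le
    have b2 := pow_le_pow_left₀ (norm_nonneg _) c2 2
    have b3 : N * (m * α) ^ 2 ≤ 1 * (m * α) ^ 2 := by gcongr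
    linarith
  have c4 : Real.log (‖ap (seg Y' 0 m) Ω‖ ^ 2) - Real.log (N ^ 2) ≤
      2 * (m * (-(7 * t * e) + α ^ 2)) + 3 * (m * α) ^ 2 * (1 + D) ^ (2 * m) := by
    rw [← Real.log_div (by positivity) (by positivity)]
    refine (Real.log_le_sub_one_of_pos (by positivity)).trans ?_
    rw [sub_le_iff_le_add, div_le_iff₀ (by positivity)]
    have b1 : 1 ≤ (1 + D) ^ (2 * m) * N ^ 2 := by
      have b2 : 1 ≤ (1 + D) ^ m * N := by
        rwa [inv_pow, inv_le_iff_one_le_mul₀' (by positivity)] at hN2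
      rw [pow_mul', ← mul_pow]
      exact one_le_pow₀ b2
    have b3 := mul_le_mul_of_nonneg_left b1 (by positivity : 0 ≤ 3 * (m * α) ^ 2)
    linarith
  have c5 := sum_le_card_nsmul (range m) _ _ fun j _ => sum_GG_le hD (A j) hχ
  rw [card_range, nsmul_eq_mul, mul_one] at c5
  rw [LL_stat hS, hY', LL_Yd hD (by linarith), ← hY', one_mul]
  simp only [sum_FF_yy hD hδ, ← mul_sum]
  have c6 := mul_le_mul_of_nonneg_left c5 he
  have c7 : KK D m * e * e = 2 * m * α ^ 2 + 3 * (m * α) ^ 2 * (1 + D) ^ (2 * m) := by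
    rw [KK, hα]; ring
  linarith

end PL

open PL in
/-- the abstract patch lemma -/
theorem tiltPL (hE : EngStmt) (hN : EnergyStmt) : TiltPLStmt := by
  intro ι _ _ d _ _ _ K _ h Z Ω E Δ A m θ s₀ t hL hC hθ hθ1 hcw hs₀ ht hS
  have hΩ := hL.gap.norm
  rcases Nat.eq_zero_or_pos m with rfl | hm
  · exact ⟨Ω, hΩ, by simp [hΩ]⟩
  set D := Real.exp (10 * s₀ + 10 * t + 4) with hD
  have hD0 : 0 < D := Real.exp_pos _
  have hΩ0 : Ω ≠ 0 := fun h0 => by simp [h0] at hΩ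
  have hst : ∀ δ, 0 < δ → ∃ Y χ N,
      Stat 1 (Set.Ioi 0) (fun _ => FF D δ) A m Ω (fun _ => yy D δ) Y χ N := fun δ hδ =>
    hE ι d 1 _ _ _ A m Ω one_ne_zero isOpen_Ioi Set.ordConnected_Ioi subset_rfl hΩ0 hC.mono
      (fun _ _ => barrier hD0 hδ) fun _ _ w hw => yy_deriv hD0 hδ hw
  have hcw0 : ∀ X, 0 ≤ cw h Z X := fun X => sum_nonneg fun k _ => by
    split_ifs <;> positivity
  obtain ⟨n, hn⟩ := exists_nat_gt (max (KK D m * θ / 4) 0)
  have hn0 : (0 : ℝ) < n := lt_of_le_of_lt (le_max_right _ _) hn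
  have hn1 : KK D m * θ / 4 < n := lt_of_le_of_lt (le_max_left _ _) hn
  set e := θ / (2 * n) with he
  have he0 : 0 < e := by positivity
  have hne : n * e = θ / 2 := by rw [he]; field_simp
  have hKe : KK D m * e ≤ 2 := by
    rw [he, ← mul_div_assoc, div_le_iff₀ (by positivity)]; linarith
  have hm1 : (1 : ℝ) ≤ m := by exact_mod_cast hm
  have key : ∀ k : ℕ, k ≤ n → ∃ Y, Adm (Set.Ioi 0) A m Y ∧
      LL 1 (fun _ => FF D (θ / 2 + k * e)) A m Ω Y ≤ -(k * e * (10 * m * t)) := by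
    intro k
    induction k with
    | zero =>
      intro _
      have h1 : (1 : Q.Op d)ᴴ * 1 = fr (fun _ => 1) (1 : Q.Op d) := by simp [fr, fc_one]
      refine ⟨fun _ => 1, fun j _ => ⟨Supp.one _, fun i => ?_⟩, le_of_eq ?_⟩
      · rw [conjTranspose_one, Matrix.mul_one]; exact ev_pos PosDef.one i
      · simp only [LL, h1, tX_fr, FF_one]
        simp [seg_one, hΩ, tX, tF]
    | succ k ih =>
      intro hk
      obtain ⟨Y₀, hY₀, hle⟩ := ih (by omega)
      have hk' : ((k : ℝ) + 1) * e ≤ n * e := by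
        gcongr; exact_mod_cast hk
      have hk0 : 0 ≤ (k : ℝ) * e := by positivity
      have hδ : 0 < θ / 2 + k * e := by linarith
      obtain ⟨Y, χ, N, hS'⟩ := hst _ hδ
      have h1 := hN ι d K h Z Ω E Δ 1 _ _ _ A m (fun _ => θ / 2 + k * e) Y χ N hL hC hS'
        fun j _ => ⟨hδ.le, by linarith, fun x hx => yy_pos hD0 _ hx,
          fun a b ha hb => yy_lip hD0 hδ.le ha hb⟩
      have h2 : 1 - ‖⟪Ω, χ⟫_ℂ‖ ^ 2 ≤ 1 / 400 := by
        refine le_of_mul_le_mul_left (h1.trans (le_trans (sum_le_sum fun j _ => ?_)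
          (hcw.trans (le_of_eq (by ring))))) hL.pos
        have := hcw0 (A j)
        have : θ / 2 + k * e ≤ θ := by linarith
        gcongr
      have h3 := step hD0 hδ he0.le (t := t) (by linarith) hΩ hS' fun j hj =>
        typ hΩ hS'.norm h2 hs₀ (by linarith) (hS j hj)
      have h4 := hS'.min Y₀ hY₀
      refine ⟨_, adm_Yd (δ := θ / 2 + k * e + e) hD0 hS'.norm, ?_⟩
      have e1 : θ / 2 + ((k + 1 : ℕ) : ℝ) * e = θ / 2 + k * e + e := by push_cast; ring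
      rw [e1]
      have h5 : 10 * m * t ≤ 2 * m * (7 * t - 1) - KK D m * e := by nlinarith
      have h6 := mul_le_mul_of_nonneg_left h5 he0.le
      push_cast
      linarith
  obtain ⟨Y₀, hY₀, hle⟩ := key n le_rfl
  rw [hne, add_halves] at hle
  obtain ⟨Y, χ, N, hS'⟩ := hst θ hθ
  refine ⟨χ, hS'.norm, ?_⟩
  have h1 := (hS'.min Y₀ hY₀).trans hle
  rw [LL_stat hS', one_mul] at h1
  simp only [sum_FF_yy hD0 hθ] at h1
  have h2 : 0 ≤ ∑ j ∈ range m, 2 * θ * ∑ i, GG D (ev (red (sb (A j)) (pj χ)) i) :=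
    sum_nonneg fun j _ => mul_nonneg (by positivity) (sum_GG_nonneg hD0 _ _)
  have h3 : seg Y 0 m = seg (fun j => fr (fun x => (1 + D * x) ^ (-θ)) (mg (A j) (pj χ))) 0 m :=
    seg_congr fun j _ hj => hS'.eq j (by omega)
  rw [← h3, hS'.norm_seg, ← Real.log_le_iff_le_exp hS'.pos]
  rw [Real.log_pow] at h1
  push_cast at h1
  linarith

end Crest.Agent.N336.T
end

-- ▼ part N336/T/Patch

/-!
# Row 336: the patch lemma from its abstract form (helper63)
-/

set_option autoImplicit false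
set_option linter.unusedSectionVars false

open Matrix Finset
open scoped ComplexOrder MatrixOrder Matrix.Norms.L2Operator InnerProductSpace

namespace Crest.Agent.N336.T

open Crest.Agent.N336.Q Crest.Agent.N336.A

attribute [local irreducible] ev eU

section matrices

variable {n : Type} [Fintype n] [DecidableEq n]

lemma tel {P : Matrix n n ℂ} (hP : ‖P‖ ≤ 1) {B : ℕ → Matrix n n ℂ} {e : ℝ} {Ω : Q.Vec n}
    (hΩ : ‖Ω‖ = 1) (m : ℕ) (h : ∀ j < m, ‖B j‖ ≤ 1 ∧ ‖P * B j - P‖ ≤ e) :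
    ‖ap P Ω‖ ≤ ‖ap (seg B 0 m) Ω‖ + m * e := by
  have key : ‖ap (seg B 0 m) Ω‖ ≤ 1 ∧ ‖ap P Ω - ap P (ap (seg B 0 m) Ω)‖ ≤ m * e := by
    induction m with
    | zero => simp [seg, hΩ]
    | succ m ih =>
      obtain ⟨h1, h2⟩ := ih fun j hj => h j (by omega)
      obtain ⟨h3, h4⟩ := h m (by omega)
      rw [seg, zero_add, ap_mul]
      refine ⟨(norm_ap_le _ _).trans (mul_le_one₀ h3 (norm_nonneg _) h1), ?_⟩
      have h5 := (norm_ap_le (P * B m - P) (ap (seg B 0 m) Ω)).trans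
        (mul_le_of_le_one_right (norm_nonneg _) h1)
      rw [ap_sub, ap_mul, norm_sub_rev] at h5
      have := norm_sub_le_norm_sub_add_norm_sub (ap P Ω) (ap P (ap (seg B 0 m) Ω))
        (ap P (ap (B m) (ap (seg B 0 m) Ω)))
      push_cast
      linarith
  have h1 := (norm_ap_le P (ap (seg B 0 m) Ω)).trans (mul_le_of_le_one_left (norm_nonneg _) hP)
  linarith [norm_le_norm_add_norm_sub' (ap P Ω) (ap P (ap (seg B 0 m) Ω)), key.2]

lemma pj_mul_self {v : Q.Vec n} (h : ‖v‖ = 1) : pj v * pj v = pj v := by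
  rw [mul_kb, ap_kb, inner_self_eq_norm_sq_to_K, h]; simp

/-- one Gram–Schmidt step -/
lemma gs_vec {k : Matrix n n ℂ} (h1 : kᴴ = k) (h2 : k * k = k) (a : Q.Vec n) :
    k * pj a = pj a ∨ ∃ b : Q.Vec n, ‖b‖ = 1 ∧ k * pj b = 0 ∧ (k + pj b) * pj a = pj a := by
  by_cases h : a - ap k a = 0
  · exact Or.inl (by rw [mul_kb, ← sub_eq_zero.1 h])
  set w := a - ap k a with hw
  have h0 : (‖w‖ : ℂ) ≠ 0 := by simpa using h
  have h3 : ap k w = 0 := by rw [hw, map_sub, ← ap_mul, h2, sub_self]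
  have h4 : ⟪w, a⟫_ℂ = (‖w‖ : ℂ) ^ 2 := by
    have : ⟪w, ap k a⟫_ℂ = 0 := by rw [inner_ap_right, h1, h3, inner_zero_left]
    rw [← sub_zero ⟪w, a⟫_ℂ, ← this, ← inner_sub_right, inner_self_eq_norm_sq_to_K]; rfl
  refine Or.inr ⟨(‖w‖ : ℂ)⁻¹ • w, by simp [norm_smul, h], ?_, ?_⟩
  · rw [mul_kb, map_smul, h3, smul_zero]
    ext i j; simp [kb_apply]
  · rw [mul_kb, ap_add, ap_kb, inner_smul_left, h4, smul_smul, map_inv₀, Complex.conj_ofReal,
      show (‖w‖ : ℂ)⁻¹ * (‖w‖ : ℂ) ^ 2 * (‖w‖ : ℂ)⁻¹ = 1 by field_simp, one_smul, hw,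
      add_sub_cancel]

end matrices

section sites

variable {ι : Type} [Fintype ι] [DecidableEq ι]
  {d : ι → Type} [∀ x, Fintype (d x)] [∀ x, DecidableEq (d x)] [∀ x, Nonempty (d x)]
  {κ : Type} {A : κ → Finset ι}

/-- vectors on one of the regions -/
abbrev Cyl (d : ι → Type) (A : κ → Finset ι) : Type := Σ j, Q.Vec (Cfg (sub (sb (A j)) d))

/-- the cylinder projector -/
noncomputable def cyl (p : Cyl d A) : Q.Op d := lift (A p.1) (pj p.2)

lemma cyl_herm (p : Cyl d A) : (cyl p)ᴴ = cyl p := emb_isHermitian _ (pj_isHermitian _)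

/-- orthonormal families -/
structure Orth (F : Finset (Cyl d A)) : Prop where
  norm : ∀ p ∈ F, ‖p.2‖ = 1
  orth : ∀ p ∈ F, ∀ p' ∈ F, p ≠ p' → cyl p * cyl p' = 0

variable {F : Finset (Cyl d A)}

lemma Orth.sum_mul (H : Orth F) {p : Cyl d A} (hp : p ∈ F) : (∑ x ∈ F, cyl x) * cyl p = cyl p := by
  rw [Finset.sum_mul, Finset.sum_eq_single_of_mem p hp fun x hx h => H.orth x hx p hp h, cyl,
    ← map_mul, pj_mul_self (H.norm p hp)]

lemma sum_cyl_herm (F : Finset (Cyl d A)) : (∑ x ∈ F, cyl x)ᴴ = ∑ x ∈ F, cyl x := by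
  simp only [conjTranspose_sum, cyl_herm]

lemma Orth.idem (H : Orth F) : (∑ x ∈ F, cyl x) * ∑ x ∈ F, cyl x = ∑ x ∈ F, cyl x := by
  rw [Finset.mul_sum]
  exact Finset.sum_congr rfl fun p hp => H.sum_mul hp

/-- Gram–Schmidt along a decreasing chain of regions -/
theorem gs [LinearOrder κ] (hA : ∀ i j, i ≤ j → A j ⊆ A i) (G : Finset (Cyl d A)) :
    ∃ F : Finset (Cyl d A), F.card ≤ G.card ∧ Orth F ∧ (∀ p ∈ F, ∃ g ∈ G, p.1 = g.1) ∧
      ∀ g ∈ G, (∑ x ∈ F, cyl x) * cyl g = cyl g := by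
  classical
  induction G using Finset.induction_on_min_value (fun p : Cyl d A => p.1) with
  | empty => exact ⟨∅, le_rfl, ⟨by simp, by simp⟩, by simp, by simp⟩
  | insert g G hg hmin ih =>
    obtain ⟨F, h1, H, h2, h3⟩ := ih
    have hs : Supp (A g.1) (∑ x ∈ F, cyl x) := Supp.sum fun p hp => by
      obtain ⟨x, hx, e⟩ := h2 p hp
      exact (supp_lift _ _).mono (hA _ _ (e ▸ hmin x hx))
    obtain ⟨k, hk⟩ := hs.exists_lift
    rw [card_insert_of_notMem hg]
    rcases gs_vec (k := k) (isHermitian_of_emb (hk ▸ sum_cyl_herm F))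
      (emb_injective _ (by rw [map_mul, hk, H.idem])) g.2 with h | ⟨b, hb, h4, h5⟩
    · refine ⟨F, by omega, H, fun p hp => (h2 p hp).imp fun x hx => ⟨mem_insert_of_mem hx.1, hx.2⟩,
        forall_mem_insert _ _ _ |>.2 ⟨by rw [← hk, cyl, ← map_mul, h], h3⟩⟩
    have a1 : (∑ x ∈ F, cyl x) * cyl ⟨g.1, b⟩ = 0 := by rw [← hk, cyl, ← map_mul, h4, map_zero]
    have a2 : cyl ⟨g.1, b⟩ * (∑ x ∈ F, cyl x) = 0 := by
      rw [← sum_cyl_herm, ← cyl_herm, ← conjTranspose_mul, a1, conjTranspose_zero]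
    have a3 : ∀ p ∈ F, cyl ⟨g.1, b⟩ * cyl p = 0 := fun p hp => by
      rw [← H.sum_mul hp, ← Matrix.mul_assoc, a2, Matrix.zero_mul]
    have a4 : (⟨g.1, b⟩ : Cyl d A) ∉ F := fun h => by
      have h6 := a3 _ h
      rw [cyl, ← map_mul, pj_mul_self hb, ← map_zero (lift (A g.1))] at h6
      have h7 := trace_pj b
      rw [emb_injective _ h6, hb] at h7
      simp at h7
    refine ⟨insert ⟨g.1, b⟩ F, by rw [card_insert_of_notMem a4]; omega,
      ⟨fun p hp => ?_, fun p hp p' hp' hne => ?_⟩, fun p hp => ?_,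
      forall_mem_insert _ _ _ |>.2 ⟨?_, fun x hx => ?_⟩⟩
    · rcases mem_insert.1 hp with rfl | hp
      exacts [hb, H.norm p hp]
    rotate_left
    · rcases mem_insert.1 hp with rfl | hp
      · exact ⟨g, mem_insert_self _ _, rfl⟩
      · exact (h2 p hp).imp fun x hx => ⟨mem_insert_of_mem hx.1, hx.2⟩
    rotate_right
    · rcases mem_insert.1 hp with rfl | hp <;> rcases mem_insert.1 hp' with rfl | hp'
      · exact absurd rfl hne
      · exact a3 _ hp'
      · rw [← cyl_herm p, ← cyl_herm ⟨g.1, b⟩, ← conjTranspose_mul, a3 p hp, conjTranspose_zero]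
      · exact H.orth p hp p' hp' hne
    · rw [sum_insert a4, ← hk, cyl, cyl, ← map_add, ← map_mul, add_comm, h5]
    · rw [sum_insert a4, Matrix.add_mul, h3 x hx, ← h3 x hx, ← Matrix.mul_assoc, a2,
        Matrix.zero_mul, zero_add]

lemma one_sub_rpow_le {u θ : ℝ} (hu : 0 ≤ u) (hθ : 0 ≤ θ) :
    0 ≤ (1 + u) ^ (-θ) ∧ (1 + u) ^ (-θ) ≤ 1 ∧ 1 - (1 + u) ^ (-θ) ≤ θ * u := by
  refine ⟨by positivity, Real.rpow_le_one_of_one_le_of_nonpos (by linarith) (by linarith), ?_⟩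
  rw [Real.rpow_def_of_pos (by positivity)]
  nlinarith [Real.add_one_le_exp (Real.log (1 + u) * -θ),
    Real.log_le_sub_one_of_pos (show 0 < 1 + u by positivity)]

lemma cut_le {X : Finset ι} {χ : Q.Vec (Cfg d)} {P : Q.Op d} (hP : ‖P‖ ≤ 1) {D τ θ : ℝ}
    (hD : 0 ≤ D) (hτ : 0 ≤ τ) (hθ : 0 ≤ θ) (h : ∀ i, τ < D * ev (rd X χ) i → P * su X χ i i = 0) :
    ‖fr (fun x => (1 + D * x) ^ (-θ)) (mg X (pj χ))‖ ≤ 1 ∧
      ‖P * fr (fun x => (1 + D * x) ^ (-θ)) (mg X (pj χ)) - P‖ ≤ θ * τ := by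
  have h0 := fun i => one_sub_rpow_le
    (mul_nonneg hD (ev_nonneg (mg_posSemidef X (pj_posSemidef χ)) i)) hθ
  refine ⟨norm_fc_le zero_le_one fun i => by
    rw [Complex.norm_real, Real.norm_of_nonneg (h0 i).1]; exact (h0 i).2.1, ?_⟩
  have e : P * fr (fun x => (1 + D * x) ^ (-θ)) (mg X (pj χ)) - P =
      P * fr (fun x => if τ < D * x then 0 else (1 + D * x) ^ (-θ) - 1) (mg X (pj χ)) := by
    nth_rewrite 2 [← Matrix.mul_one P]
    rw [← Matrix.mul_sub, ← fc_one (mg X (pj χ)), fc_sub, fr, T.fc_mg, T.fc_mg, Finset.mul_sum,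
      Finset.mul_sum]
    refine Finset.sum_congr rfl fun i _ => ?_
    split_ifs with hi
    · simp [h i hi]
    · simp
  rw [e]
  refine (norm_mul_le _ _).trans ((mul_le_of_le_one_left (norm_nonneg _) hP).trans
    (norm_fc_le (by positivity) fun i => ?_))
  rw [Complex.norm_real]
  beta_reduce
  split_ifs with hi
  · simp; positivity
  · rw [norm_sub_rev, Real.norm_of_nonneg (sub_nonneg.2 (h0 i).2.1)]
    exact (h0 i).2.2.trans (mul_le_mul_of_nonneg_left (not_lt.1 hi) hθ)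

lemma card_big_le (X : Finset ι) {χ : Q.Vec (Cfg d)} (hχ : ‖χ‖ = 1) {D τ : ℝ} (hD : 0 ≤ D) :
    ((univ.filter fun i => τ < D * ev (rd X χ) i).card : ℝ) * τ ≤ D := by
  rw [← nsmul_eq_mul]
  refine (card_nsmul_le_sum _ _ _ fun i hi => (mem_filter.1 hi).2.le).trans
    ((sum_le_sum_of_subset_of_nonneg (subset_univ _) fun i _ _ =>
      mul_nonneg hD (ev_nonneg (rd_psd X χ) i)).trans_eq ?_)
  rw [← Finset.mul_sum, sum_ev_rd, hχ]; ring

end sites

theorem patch_of (H : TiltPLStmt) : PatchStmt := by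
  intro q R J Δ hq hJ hΔ
  classical
  have hT := cT_pos hq R hJ
  set c := min (1 / 4) √(Δ / (400 * 32 * cT q R J)) with hc
  have hc0 : 0 < c := by positivity
  have hc1 : c ≤ 1 / 4 := min_le_left _ _
  have hc2 : c ^ 2 ≤ Δ / (400 * 32 * cT q R J) :=
    (Real.le_sqrt hc0.le (by positivity)).1 (min_le_right _ _)
  refine ⟨c, 15, hc0, by norm_num, fun Λ _ _ s m nb A s₀ t hm hnb hs ht h1 h2 h3 h4 => ?_⟩
  have : ∀ _ : Λ, Nonempty (Fin q) := fun _ => ⟨⟨0, hq⟩⟩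
  have hm' : (1 : ℝ) ≤ m := by exact_mod_cast hm
  have hnb' : (m : ℝ) ≤ nb := by exact_mod_cast hnb
  have hr : 1 ≤ √((m : ℝ) * nb) := Real.one_le_sqrt.2 (by nlinarith)
  set θ := c / √((m : ℝ) * nb) with hθ
  have hθ0 : 0 < θ := by positivity
  let A' : ℕ → Finset Λ := fun j => if h : j < m then A (Fin.rev ⟨j, h⟩) else ∅
  have hA' : ∀ j (h : j < m), A' j = A (Fin.rev ⟨j, h⟩) := fun j h => dif_pos h
  obtain ⟨χ, hχ, hb⟩ := H Λ (fun _ => Fin q) (Finset Λ) s.h id s.Ω s.E Δ A' m θ s₀ t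
    ⟨h_supp s, h_herm s, gap_sys s, hΔ⟩
    ⟨fun i j hij hj => by
      rw [hA' j hj, hA' i (by omega)]; exact h1 _ _ (Fin.rev_le_rev.2 hij),
    fun X hX i j hij hj hx => by
      rw [hA' i (by omega)] at hx
      rw [hA' j hj]; exact h2 X hX _ _ (Fin.rev_lt_rev.2 hij) hx⟩ hθ0
    ((div_le_self hc0.le hr).trans hc1) (by
      refine (sum_le_card_nsmul _ _ (32 * θ ^ 2 * (cT q R J * nb)) fun j hj => ?_).trans ?_
      · have h5 := sum_crosses_le hq s (A' j) zero_le_one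
        simp only [one_mul] at h5
        gcongr
        refine h5.trans ?_
        gcongr
        rw [hA' j (mem_range.1 hj)]; exact h3 _
      · rw [le_div_iff₀ (by positivity)] at hc2
        rw [card_range, nsmul_eq_mul, hθ, div_pow, Real.sq_sqrt (by positivity)]
        have : (nb : ℝ) ≠ 0 := by linarith
        field_simp
        linarith) hs ht fun j hj => by rw [hA' j hj]; exact (S_eq _ _).ge.trans (h4 _)
  set D := Real.exp (10 * s₀ + 10 * t + 4) with hD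
  obtain ⟨F, f1, f2, -, f3⟩ := gs (d := fun _ => Fin q) h1 (univ.sigma fun k =>
    (univ.filter fun i => Real.exp (-t) < D * ev (rd (A k) χ) i).image (evec (rd (A k) χ)))
  have hP : ‖1 - ∑ x ∈ F, cyl x‖ ≤ 1 :=
    (IsStarProjection.one_sub ⟨f2.idem, sum_cyl_herm F⟩).norm_le _
  have hrk : ∀ p : Cyl (fun _ => Fin q) A, rk1 (A p.1) p.2.ofLp p.2.ofLp = cyl p :=
    fun p => localOp_eq _ _
  refine ⟨F.card, fun α => (F.equivFin.symm α).1.1, fun α => (F.equivFin.symm α).1.2.ofLp, ?_,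
    fun α => ?_, fun α β hne => ?_, ?_⟩
  · have h5 : (F.card : ℝ) ≤ ∑ _k : Fin m, D / Real.exp (-t) := by
      refine (Nat.cast_le.2 f1).trans ?_
      rw [card_sigma, Nat.cast_sum]
      refine sum_le_sum fun k _ => (Nat.cast_le.2 card_image_le).trans ?_
      rw [le_div_iff₀ (Real.exp_pos _)]
      exact card_big_le _ hχ (Real.exp_pos _).le
    rw [sum_const, card_univ, Fintype.card_fin, nsmul_eq_mul, hD, ← Real.exp_sub] at h5
    refine h5.trans ?_
    gcongr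
    linarith
  · rw [← EuclideanSpace.norm_sq_eq, f2.norm _ (F.equivFin.symm α).2, one_pow]
  · rw [hrk, hrk]
    exact f2.orth _ (F.equivFin.symm α).2 _ (F.equivFin.symm β).2
      fun h => hne (F.equivFin.symm.injective (Subtype.ext h))
  · simp only [hrk]
    rw [F.equivFin.symm.sum_comp fun p => cyl p.1, sum_coe_sort F cyl]
    have h5 := tel hP s.gap.1 m (e := θ * Real.exp (-t))
      (B := fun j => fr (fun x => (1 + D * x) ^ (-θ)) (mg (A' j) (pj χ))) fun j hj => by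
        rw [hA' j hj]
        refine cut_le hP (Real.exp_pos _).le (Real.exp_pos _).le hθ0.le fun i hi => ?_
        have := f3 ⟨_, evec (rd (A (Fin.rev ⟨j, hj⟩)) χ) i⟩
          (mem_sigma.2 ⟨mem_univ _, mem_image_of_mem _ (mem_filter.2 ⟨mem_univ _, hi⟩)⟩)
        rw [Matrix.sub_mul, Matrix.one_mul, sub_eq_zero]
        exact this.symm
    rw [ap_sub, ap_one, norm_sub_rev] at h5
    refine h5.trans ((add_le_add_left hb _).trans ?_)
    have e1 : θ * m = c * √((m : ℝ) / nb) := by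
      have h6 : 0 < √(m : ℝ) := by positivity
      rw [hθ, Real.sqrt_mul (by positivity), Real.sqrt_div (by positivity)]
      nth_rewrite 2 [← Real.mul_self_sqrt (Nat.cast_nonneg (α := ℝ) m)]
      field_simp
    have e2 : √((m : ℝ) / nb) ≤ 1 := Real.sqrt_le_one.2 ((div_le_one (by linarith)).2 hnb')
    set u := c * t * √((m : ℝ) / nb) with hu
    have e3 : 0 ≤ u := by positivity
    have e4 : u ≤ t / 4 :=
      calc u ≤ 1 / 4 * t * 1 := by rw [hu]; gcongr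
        _ = _ := by ring
    have e5 : θ * m ≤ u := by
      rw [e1, hu]; gcongr; exact le_mul_of_one_le_right hc0.le ht
    rw [show 5 / 2 * θ * m * t = 5 / 2 * u by rw [hu, mul_assoc _ θ, e1]; ring]
    calc _ ≤ Real.exp (-(5 / 2 * u)) + u * Real.exp (-(5 / 2 * u)) := by
          rw [← mul_assoc (m : ℝ), mul_comm _ θ]; gcongr; linarith
      _ = (u + 1) * Real.exp (-(5 / 2 * u)) := by ring
      _ ≤ Real.exp u * Real.exp (-(5 / 2 * u)) := by gcongr; exact Real.add_one_le_exp u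
      _ ≤ _ := by rw [← Real.exp_add]; gcongr; linarith

end Crest.Agent.N336.T
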