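import Crest.Agent.N336.T.Defs
import Crest.Agent.N336.T.Seg

-- ▼ part N336/T/SubS
section

/-!
# Row 336: scalar lemmas for item 3 (helper43)
-/

set_option autoImplicit false

namespace Crest.Agent.N336.T.Sub

open Real Set

/-- the gauge function -/
noncomputable def yy (e L δ x : ℝ) : ℝ := ((x + e) / (x + L)) ^ δ

/-- the barrier -/
noncomputable def FF (e L δ w : ℝ) : ℝ :=
  -(2 * δ * (L - e)) * log (1 - w ^ (1 / (2 * δ))) - e * log w

noncomputable def ps (e L x : ℝ) : ℝ := (x + L) * log (x + L) - (x + e) * log (x + e)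

/-- the concave surrogate of the entropy -/
noncomputable def ph (e L x : ℝ) : ℝ := ps e L x - ps e L 0

/-- the derivative of `ph` -/
noncomputable def dph (e L x : ℝ) : ℝ := log ((x + L) / (x + e))

variable {e L δ : ℝ}

lemma ph_zero (e L : ℝ) : ph e L 0 = 0 := sub_self _

lemma u_mem (hδ : 0 < δ) {w : ℝ} (hw : w ∈ Ioo (0 : ℝ) 1) :
    0 < w ^ (1 / (2 * δ)) ∧ w ^ (1 / (2 * δ)) < 1 :=
  ⟨rpow_pos_of_pos hw.1 _, rpow_lt_one hw.1.le hw.2 (by positivity)⟩

theorem barrier (he : 0 < e) (hL : e < L) (hδ : 0 < δ) : Barrier (-1) (Ioo 0 1) (FF e L δ) where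
  smooth := by
    intro w hw
    have h := u_mem hδ hw
    refine ContDiffAt.contDiffWithinAt ?_
    unfold FF
    refine (contDiffAt_const.mul ((contDiffAt_const.sub
      (contDiffAt_id.rpow_const_of_ne hw.1.ne')).log (by simp only [id]; linarith))).sub
      (contDiffAt_const.mul (contDiffAt_id.log hw.1.ne'))
  sub := by
    intro c hc M
    set M' := max M 1 with hM'
    have hM0 : 0 < M' := lt_of_lt_of_le one_pos (le_max_right _ _)
    have hMM : M ≤ M' := le_max_left _ _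
    have hLe : 0 < L - e := by linarith
    set κ := exp (-(M' / (c * (2 * δ * (L - e))))) with hκ
    have hκ0 : 0 < κ := exp_pos _
    have hκ1 : κ < 1 := by
      rw [hκ, exp_lt_one_iff, neg_lt_zero]; positivity
    refine ⟨exp (-(M' / (c * e))), ⟨exp_pos _, ?_⟩, (1 - κ) ^ (2 * δ),
      ⟨rpow_pos_of_pos (by linarith) _, rpow_lt_one (by linarith) (by linarith) (by positivity)⟩,
      fun w hw h => ?_⟩
    · rw [exp_lt_one_iff, neg_lt_zero]; positivity
    have hu := u_mem hδ hw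
    have l1 : log w < 0 := log_neg hw.1 hw.2
    have l2 : log (1 - w ^ (1 / (2 * δ))) < 0 := log_neg (by linarith) (by linarith)
    rw [min_eq_right (by linarith), add_zero, FF] at h
    have p1 : 0 < c * e := by positivity
    have p2 : 0 < c * (2 * δ * (L - e)) := by positivity
    constructor
    · rw [← exp_log hw.1, exp_le_exp, neg_le, le_div_iff₀ p1]
      nlinarith [mul_pos p2 (neg_pos.2 l2)]
    · have h1 : κ ≤ 1 - w ^ (1 / (2 * δ)) := by
        rw [← exp_log (show 0 < 1 - w ^ (1 / (2 * δ)) by linarith), hκ, exp_le_exp, neg_le,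
          le_div_iff₀ p2]
        nlinarith [mul_pos p1 (neg_pos.2 l1)]
      have h2 : w = (w ^ (1 / (2 * δ))) ^ (2 * δ) := by
        rw [← rpow_mul hw.1.le, one_div_mul_cancel (by positivity), rpow_one]
      rw [h2]
      exact rpow_le_rpow hu.1.le (by linarith) (by positivity)

theorem yy_deriv (hL : e < L) (hδ : 0 < δ) {w : ℝ} (hw : w ∈ Ioo (0 : ℝ) 1) :
    yy e L δ (-(w * deriv (FF e L δ) w) / (-1)) = sqrt w := by
  have hu := u_mem hδ hw
  have hw0 := hw.1
  set p := 1 / (2 * δ) with hp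
  have h1 : HasDerivAt (fun w : ℝ => 1 - w ^ p) (-(p * w ^ (p - 1))) w :=
    (hasDerivAt_rpow_const (Or.inl hw.1.ne')).const_sub 1
  have h2 : HasDerivAt (FF e L δ)
      (-(2 * δ * (L - e)) * (-(p * w ^ (p - 1)) / (1 - w ^ p)) - e * w⁻¹) w :=
    ((h1.log (by linarith)).const_mul _).sub ((hasDerivAt_log hw.1.ne').const_mul e)
  have h3 : 1 - w ^ p ≠ 0 := by linarith
  have h4 : L - e ≠ 0 := by linarith
  have hpd : 2 * δ * p = 1 := by rw [hp]; field_simp
  have h5 : -(w * deriv (FF e L δ) w) / (-1) = (L * w ^ p - e) / (1 - w ^ p) := by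
    rw [h2.deriv, rpow_sub_one hw.1.ne']
    field_simp
    linear_combination (L - e) * w ^ p * hpd
  rw [h5, yy]
  have h6 : ((L * w ^ p - e) / (1 - w ^ p) + e) / ((L * w ^ p - e) / (1 - w ^ p) + L) = w ^ p := by
    have a1 : (L * w ^ p - e) / (1 - w ^ p) + e = (L - e) * w ^ p / (1 - w ^ p) := by
      field_simp; ring
    have a2 : (L * w ^ p - e) / (1 - w ^ p) + L = (L - e) / (1 - w ^ p) := by
      field_simp; ring
    rw [a1, a2]; field_simp
  rw [h6, ← rpow_mul hw.1.le, sqrt_eq_rpow]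
  congr 1
  linarith

lemma yy_pos (he : 0 < e) (hL : e < L) {x : ℝ} (hx : 0 ≤ x) : 0 < yy e L δ x :=
  rpow_pos_of_pos (div_pos (by linarith) (by linarith)) _

lemma yy_lt_one (he : 0 < e) (hL : e < L) (hδ : 0 < δ) {x : ℝ} (hx : 0 ≤ x) : yy e L δ x < 1 :=
  rpow_lt_one (div_pos (by linarith) (by linarith)).le
    ((div_lt_one (by linarith)).2 (by linarith)) hδ

lemma log_yy (he : 0 < e) (hL : e < L) {x : ℝ} (hx : 0 ≤ x) :
    log (yy e L δ x) = δ * (log (x + e) - log (x + L)) := by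
  rw [yy, log_rpow (div_pos (by linarith) (by linarith)), log_div (by linarith) (by linarith)]

theorem yy_lip (he : 0 < e) (hL : e < L) (hδ : 0 < δ) {a b : ℝ} (ha : 0 < a) (hb : 0 < b) :
    |log (yy e L δ a) - log (yy e L δ b)| ≤ δ * |log a - log b| := by
  wlog h : b ≤ a generalizing a b
  · rw [abs_sub_comm, abs_sub_comm (log a)]; exact this hb ha (le_of_not_ge h)
  rw [log_yy he hL ha.le, log_yy he hL hb.le, ← mul_sub, abs_mul, abs_of_pos hδ]
  refine mul_le_mul_of_nonneg_left ?_ hδ.le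
  have h1 : log (b + e) + log (a + L) ≤ log (a + e) + log (b + L) := by
    rw [← log_mul (by linarith) (by linarith), ← log_mul (by linarith) (by linarith)]
    exact log_le_log (by have : 0 < a + L := by linarith
                         positivity) (by nlinarith)
  have h2 : log (a + e) + log b ≤ log (b + e) + log a := by
    rw [← log_mul (by linarith) (by linarith), ← log_mul (by linarith) (by linarith)]
    exact log_le_log (by positivity) (by nlinarith)
  have h3 : log (b + L) ≤ log (a + L) := log_le_log (by linarith) (by linarith)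
  rw [abs_of_nonneg (by linarith), abs_of_nonneg (by linarith)]
  linarith

theorem FF_yy (he : 0 < e) (hL : e < L) (hδ : 0 < δ) {x : ℝ} (hx : 0 ≤ x) :
    FF e L δ (yy e L δ x ^ 2) - 2 * (log (yy e L δ x) * x) =
      2 * δ * (ph e L x + (ps e L 0 - (L - e) * log (L - e))) := by
  have h0 : 0 < (x + e) / (x + L) := div_pos (by linarith) (by linarith)
  have h1 : (yy e L δ x ^ 2) ^ (1 / (2 * δ)) = (x + e) / (x + L) := by
    rw [yy, ← rpow_natCast, ← rpow_mul h0.le, ← rpow_mul h0.le]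
    rw [show δ * ((2 : ℕ) : ℝ) * (1 / (2 * δ)) = 1 by push_cast; field_simp, rpow_one]
  have h2 : 1 - (x + e) / (x + L) = (L - e) / (x + L) := by
    have : x + L ≠ 0 := by linarith
    field_simp; ring
  rw [FF, h1, h2, log_pow, log_yy he hL hx, log_div (by linarith) (by linarith), ph, ps]
  push_cast
  ring

lemma dph_eq (he : 0 < e) (hL : e < L) {x : ℝ} (hx : 0 ≤ x) :
    dph e L x = log (x + L) - log (x + e) := log_div (by linarith) (by linarith)

lemma dph_nonneg (he : 0 < e) (hL : e < L) {x : ℝ} (hx : 0 ≤ x) : 0 ≤ dph e L x :=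
  log_nonneg ((one_le_div (by linarith)).2 (by linarith))

lemma dph_le (he : 0 < e) (hL : e < L) {x : ℝ} (hx : 0 ≤ x) : dph e L x ≤ dph e L 0 := by
  refine log_le_log (div_pos (by linarith) (by linarith)) ?_
  rw [div_le_div_iff₀ (by linarith) (by linarith)]
  nlinarith

lemma mul_log_ge {a b : ℝ} (ha : 0 < a) (hb : 0 < b) : b - a ≤ b * (log b - log a) := by
  have h := log_le_sub_one_of_pos (div_pos ha hb)
  rw [log_div ha.ne' hb.ne'] at h
  have h2 : b * (a / b - 1) = a - b := by field_simp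
  nlinarith

/-- tangent line -/
theorem ph_tangent (he : 0 < e) (hL : e < L) {a b : ℝ} (ha : 0 ≤ a) (hb : 0 ≤ b) :
    ph e L b ≤ ph e L a + dph e L a * (b - a) := by
  have a1 : 0 < a + e := by linarith
  have a2 : 0 < a + L := by linarith
  have b1 : 0 < b + e := by linarith
  have b2 : 0 < b + L := by linarith
  have c : 0 < L - e := by linarith
  set r := (b + L) / (a + L) with hr
  have r0 : 0 < r := div_pos b2 a2
  have lr : log r = log (b + L) - log (a + L) := log_div b2.ne' a2.ne'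
  have h1 := mul_log_ge (mul_pos a1 r0) b1
  have h2 := mul_log_ge (mul_pos c r0) c
  rw [log_mul a1.ne' r0.ne', lr] at h1
  rw [log_mul c.ne' r0.ne', lr] at h2
  have h3 : (a + L) * r = b + L := by rw [hr]; field_simp
  rw [dph_eq he hL ha]
  simp only [ph, ps]
  nlinarith

lemma mul_dph_le (he : 0 < e) (hL : e < L) {x : ℝ} (hx : 0 ≤ x) : x * dph e L x ≤ ph e L x := by
  have := ph_tangent he hL hx le_rfl
  rw [ph_zero] at this
  linarith

lemma ph_le_add (he : 0 < e) (hL : e < L) {x : ℝ} (hx : 0 ≤ x) :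
    ph e L x ≤ x * dph e L x + x := by
  have h1 := mul_log_ge (a := x + L) (b := L) (by linarith) (by linarith)
  have h2 : log e ≤ log (x + e) := log_le_log he (by linarith)
  rw [dph_eq he hL hx, ph, ps, ps, zero_add, zero_add]
  nlinarith

variable {S S' B t : ℝ}

lemma e_lt (hB : 0 < B) (S : ℝ) : exp (-S - B) < exp (-S + B) := exp_lt_exp.2 (by linarith)

lemma dph_zero (S B : ℝ) : dph (exp (-S - B)) (exp (-S + B)) 0 = 2 * B := by
  rw [dph, zero_add, zero_add, ← exp_sub, log_exp]; ring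

theorem ph_ge (hB : 0 < B) (ht : 0 < t) (S : ℝ) {x : ℝ} (hx : 0 ≤ x) :
    x * (B - t - log 2) - B / t ^ 2 * (x * (-log x - S) ^ 2) ≤
      ph (exp (-S - B)) (exp (-S + B)) x := by
  have he := exp_pos (-S - B)
  have hL := e_lt hB S
  have h1 := mul_dph_le he hL hx
  have h2 := dph_nonneg he hL hx
  have l2 : 0 < log 2 := log_pos one_lt_two
  have h3 : 0 ≤ B / t ^ 2 * (x * (-log x - S) ^ 2) := by positivity
  rcases le_total x (exp (-S + t)) with h | h
  · have h4 : B - t - log 2 ≤ dph (exp (-S - B)) (exp (-S + B)) x := by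
      have a1 : log (exp (-S + B)) ≤ log (x + exp (-S + B)) :=
        log_le_log (exp_pos _) (by linarith)
      have a2 : log (x + exp (-S - B)) ≤ log (2 * exp (-S + t)) :=
        log_le_log (by linarith) (by linarith [exp_le_exp.2 (show -S - B ≤ -S + t by linarith)])
      rw [log_mul two_ne_zero (exp_pos _).ne', log_exp] at a2
      rw [log_exp] at a1
      rw [dph_eq he hL hx]; linarith
    nlinarith
  · have h4 : -S + t ≤ log x := by
      rw [← log_exp (-S + t)]; exact log_le_log (exp_pos _) h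
    have h5 : t ^ 2 ≤ (-log x - S) ^ 2 := by nlinarith
    have h6 : B * x ≤ B / t ^ 2 * (x * (-log x - S) ^ 2) := by
      calc B * x = B / t ^ 2 * (x * t ^ 2) := by field_simp
        _ ≤ _ := by gcongr
    nlinarith [mul_nonneg hx h2, mul_nonneg hx ht.le, mul_nonneg hx l2.le]

theorem ph_le (hB : 0 < B) (ht : 0 < t) (hS : S - S' ≤ B) {x : ℝ} (hx : 0 ≤ x) :
    ph (exp (-S - B)) (exp (-S + B)) x ≤ x * (1 + log 2 + B + t - (S - S')) +
      2 * B / t ^ 2 * (x * (-log x - S') ^ 2) := by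
  have he := exp_pos (-S - B)
  have hL := e_lt hB S
  have l2 : 0 < log 2 := log_pos one_lt_two
  have h3 : 0 ≤ 2 * B / t ^ 2 * (x * (-log x - S') ^ 2) := by positivity
  rcases hx.eq_or_lt with rfl | hx0
  · simp [ph_zero]
  rcases le_total (exp (-S' - t)) x with h | h
  · have h1 := ph_le_add he hL hx
    have h4 : dph (exp (-S - B)) (exp (-S + B)) x ≤ log 2 + B + t - (S - S') := by
      have a1 : log x ≤ log (x + exp (-S - B)) := log_le_log hx0 (by linarith)
      have b1 : 1 ≤ exp (B + t - (S - S')) := one_le_exp (by linarith)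
      have b2 : exp (-S + B) = exp (-S' - t) * exp (B + t - (S - S')) := by
        rw [← exp_add]; congr 1; ring
      have a2 : log (x + exp (-S + B)) ≤ log (2 * (x * exp (B + t - (S - S')))) :=
        log_le_log (by linarith) (by rw [b2]; nlinarith)
      rw [log_mul two_ne_zero (by positivity), log_mul hx0.ne' (exp_pos _).ne', log_exp] at a2
      rw [dph_eq he hL hx]; linarith
    nlinarith
  · have h1 := ph_tangent he hL le_rfl hx
    rw [ph_zero, dph_zero] at h1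
    have h4 : log x ≤ -S' - t := by
      rw [← log_exp (-S' - t)]; exact log_le_log hx0 h
    have h5 : t ^ 2 ≤ (-log x - S') ^ 2 := by nlinarith
    have h6 : 2 * B * x ≤ 2 * B / t ^ 2 * (x * (-log x - S') ^ 2) := by
      calc 2 * B * x = 2 * B / t ^ 2 * (x * t ^ 2) := by field_simp
        _ ≤ _ := by gcongr
    have h7 : 0 ≤ x * (1 + log 2 + B + t - (S - S')) := mul_nonneg hx (by linarith)
    linarith

end Crest.Agent.N336.T.Sub
end

-- ▼ part N336/T/Sub
section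

/-!
# Row 336: the abstract form of item 3 (helper43)

* `tiltSub : EngStmt → EnergyStmt → TiltSubStmt`
-/

set_option autoImplicit false
set_option linter.unusedSectionVars false

open Matrix Finset
open scoped ComplexOrder MatrixOrder Matrix.Norms.L2Operator InnerProductSpace Topology

namespace Crest.Agent.N336.T

open Crest.Agent.N336.Q Crest.Agent.N336.A
open Crest.Agent.N336.Eng (cpw lg qf SB)

attribute [local irreducible] ev eU

namespace Sub

/-- the derivative form of the three lines theorem -/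
theorem re_deriv_le {f : ℂ → ℂ} (hf : SB f) (h0 : f 0 = 1) {b : ℝ}
    (hl : ∀ w : ℂ, w.re = 0 → ‖f w‖ ≤ 1) (hr : ∀ w : ℂ, w.re = 1 → ‖f w‖ ≤ Real.exp b) {f' : ℂ}
    (hd : HasDerivAt f f' 0) : f'.re ≤ b := by
  have h1 : HasDerivAt (fun x : ℝ => (f x).re) f'.re 0 :=
    HasDerivAt.real_of_complex (z := 0) (by simpa using hd)
  have h2 : HasDerivAt (fun x : ℝ => Real.exp (x * b)) b 0 := by
    simpa using ((hasDerivAt_id (0 : ℝ)).mul_const b).exp
  have h3 := (h2.sub h1).tendsto_slope_zero_right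
  refine sub_nonneg.1 (ge_of_tendsto h3 ?_)
  filter_upwards [Ioo_mem_nhdsGT (zero_lt_one' ℝ)] with x hx
  have h4 := Eng.three_exp hf (m₀ := 0) (m₁ := b) zero_lt_one (z := x) (by simpa using hx.1.le)
    (by simpa using hx.2.le) (by simpa using hl) hr
  have h5 := Complex.re_le_norm (f x)
  simp only [Complex.ofReal_re, zero_mul, sub_zero, div_one, zero_add] at h4
  simp only [zero_add, Pi.sub_apply, zero_mul, Real.exp_zero, Complex.ofReal_zero, h0,
    Complex.one_re, sub_self, sub_zero, smul_eq_mul]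
  rw [mul_comm b] at h4
  exact mul_nonneg (inv_pos.2 hx.1).le (by linarith)

section matrices

variable {n : Type} [Fintype n] [DecidableEq n]

lemma exists_ev_fr (g : ℝ → ℝ) (M : Matrix n n ℂ) (i : n) : ∃ j, ev (fr g M) i = g (ev M j) := by
  classical
  by_contra hc
  have h1 := re_trace_fr (fun x => if ∃ j, x = g (ev M j) then 0 else 1) (fr g M)
  rw [fr, fc_fr, fc_congr (g := fun _ => 0) fun j => by rw [if_pos ⟨j, rfl⟩]; simp, fc_zero,
    trace_zero, Complex.zero_re] at h1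
  have h2 := Finset.single_le_sum (f := fun i => if ∃ j, ev (fr g M) i = g (ev M j) then (0 : ℝ)
    else 1) (fun i _ => by split_ifs <;> norm_num) (mem_univ i)
  rw [← h1, if_neg hc] at h2
  norm_num at h2

/-- Klein's inequality -/
theorem klein {f f' : ℝ → ℝ} (h : ∀ a b, 0 ≤ a → 0 ≤ b → f b ≤ f a + f' a * (b - a))
    {a b : Matrix n n ℂ} (ha : a.PosSemidef) (hb : b.PosSemidef) :
    tF f b ≤ tF f a + (trace (fr f' a * b)).re - (trace (fr f' a * a)).re := by
  have h1 := re_trace_fr_mul_fr f' (fun x => x) a b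
  have h2 : (trace (fr f' a * a)).re = ∑ i, f' (ev a i) * ev a i := by
    conv_lhs => arg 1; arg 1; arg 2; rw [← fc_id ha.1]
    rw [fc_mul, trace_fc]; simp
  rw [fr_id hb.1] at h1
  rw [h1, h2, tF, tF, sum_ev_right f a b, sum_ev_left f a b,
    sum_ev_left (fun x => f' x * x) a b, ← Finset.sum_add_distrib, ← Finset.sum_sub_distrib]
  refine Finset.sum_le_sum fun i _ => ?_
  rw [← Finset.sum_add_distrib, ← Finset.sum_sub_distrib]
  refine Finset.sum_le_sum fun j _ => ?_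
  have := mul_le_mul_of_nonneg_left (h _ _ (ev_nonneg ha i) (ev_nonneg hb j)) (ov_nonneg a b i j)
  linarith

lemma dseg_congr {Y Y' C C' : ℕ → Matrix n n ℂ} {m : ℕ} (h : ∀ j < m, Y j = Y' j)
    (h' : ∀ j < m, C j = C' j) : dseg Y C m = dseg Y' C' m := by
  refine Finset.sum_congr rfl fun j hj => ?_
  rw [mem_range] at hj
  rw [h' j hj, seg_congr (Y' := Y') fun i _ hi => h i (by omega),
    seg_congr (Y := Y) (Y' := Y') (k := 0) fun i _ hi => h i (by omega)]

lemma cpw_sq {W : Matrix n n ℂ} (hW : W.PosDef) {z : ℂ} (hz : z.re = 1) :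
    (cpw W z)ᴴ * cpw W z = Wᴴ * W := by
  rw [Eng.cpw_conjTranspose, Eng.cpw_mul_cpw, add_comm, Complex.add_conj, hz, hW.1.eq]
  conv_rhs => rw [← Eng.cpw_one hW, Eng.cpw_mul_cpw]
  norm_num

lemma fc_proj_mul {O σ : Matrix n n ℂ} (hO : O.IsHermitian) (h2 : O * O = O) (hσ : σ.IsHermitian)
    (hc : Commute O σ) (f : ℝ → ℂ) : fc f (O * σ) = O * fc f σ + f 0 • (1 - O) := by
  have hH := Eng.isHermitian_mul hO hσ hc
  have h3 := fc_intertwine f hH hσ (V := O) (by rw [Matrix.mul_assoc, ← hc.eq, ← Matrix.mul_assoc, h2])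
  have h4 := Eng.fc_mul_of_eig f hH (V := 1 - O) (c := 0) (by
    rw [hc.eq, Matrix.mul_assoc, Matrix.mul_sub, Matrix.mul_one, h2, sub_self]; simp)
  rw [← h3, ← h4, ← Matrix.mul_add, add_sub_cancel, Matrix.mul_one]

end matrices

section sites

variable {ι : Type} [Fintype ι] [DecidableEq ι]
  {d : ι → Type} [∀ x, Fintype (d x)] [∀ x, DecidableEq (d x)] [∀ x, Nonempty (d x)]

/-- `tr f(ρ_X)` -/
noncomputable def Ph (f : ℝ → ℝ) (X : Finset ι) (ψ : Q.Vec (Cfg d)) : ℝ :=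
  ∑ i, f (ev (red (sb X) (pj ψ)) i)

lemma klein_mg {f f' : ℝ → ℝ} (h : ∀ a b, 0 ≤ a → 0 ≤ b → f b ≤ f a + f' a * (b - a))
    {X : Finset ι} {a : Q.Op d} (ha : a.PosSemidef) (hX : Supp X a) (ψ : Q.Vec (Cfg d)) :
    Ph f X ψ ≤ tX X f a + qf ψ (fr f' a) - (dim d Xᶜ : ℝ)⁻¹ * (trace (fr f' a * a)).re := by
  have h1 := mul_le_mul_of_nonneg_left (klein h ha (mg_posSemidef X (pj_posSemidef ψ)))
    (inv_pos.2 (dim_pos_real (d := d) Xᶜ)).le
  rw [Ph, ← tX_mg X f (pj_isHermitian ψ), tX, tX, Eng.qf_eq_trace_mg (hX.fc _ ha.1),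
    div_eq_inv_mul]
  linarith

lemma trace_spP_mul_supp {X D : Finset ι} (hD : D ⊆ X) (w : Q.Op d) (l) {M : Q.Op d}
    (hM : Supp (X \ D) M) : (dim d Xᶜ : ℝ)⁻¹ * (trace (spP D w l * M)).re =
      (dim d (X \ D)ᶜ : ℝ)⁻¹ * (trace M).re := by
  have h1 := trace_mul_disjoint (supp_spP D w l) hM disjoint_sdiff
  have h2 := dim_compl_mul (d := d) (disjoint_sdiff : Disjoint D (X \ D))
  rw [union_sdiff_of_subset hD] at h2
  rw [trace_spP] at h1
  have h3 := congrArg Complex.re h1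
  simp only [Complex.mul_re, Complex.natCast_re, Complex.natCast_im, zero_mul, sub_zero] at h3
  have h4 : (dim d Dᶜ : ℝ) * dim d (X \ D)ᶜ = dim d univ * dim d Xᶜ := by exact_mod_cast h2
  have p1 := dim_pos_real (d := d) Xᶜ
  have p2 := dim_pos_real (d := d) (X \ D)ᶜ
  have p3 := dim_pos_real (d := d) univ
  field_simp
  refine mul_left_cancel₀ p3.ne' ?_
  linear_combination (dim d (X \ D)ᶜ : ℝ) * h3 + (trace M).re * h4

/-- the state conditioned on an eigenvalue of the marginal on `D` -/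
theorem ph_cond {f f' : ℝ → ℝ} (h : ∀ a b, 0 ≤ a → 0 ≤ b → f b ≤ f a + f' a * (b - a))
    (f0 : f 0 = 0) {X D : Finset ι} (hD : D ⊆ X) (Ω : Q.Vec (Cfg d)) (l) {ψ : Q.Vec (Cfg d)}
    (hψ : ap (spP D (pj Ω) l) ψ = ψ) :
    Ph f X ψ ≤ Ph f (X \ D) Ω + qf ψ (fr f' (mg (X \ D) (pj Ω))) -
      qf Ω (fr f' (mg (X \ D) (pj Ω))) := by
  set O := spP D (pj Ω) l with hO
  set σ := mg (X \ D) (pj Ω) with hσ
  have pO : O.PosSemidef := spP_posSemidef _ _ _
  have pσ : σ.PosSemidef := mg_posSemidef _ (pj_posSemidef Ω)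
  have sσ : Supp (X \ D) σ := supp_mg _ _
  have hOO : O * O = O := by rw [hO, spP_mul, if_pos rfl]
  have hc : ∀ {M : Q.Op d}, Supp (X \ D) M → Commute O M := fun hM =>
    (supp_spP _ _ _).commute hM disjoint_sdiff
  have h1 := klein_mg h (Eng.posSemidef_mul pO pσ (hc sσ))
    (((supp_spP _ _ _).mono hD).mul (sσ.mono sdiff_subset)) ψ
  have e := fc_proj_mul pO.1 hOO pσ.1 (hc sσ)
  have e1 : tX X f (O * σ) = Ph f (X \ D) Ω := by
    rw [tX, tF_eq, fr, e, f0, Complex.ofReal_zero, zero_smul, add_zero,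
      trace_spP_mul_supp hD _ _ (sσ.fc _ pσ.1), Ph, ← tX_mg _ f (pj_isHermitian Ω), tX, tF_eq]
  have e2 : qf ψ (fr f' (O * σ)) = qf ψ (fr f' σ) := by
    rw [fr, e, qf, ap_add, ap_smul, ap_sub, ap_one, hψ, sub_self, smul_zero, add_zero,
      (hc (sσ.fc _ pσ.1)).eq, ap_mul, hψ]
  have e3 : fr f' (O * σ) * (O * σ) = O * (fr f' σ * σ) := by
    rw [fr, e, Matrix.add_mul, Matrix.smul_mul, Matrix.sub_mul, Matrix.one_mul,
      ← Matrix.mul_assoc O O, hOO, sub_self, smul_zero, add_zero, (hc (sσ.fc _ pσ.1)).eq,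
      Matrix.mul_assoc, ← Matrix.mul_assoc O O, hOO, ← Matrix.mul_assoc,
      ← (hc (sσ.fc _ pσ.1)).eq, Matrix.mul_assoc]
  rw [e1, e2, e3, trace_spP_mul_supp hD _ _ ((sσ.fc _ pσ.1).mul sσ)] at h1
  rw [Eng.qf_eq_trace_mg (sσ.fc _ pσ.1) Ω, div_eq_inv_mul]
  exact h1

variable {I : Set ℝ} {F y : ℕ → ℝ → ℝ} {A : ℕ → Finset ι} {m : ℕ} {Ω χ : Q.Vec (Cfg d)}
  {Y : ℕ → Q.Op d} {N : ℝ}

lemma norm_seg_cpw_le (h : Stat (-1) I F A m Ω y Y χ N) {W : ℕ → Q.Op d} (hW : Adm I A m W)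
    (hp : ∀ j < m, (W j).PosDef) {z : ℂ} (hz : z.re = 1) :
    ‖ap (seg (fun j => cpw (W j) z) 0 m) Ω‖ ≤
      Real.exp ((∑ j ∈ range m, tX (A j) (F j) ((W j)ᴴ * W j) - LL (-1) F A m Ω Y) / 2) := by
  have h1 := h.min (fun j => cpw (W j) z) fun j hj =>
    ⟨Eng.supp_cpw (hW j hj).1 (hp j hj).1 z, by rw [cpw_sq (hp j hj) hz]; exact (hW j hj).2⟩
  conv_rhs at h1 => rw [LL, Finset.sum_congr rfl fun j hj => by
    rw [cpw_sq (hp j (mem_range.1 hj)) hz]]
  rcases (norm_nonneg (ap (seg (fun j => cpw (W j) z) 0 m) Ω)).eq_or_lt with h0 | h0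
  · rw [← h0]; positivity
  · rw [← Real.exp_log h0, Real.exp_le_exp]
    rw [Real.log_pow] at h1
    push_cast at h1
    linarith

lemma norm_seg_cpw_im (W : ℕ → Q.Op d) (m : ℕ) {z : ℂ} (hz : z.re = 0) {u v : Q.Vec (Cfg d)}
    (hu : ‖u‖ = 1) (hv : ‖v‖ = 1) : ‖⟪u, ap (seg (fun j => cpw (W j) z) 0 m) v⟫_ℂ‖ ≤ 1 := by
  have := norm_inner_ap_le (seg (fun j => cpw (W j) z) 0 m) u v
  rw [hu, hv, mul_one, mul_one] at this
  exact this.trans (norm_seg_le fun j _ _ => Eng.norm_cpw_im_le _ hz)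

theorem up (h : Stat (-1) I F A m Ω y Y χ N) (hΩ : ‖Ω‖ = 1) (hp : ∀ j < m, (Y j).PosDef) :
    ∑ j ∈ range m, tX (A j) (F j) ((Y j)ᴴ * Y j) - 2 * ∑ j ∈ range m, qf χ (lg (Y j)) ≤
      LL (-1) F A m Ω Y := by
  have hN := h.pos
  have hN' : (N : ℂ) ≠ 0 := by exact_mod_cast hN.ne'
  have hL : LL (-1) F A m Ω Y =
      ∑ j ∈ range m, tX (A j) (F j) ((Y j)ᴴ * Y j) - 2 * Real.log N := by
    rw [LL, h.norm_seg, Real.log_pow]; push_cast; ring
  have hd : HasDerivAt (fun w : ℂ => seg (fun j => cpw (Y j) (1 - w)) 0 m)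
      (dseg Y (fun j => Y j * -lg (Y j)) m) 0 := by
    have := hasDerivAt_seg (F := fun j (w : ℂ) => cpw (Y j) (1 - w))
      (C := fun j => (-1 : ℂ) • (lg (Y j) * cpw (Y j) (1 - 0))) (z := 0) (m := m) fun j _ =>
        (Eng.hasDerivAt_cpw (Y j) (1 - 0)).scomp (0 : ℂ) ((hasDerivAt_id (0 : ℂ)).const_sub 1)
    rwa [dseg_congr (Y' := Y) (C' := fun j => Y j * -lg (Y j))
      (fun j hj => by rw [sub_zero, Eng.cpw_one (hp j hj)]) fun j hj => by
        rw [sub_zero, Eng.cpw_one (hp j hj), neg_one_smul, Matrix.mul_neg,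
          (commute_fc _ (hp j hj).1 (Commute.refl _)).eq]] at this
  have hd' := (Eng.HasDerivAt.inner_ap hd χ Ω).const_mul (N : ℂ)⁻¹
  rw [h.inner_dseg fun j hj => (Eng.supp_lg (h.adm j hj).1 (hp j hj).1).neg,
    inv_mul_cancel_left₀ hN'] at hd'
  have hn : ‖(N : ℂ)⁻¹‖ = N⁻¹ := by
    rw [norm_inv, Complex.norm_real, Real.norm_eq_abs, abs_of_pos hN]
  have key := re_deriv_le (b := -Real.log N) ((((sb_seg fun j _ _ =>
    SB.cpw_of (Y j) (-1) 1 fun z => by push_cast; ring).ap_const Ω).inner χ).const_mul _) ?_ ?_ ?_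
    hd'
  · simp only [Complex.re_sum, ap_neg, inner_neg_right, Complex.neg_re,
      Finset.sum_neg_distrib] at key
    rw [hL]; linarith
  · rw [seg_congr (Y' := Y) fun j _ hj => by rw [sub_zero, Eng.cpw_one (hp j (by omega))], h.chi,
      inner_smul_right, inner_self_eq_norm_sq_to_K, h.norm]
    simp [hN']
  · intro w hw
    have h1 := norm_seg_cpw_le h h.adm hp (z := 1 - w) (by simp [hw])
    rw [hL, sub_sub_cancel, mul_div_cancel_left₀ _ two_ne_zero, Real.exp_log hN] at h1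
    have h2 := norm_inner_le_norm (𝕜 := ℂ) χ (ap (seg (fun j => cpw (Y j) (1 - w)) 0 m) Ω)
    rw [h.norm, one_mul] at h2
    rw [norm_mul, hn, inv_mul_le_iff₀ hN, mul_one]
    exact h2.trans h1
  · intro w hw
    rw [norm_mul, hn, Real.exp_neg, Real.exp_log hN]
    exact mul_le_of_le_one_right (inv_pos.2 hN).le
      (norm_seg_cpw_im Y m (by simp [hw]) h.norm hΩ)

theorem low (h : Stat (-1) I F A m Ω y Y χ N) {W : ℕ → Q.Op d} (hW : Adm I A m W)
    (hp : ∀ j < m, (W j).PosDef) {O : Q.Op d} (hO : O.IsHermitian)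
    (hc : ∀ j < m, Commute (W j) O) {f : Q.Vec (Cfg d)} (hf : ‖f‖ = 1) {a : ℝ} (ha : 0 < a)
    (h1 : ap O Ω = (a : ℂ) • f) (h2 : ap O f = f) :
    LL (-1) F A m Ω Y ≤ ∑ j ∈ range m, tX (A j) (F j) ((W j)ᴴ * W j) -
      2 * ∑ j ∈ range m, qf f (lg (W j)) - 2 * Real.log a := by
  have hd := hasDerivAt_seg (F := fun j (w : ℂ) => cpw (W j) w) (C := fun j => lg (W j)) (z := 0)
    (m := m) fun j _ => Eng.hasDerivAt_cpw_zero (W j)
  have hd' := Eng.HasDerivAt.inner_ap hd f f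
  simp only [Eng.cpw_zero, dseg, seg_one, Matrix.mul_one, Matrix.one_mul, ap_sum,
    inner_sum] at hd'
  have key := re_deriv_le
    (b := (∑ j ∈ range m, tX (A j) (F j) ((W j)ᴴ * W j) - LL (-1) F A m Ω Y) / 2 - Real.log a)
    (((sb_seg fun j _ _ => SB.cpw (W j)).ap_const f).inner f) ?_
    (fun w hw => norm_seg_cpw_im W m hw hf hf) ?_ hd'
  · rw [Complex.re_sum] at key
    linarith
  · simp only [Eng.cpw_zero, seg_one, ap_one, inner_self_eq_norm_sq_to_K, hf]
    simp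
  · intro w hw
    have h3 := norm_seg_cpw_le h hW hp hw
    have h4 : Commute O (seg (fun j => cpw (W j) w) 0 m) := commute_seg fun j _ hj =>
      (Eng.commute_cpw_left (hp j (by omega)).1 (hc j (by omega)) w).symm
    have h5 : (a : ℂ) * ⟪f, ap (seg (fun j => cpw (W j) w) 0 m) f⟫_ℂ =
        ⟪f, ap (seg (fun j => cpw (W j) w) 0 m) Ω⟫_ℂ := by
      rw [← inner_smul_right, ← map_smul, ← h1, ← ap_mul, ← h4.eq, ap_mul, inner_ap_right, hO.eq,
        h2]
    have h6 := norm_inner_le_norm (𝕜 := ℂ) f (ap (seg (fun j => cpw (W j) w) 0 m) Ω)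
    rw [← h5, hf, one_mul, norm_mul, Complex.norm_real, Real.norm_eq_abs, abs_of_pos ha] at h6
    rw [Real.exp_sub, Real.exp_log ha, le_div_iff₀ ha, mul_comm]
    exact h6.trans h3

lemma id_eq {e L δ : ℝ} (he : 0 < e) (hL : e < L) (hδ : 0 < δ) (X : Finset ι)
    (ψ : Q.Vec (Cfg d)) :
    tX X (FF e L δ) ((fr (yy e L δ) (mg X (pj ψ)))ᴴ * fr (yy e L δ) (mg X (pj ψ))) -
      2 * qf ψ (lg (fr (yy e L δ) (mg X (pj ψ)))) = 2 * δ * Ph (ph e L) X ψ +
        2 * δ * (dim d X * (ps e L 0 - (L - e) * Real.log (L - e))) := by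
  rw [fr_sq, tX_fr_mg _ _ _ (pj_isHermitian ψ), lg, fr, fc_fr,
    Eng.qf_fr_mg (fun x => Real.log (yy e L δ x)), Finset.mul_sum, ← Finset.sum_sub_distrib,
    Finset.sum_congr rfl fun i _ => FF_yy he hL hδ
      (ev_nonneg (red_posSemidef _ (pj_posSemidef ψ)) i), ← Finset.mul_sum, Finset.sum_add_distrib,
    Finset.sum_const, Finset.card_univ, card_sub_sb, nsmul_eq_mul, Ph, mul_add]

/-- comparison of the tilted state with a conditioned state -/
theorem cmp {e L δ : ℕ → ℝ} (hp : ∀ j < m, 0 < e j ∧ e j < L j ∧ 0 < δ j)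
    (h : Stat (-1) (Set.Ioo 0 1) (fun j => FF (e j) (L j) (δ j)) A m Ω
      (fun j => yy (e j) (L j) (δ j)) Y χ N) (hΩ : ‖Ω‖ = 1) {O : Q.Op d} (hO : O.IsHermitian)
    (hs : ∀ j < m, Supp (A j) O) {f : Q.Vec (Cfg d)} (hf : ‖f‖ = 1) {a : ℝ} (ha : 0 < a)
    (h1 : ap O Ω = (a : ℂ) • f) (h2 : ap O f = f) :
    ∑ j ∈ range m, δ j * Ph (ph (e j) (L j)) (A j) χ ≤
      ∑ j ∈ range m, δ j * Ph (ph (e j) (L j)) (A j) f - Real.log a := by
  have pd : ∀ ψ : Q.Vec (Cfg d), ∀ j < m,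
      (fr (yy (e j) (L j) (δ j)) (mg (A j) (pj ψ))).PosDef := fun ψ j hj =>
    Eng.fr_posDef fun i => yy_pos (hp j hj).1 (hp j hj).2.1
      (ev_nonneg (mg_posSemidef _ (pj_posSemidef ψ)) i)
  have a1 := up h hΩ fun j hj => by rw [h.eq j hj]; exact pd χ j hj
  have a2 := low h (W := fun j => fr (yy (e j) (L j) (δ j)) (mg (A j) (pj f))) (fun j hj =>
    ⟨(supp_mg _ _).fc _ (mg_isHermitian _ (pj_isHermitian f)), fun i => by
      obtain ⟨b1, b2, b3⟩ := hp j hj
      rw [fr_sq]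
      obtain ⟨k, hk⟩ := exists_ev_fr (fun x => yy (e j) (L j) (δ j) x ^ 2) (mg (A j) (pj f)) i
      have h0 := ev_nonneg (mg_posSemidef (A j) (pj_posSemidef f)) k
      have c1 := yy_pos (δ := δ j) b1 b2 h0
      rw [hk]
      exact ⟨by positivity, pow_lt_one₀ c1.le (yy_lt_one b1 b2 b3 h0) two_ne_zero⟩⟩) (pd f) hO
    (fun j hj => commute_fc _ (mg_isHermitian _ (pj_isHermitian f)) (by
      unfold Commute SemiconjBy
      rw [← (hs j hj).mg_mul, ← (hs j hj).mg_mul', mul_kb, kb_mul, hO.eq, h2])) hf ha h1 h2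
  have a3 := a1.trans a2
  rw [Finset.mul_sum, Finset.mul_sum, ← Finset.sum_sub_distrib, ← Finset.sum_sub_distrib,
    Finset.sum_congr rfl fun j hj => by
      rw [h.eq j (mem_range.1 hj), id_eq (hp j (mem_range.1 hj)).1 (hp j (mem_range.1 hj)).2.1
        (hp j (mem_range.1 hj)).2.2],
    Finset.sum_congr rfl fun j hj => id_eq (hp j (mem_range.1 hj)).1 (hp j (mem_range.1 hj)).2.1
        (hp j (mem_range.1 hj)).2.2 (A j) f] at a3
  simp only [Finset.sum_add_distrib, mul_assoc, ← Finset.mul_sum] at a3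
  linarith

/-- averaging over the spectral projections of the marginal on `D` -/
theorem avg_le {e L δ : ℕ → ℝ} (hp : ∀ j < m, 0 < e j ∧ e j < L j ∧ 0 < δ j)
    (h : Stat (-1) (Set.Ioo 0 1) (fun j => FF (e j) (L j) (δ j)) A m Ω
      (fun j => yy (e j) (L j) (δ j)) Y χ N) (hΩ : ‖Ω‖ = 1) {D : Finset ι}
    (hD : ∀ j < m, D ⊆ A j) :
    ∑ j ∈ range m, δ j * Ph (ph (e j) (L j)) (A j) χ ≤
      ∑ j ∈ range m, δ j * Ph (ph (e j) (L j)) (A j \ D) Ω + SX D (pj Ω) / 2 := by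
  set T : ℕ → Q.Op d := fun j => fr (dph (e j) (L j)) (mg (A j \ D) (pj Ω)) with hT
  set p := ev (red (sb D) (pj Ω)) with hp'
  have hOO : ∀ l, spP D (pj Ω) l * spP D (pj Ω) l = spP D (pj Ω) l := fun l => by
    rw [spP_mul, if_pos rfl]
  have hH : ∀ l, (spP D (pj Ω) l).IsHermitian := fun l => (spP_posSemidef _ _ _).1
  have hn : ∀ l, ‖ap (spP D (pj Ω) l) Ω‖ ^ 2 = p l := fun l => by
    rw [norm_ap_sq, (hH l).eq, hOO, ← trace_mul_kb, trace_spP_mul _ (pj_isHermitian Ω),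
      Complex.ofReal_re]
  have hs : ∑ l, p l = 1 := ((dens_pj hΩ).red _).sum_ev
  have hq : ∀ j, ∑ l, qf (ap (spP D (pj Ω) l) Ω) (T j) = qf Ω (T j) := fun j => by
    have hc : ∀ l, Commute (spP D (pj Ω) l) (T j) := fun l => (supp_spP _ _ _).commute
      ((supp_mg _ _).fc _ (mg_isHermitian _ (pj_isHermitian Ω))) disjoint_sdiff
    have : ∀ l, qf (ap (spP D (pj Ω) l) Ω) (T j) = qf Ω (T j * spP D (pj Ω) l) := fun l => by
      rw [qf, inner_ap_left, (hH l).eq, ← ap_mul, ← ap_mul, (hc l).eq, Matrix.mul_assoc, hOO]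
    simp only [this, qf]
    rw [← Complex.re_sum, ← inner_sum, ← ap_sum, ← Matrix.mul_sum, sum_spP, Matrix.mul_one]
  have key : ∀ l, p l * ∑ j ∈ range m, δ j * Ph (ph (e j) (L j)) (A j) χ ≤
      p l * ∑ j ∈ range m, δ j * (Ph (ph (e j) (L j)) (A j \ D) Ω - qf Ω (T j)) +
        ∑ j ∈ range m, δ j * qf (ap (spP D (pj Ω) l) Ω) (T j) + Real.negMulLog (p l) / 2 := by
    intro l
    set v := ap (spP D (pj Ω) l) Ω with hv
    rcases (norm_nonneg v).eq_or_lt with h0 | h0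
    · have : p l = 0 := by rw [← hn l, ← hv, ← h0]; simp
      simp [this, norm_eq_zero.1 h0.symm, qf]
    have h0' : (‖v‖ : ℂ) ≠ 0 := by exact_mod_cast h0.ne'
    set f := (‖v‖ : ℂ)⁻¹ • v with hf
    have f1 : v = (‖v‖ : ℂ) • f := by rw [hf, smul_smul, mul_inv_cancel₀ h0', one_smul]
    have f2 : ‖f‖ = 1 := by rw [hf, norm_smul]; simp [h0.ne']
    have f3 : ap (spP D (pj Ω) l) f = f := by rw [hf, map_smul, hv, ← ap_mul, hOO]
    have c1 := cmp hp h hΩ (hH l) (fun j hj => (supp_spP _ _ _).mono (hD j hj)) f2 h0 f1 f3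
    have c2 : ∑ j ∈ range m, δ j * Ph (ph (e j) (L j)) (A j) f ≤
        ∑ j ∈ range m, δ j * (Ph (ph (e j) (L j)) (A j \ D) Ω - qf Ω (T j)) +
          ∑ j ∈ range m, δ j * qf f (T j) := by
      rw [← Finset.sum_add_distrib]
      refine Finset.sum_le_sum fun j hj => ?_
      obtain ⟨b1, b2, b3⟩ := hp j (mem_range.1 hj)
      have := ph_cond (f' := dph (e j) (L j)) (fun a b => ph_tangent b1 b2) (ph_zero _ _)
        (hD j (mem_range.1 hj)) Ω l f3
      rw [← mul_add]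
      exact mul_le_mul_of_nonneg_left (by simp only [hT]; linarith) b3.le
    have c3 : ∑ j ∈ range m, δ j * qf v (T j) = p l * ∑ j ∈ range m, δ j * qf f (T j) := by
      rw [Finset.mul_sum]
      refine Finset.sum_congr rfl fun j _ => ?_
      conv_lhs => rw [f1, qf, map_smul, inner_smul_left, inner_smul_right, Complex.conj_ofReal,
        Complex.re_ofReal_mul, Complex.re_ofReal_mul]
      rw [← hn l, ← hv]; ring
    have c4 : Real.negMulLog (p l) / 2 = -(p l * Real.log ‖v‖) := by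
      rw [Real.negMulLog, ← hn l, ← hv, Real.log_pow]; push_cast; ring
    have c5 : 0 ≤ p l := by rw [← hn l]; positivity
    rw [c3, c4]
    nlinarith [mul_le_mul_of_nonneg_left (c1.trans (sub_le_sub_right c2 _)) c5]
  have := Finset.sum_le_sum fun l (_ : l ∈ univ) => key l
  rw [Finset.sum_add_distrib, Finset.sum_add_distrib, ← Finset.sum_mul, ← Finset.sum_mul, hs,
    Finset.sum_comm, ← Finset.sum_div] at this
  simp only [← Finset.mul_sum, hq, mul_sub, Finset.sum_sub_distrib, one_mul] at this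
  rw [SX, ent]
  linarith

lemma var_le' {K : Type} [Fintype K] {h : K → Q.Op d} {Z : K → Finset ι} {E Δ t : ℝ}
    (hl : Loc h Z Ω E Δ) {X : Finset ι} (hX : 240 * cw h Z X ≤ t ^ 2 * Δ) :
    ∑ i, ev (red (sb X) (pj Ω)) i * (-Real.log (ev (red (sb X) (pj Ω)) i) - SX X (pj Ω)) ^ 2 ≤
      t ^ 2 / 30 := by
  have h1 := var_le hl.supp hl.gap X
  have h2 : (∑ k, if Crosses (Z k) X then 8 * (dim d (Z k) : ℝ) ^ 2 * ‖h k‖ else 0) =
      8 * cw h Z X := by
    rw [cw, Finset.mul_sum]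
    exact Finset.sum_congr rfl fun k _ => by split_ifs <;> ring
  rw [h2] at h1
  refine le_of_mul_le_mul_left (h1.trans (by linarith)) hl.pos

end sites

end Sub

open Crest.Agent.N336.T.Sub in
theorem tiltSub (hE : EngStmt) (hN : EnergyStmt) : TiltSubStmt := by
  intro ι _ _ d _ _ _ K _ h Z Ω E Δ A m D δ t hl hc hD hδ hs hw ht hv
  have hΩ := hl.gap.norm
  have hd := dens_pj hΩ
  set B := SX D (pj Ω) + 1 with hB
  have hB0 : 0 < B := by linarith [hd.SX_nonneg D]
  set e : ℕ → ℝ := fun j => Real.exp (-SX (A j) (pj Ω) - B) with he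
  set L : ℕ → ℝ := fun j => Real.exp (-SX (A j) (pj Ω) + B) with hL
  have hp : ∀ j < m, 0 < e j ∧ e j < L j ∧ 0 < δ j := fun j hj =>
    ⟨Real.exp_pos _, e_lt hB0 _, (hδ j hj).1⟩
  obtain ⟨Y, χ, N, hS⟩ := hE ι d (-1) (Set.Ioo 0 1) (fun j => FF (e j) (L j) (δ j))
    (fun j => yy (e j) (L j) (δ j)) A m Ω (by norm_num) isOpen_Ioo Set.ordConnected_Ioo
    (fun x hx => hx.1) (by rintro rfl; simp at hΩ) hc.mono
    (fun j hj => barrier (hp j hj).1 (hp j hj).2.1 (hp j hj).2.2)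
    fun j hj w hw => yy_deriv (hp j hj).2.1 (hp j hj).2.2 hw
  have h1 := (hN ι d K h Z Ω E Δ _ _ _ _ A m δ Y χ N hl hc hS fun j hj =>
    ⟨(hδ j hj).1.le, (hδ j hj).2, fun x hx => yy_pos (hp j hj).1 (hp j hj).2.1 hx,
      fun a b ha hb => yy_lip (hp j hj).1 (hp j hj).2.1 (hp j hj).2.2 ha hb⟩).trans hw
  have h2 : Real.sqrt (1 - ‖⟪Ω, χ⟫_ℂ‖ ^ 2) ≤ 1 / 40 := by
    refine Real.sqrt_le_iff.2 ⟨by norm_num, le_of_mul_le_mul_left ?_ hl.pos⟩
    linarith
  have h3 := avg_le hp hS hΩ hD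
  have l2 := Real.log_two_lt_d9
  have ht2 : 0 < t ^ 2 := by positivity
  have key : ∀ j < m, SX (A j) (pj Ω) - SX (A j \ D) (pj Ω) ≤ 2 * t + 1 + 2 * Real.log 2 + B / 5 +
      (Ph (ph (e j) (L j)) (A j) χ - Ph (ph (e j) (L j)) (A j \ D) Ω) := by
    intro j hj
    obtain ⟨b1, b2, b3⟩ := hp j hj
    have pa := mg_posSemidef (A j) (pj_posSemidef χ)
    have c1 := klein_mg (f' := dph (e j) (L j)) (fun a b => ph_tangent b1 b2) pa (supp_mg _ _) Ω
    rw [tX_mg _ _ (pj_isHermitian χ), ← div_eq_inv_mul,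
      ← Eng.qf_eq_trace_mg ((supp_mg _ _).fc _ pa.1)] at c1
    have c2 := close hΩ hS.norm (T := fr (dph (e j) (L j)) (mg (A j) (pj χ)))
      (fr_posSemidef fun i => dph_nonneg b1 b2 (ev_nonneg pa i))
    have c3 : ‖fr (dph (e j) (L j)) (mg (A j) (pj χ))‖ ≤ 2 * B :=
      norm_fc_le (by positivity) fun i => by
        rw [Complex.norm_real, Real.norm_eq_abs,
          abs_of_nonneg (dph_nonneg b1 b2 (ev_nonneg pa i)), ← dph_zero (SX (A j) (pj Ω)) B]
        exact dph_le b1 b2 (ev_nonneg pa i)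
    have c4 : 2 * ‖fr (dph (e j) (L j)) (mg (A j) (pj χ))‖ * Real.sqrt (1 - ‖⟪Ω, χ⟫_ℂ‖ ^ 2) ≤
        2 * (2 * B) * (1 / 40) := by gcongr
    have c5 := Finset.sum_le_sum fun i (_ : i ∈ univ) => ph_ge hB0 ht (SX (A j) (pj Ω))
      (ev_nonneg (hd.red (sb (A j))).psd i)
    have c6 : SX (A j) (pj Ω) - SX (A j \ D) (pj Ω) ≤ B := by
      have := hd.SX_union_le (A j \ D) D
      rw [sdiff_union_of_subset (hD j hj)] at this
      linarith
    have c7 := Finset.sum_le_sum fun i (_ : i ∈ univ) => ph_le hB0 ht c6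
      (ev_nonneg (hd.red (sb (A j \ D))).psd i)
    rw [Finset.sum_sub_distrib, ← Finset.sum_mul, ← Finset.mul_sum, (hd.red _).sum_ev] at c5
    rw [Finset.sum_add_distrib, ← Finset.sum_mul, ← Finset.mul_sum, (hd.red _).sum_ev] at c7
    have c8 := mul_le_mul_of_nonneg_left (var_le' hl (hv j hj).1)
      (show 0 ≤ B / t ^ 2 by positivity)
    have c9 := mul_le_mul_of_nonneg_left (var_le' hl (hv j hj).2)
      (show 0 ≤ 2 * B / t ^ 2 by positivity)
    rw [show B / t ^ 2 * (t ^ 2 / 30) = B / 30 by field_simp] at c8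
    rw [show 2 * B / t ^ 2 * (t ^ 2 / 30) = B / 15 by field_simp; norm_num] at c9
    simp only [Ph, he, hL, qf] at c1 c2 c4 ⊢
    linarith
  by_contra hcon
  push Not at hcon
  have hm : (range m).Nonempty := by
    rw [Finset.nonempty_iff_ne_empty]
    intro h0
    rw [h0] at hs
    simp at hs
  have h4 := Finset.sum_lt_sum_of_nonempty hm fun j hj => mul_lt_mul_of_pos_left
    ((hcon j (mem_range.1 hj)).trans_le (key j (mem_range.1 hj))) (hδ j (mem_range.1 hj)).1
  simp only [mul_add (δ _) (2 * t + 1 + 2 * Real.log 2 + B / 5), mul_sub, Finset.sum_add_distrib,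
    Finset.sum_sub_distrib, ← Finset.sum_mul, hs] at h4
  linarith

end Crest.Agent.N336.T
end

-- ▼ part N336/T/SubGeo

/-!
# Row 336: from the abstract tilt statement to the sub-volume law (helper73)

`sub_of : TiltSubStmt → A.SubStmt`.
-/

set_option autoImplicit false
set_option linter.unusedSectionVars false

open Matrix Finset
open scoped ComplexOrder MatrixOrder Matrix.Norms.L2Operator InnerProductSpace

namespace Crest.Agent.N336.T

open Crest.Agent.N336.Q Crest.Agent.N336.A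

namespace SG

variable {q R : ℕ} {J Δ : ℝ} {Λ : Type} [Fintype Λ] [DecidableEq Λ]

/-- no edge leaves `U` near the square -/
def Cl (s : Sys q R J Δ Λ) (U : Finset Λ) (x y : ℤ) (L : ℕ) : Prop :=
  ∀ a b, s.G.Adj a b → a ∈ U → a ∈ box s (x - R) (y - R) (L + 2 * R) → b ∈ U

lemma mem_box {s : Sys q R J Δ Λ} {x y w : ℤ} {a : Λ} : a ∈ box s x y w ↔
    x ≤ (s.pos a).1 ∧ (s.pos a).1 < x + w ∧ y ≤ (s.pos a).2 ∧ (s.pos a).2 < y + w := by
  simp [A.box]

lemma Cl.mono {s : Sys q R J Δ Λ} {U : Finset Λ} {x y x' y' : ℤ} {L L' : ℕ} (h : Cl s U x y L)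
    (h1 : x ≤ x') (h2 : y ≤ y') (h3 : x' + L' ≤ x + L) (h4 : y' + L' ≤ y + L) :
    Cl s U x' y' L' := fun a b hab ha hb => h a b hab ha (by
  rw [mem_box] at hb ⊢; omega)

/-- rectangles -/
def rect (s : Sys q R J Δ Λ) (x y : ℤ) (a b : ℕ) : Finset Λ :=
  univ.filter fun v => x ≤ (s.pos v).1 ∧ (s.pos v).1 < x + a ∧ y ≤ (s.pos v).2 ∧
    (s.pos v).2 < y + b

lemma mem_rect {s : Sys q R J Δ Λ} {x y : ℤ} {a b : ℕ} {v : Λ} : v ∈ rect s x y a b ↔
    x ≤ (s.pos v).1 ∧ (s.pos v).1 < x + a ∧ y ≤ (s.pos v).2 ∧ (s.pos v).2 < y + b := by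
  simp [rect]

lemma card_rect (s : Sys q R J Δ Λ) (x y : ℤ) (a b : ℕ) : (rect s x y a b).card ≤ a * b := by
  have h : (rect s x y a b).card ≤ (Finset.Ico x (x + a) ×ˢ Finset.Ico y (y + b)).card := by
    refine card_le_card_of_injOn s.pos (fun v hv => ?_) s.inj.injOn
    have := mem_rect.1 (mem_coe.1 hv)
    simp only [coe_product, coe_Ico, Set.mem_prod, Set.mem_Ico]
    omega
  rw [card_product, Int.card_Ico, Int.card_Ico] at h
  simpa using h

/-- the counting constant -/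
def c1 (R : ℕ) : ℕ := 4 * R * 2 ^ ((2 * R + 1) ^ 2)

lemma cross_le {s : Sys q R J Δ Λ} {U : Finset Λ} {x y : ℤ} {L : ℕ} (h : Cl s U x y L) :
    s.cross (U ∩ box s x y L) ≤ c1 R * L := by
  classical
  set rim := (rect s x y R L ∪ rect s (x + L - R) y R L) ∪
    (rect s x y L R ∪ rect s x (y + L - R) L R) with hrim
  have h1 : rim.card ≤ 4 * R * L := by
    have a1 := card_rect s x y R L
    have a2 := card_rect s (x + L - R) y R L
    have a3 := card_rect s x y L R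
    have a4 := card_rect s x (y + L - R) L R
    have b1 := card_union_le (rect s x y R L) (rect s (x + L - R) y R L)
    have b2 := card_union_le (rect s x y L R) (rect s x (y + L - R) L R)
    have b3 := card_union_le (rect s x y R L ∪ rect s (x + L - R) y R L)
      (rect s x y L R ∪ rect s x (y + L - R) L R)
    rw [mul_comm L R] at a3 a4
    rw [hrim, mul_assoc]; omega
  have h2 : s.cross (U ∩ box s x y L) ≤ (rim.biUnion fun v => (ball s v R).powerset).card := by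
    rw [Sys.cross]
    refine card_le_card fun X hX => ?_
    simp only [mem_filter, mem_univ, true_and] at hX
    obtain ⟨h0, ⟨v, hv, hvA⟩, w, hw, hwA⟩ := hX
    have hb := sub_ball h0 hv
    refine mem_biUnion.2 ⟨v, ?_, mem_powerset.2 hb⟩
    have hwU : w ∈ U := ball_sub_of_closed h hvA (hb hw)
    have hwb : w ∉ box s x y L := fun h' => hwA (mem_inter.2 ⟨hwU, h'⟩)
    obtain ⟨p1, p2⟩ := pos_near (hb hw)
    have hvb := mem_box.1 (mem_inter.1 hvA).2
    rw [mem_box] at hwb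
    rw [abs_le] at p1 p2
    simp only [hrim, mem_union, mem_rect]
    omega
  refine h2.trans ((card_biUnion_le_card_mul _ _ (2 ^ ((2 * R + 1) ^ 2)) fun v _ => ?_).trans ?_)
  · rw [card_powerset]
    exact Nat.pow_le_pow_right (by norm_num) (card_ball_le s v R)
  · calc rim.card * 2 ^ ((2 * R + 1) ^ 2) ≤ 4 * R * L * 2 ^ ((2 * R + 1) ^ 2) :=
          Nat.mul_le_mul_right _ h1
      _ = c1 R * L := by unfold c1; ring

lemma cross_sdiff (s : Sys q R J Δ Λ) (A D : Finset Λ) :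
    s.cross (A \ D) ≤ s.cross A + s.cross D := by
  classical
  unfold Sys.cross
  refine le_trans (card_le_card fun X hX => ?_) (card_union_le _ _)
  simp only [mem_filter, mem_univ, true_and, mem_union, mem_sdiff] at hX ⊢
  obtain ⟨h0, ⟨v, hv, hvA, hvD⟩, w, hw, hwA⟩ := hX
  by_cases hw' : w ∈ A
  · right
    refine ⟨h0, ⟨w, hw, ?_⟩, v, hv, hvD⟩
    by_contra h'
    exact hwA ⟨hw', h'⟩
  · exact Or.inl ⟨h0, ⟨v, hv, hvA⟩, w, hw, hw'⟩

lemma cw_le (hq : 1 ≤ q) (s : Sys q R J Δ Λ) (A : Finset Λ) :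
    cw (d := fun _ : Λ => Fin q) s.h id A ≤ cT q R J * s.cross A := by
  have h := sum_crosses_le hq s A (c := 1) zero_le_one
  simp only [one_mul] at h
  exact h

lemma log_le_sum {l : ℕ} (hl : 1 ≤ l) (m : ℕ) :
    Real.log ((l + m : ℝ) / l) ≤ ∑ j ∈ range m, 1 / ((l : ℝ) + j) := by
  have hl' : (0 : ℝ) < l := by exact_mod_cast hl
  induction m with
  | zero => simp [hl'.ne']
  | succ m ih =>
    rw [sum_range_succ]
    have hp : (0 : ℝ) < l + m := by positivity
    have e : ((l : ℝ) + (m + 1 : ℕ)) / l = (l + m) / l * (1 + 1 / (l + m)) := by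
      push_cast; field_simp; ring
    have h2 : Real.log (1 + 1 / ((l : ℝ) + m)) ≤ 1 / (l + m) := by
      have := Real.log_le_sub_one_of_pos (x := 1 + 1 / ((l : ℝ) + m)) (by positivity)
      linarith
    rw [e, Real.log_mul (by positivity) (by positivity)]
    linarith

section ent

variable {s : Sys q R J Δ Λ}

lemma S_SX (s : Sys q R J Δ Λ) (A : Finset Λ) :
    S s.Ω A = SX (d := fun _ : Λ => Fin q) A (pj s.Ω) := S_eq s.Ω A

lemma dens (s : Sys q R J Δ Λ) : Dens (pj (n := Cfg fun _ : Λ => Fin q) s.Ω) :=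
  dens_pj (gap_sys s).norm

lemma S_le_card (hq : 1 ≤ q) (s : Sys q R J Δ Λ) (A : Finset Λ) :
    S s.Ω A ≤ A.card * Real.log q := by
  have : ∀ _ : Λ, Nonempty (Fin q) := fun _ => ⟨⟨0, hq⟩⟩
  rw [S_SX]
  refine ((dens s).SX_le A).trans (le_of_eq ?_)
  rw [dim_const, Fintype.card_fin]
  push_cast
  rw [Real.log_pow]

lemma S_union (hq : 1 ≤ q) (s : Sys q R J Δ Λ) (A B : Finset Λ) :
    S s.Ω (A ∪ B) ≤ S s.Ω A + S s.Ω B := by
  have : ∀ _ : Λ, Nonempty (Fin q) := fun _ => ⟨⟨0, hq⟩⟩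
  simp only [S_SX]
  exact (dens s).SX_union_le A B

lemma S_biUnion (hq : 1 ≤ q) (s : Sys q R J Δ Λ) {κ : Type} [DecidableEq κ] (T : Finset κ)
    (f : κ → Finset Λ) {B : ℝ} (h : ∀ i ∈ T, S s.Ω (f i) ≤ B) :
    S s.Ω (T.biUnion f) ≤ T.card * B := by
  induction T using Finset.induction_on with
  | empty => simpa using S_le_card hq s ∅
  | insert i T hi ih =>
    rw [biUnion_insert, card_insert_of_notMem hi]
    have h1 := S_union hq s (f i) (T.biUnion f)
    have h2 := h i (mem_insert_self _ _)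
    have h3 := ih fun j hj => h j (mem_insert_of_mem hj)
    push_cast
    linarith

end ent

/-- the chain of squares -/
def ch (s : Sys q R J Δ Λ) (U : Finset Λ) (x y : ℤ) (l j : ℕ) : Finset Λ :=
  U ∩ box s (x - (j * (R + 1) : ℕ)) (y - (j * (R + 1) : ℕ)) ((l + 2 * (j * (R + 1)) : ℕ) : ℤ)

lemma ch_mono (s : Sys q R J Δ Λ) (U : Finset Λ) (x y : ℤ) (l : ℕ) {i j : ℕ} (h : i ≤ j) :
    ch s U x y l i ⊆ ch s U x y l j := by
  have := Nat.mul_le_mul_right (R + 1) h
  intro v hv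
  simp only [ch, mem_inter, mem_box] at hv ⊢
  refine ⟨hv.1, ?_⟩
  have := hv.2
  omega

lemma ch_term {s : Sys q R J Δ Λ} {U : Finset Λ} {x y : ℤ} {l i j : ℕ}
    (hc : Cl s U (x - (i * (R + 1) : ℕ)) (y - (i * (R + 1) : ℕ)) (l + 2 * (i * (R + 1))))
    {X : Finset Λ} (hX : s.h X ≠ 0) (hij : i < j) (hx : ∃ v ∈ X, v ∈ ch s U x y l i) :
    X ⊆ ch s U x y l j := by
  obtain ⟨v, hv, hvA⟩ := hx
  have hb := sub_ball hX hv
  intro w hw
  have hwU : w ∈ U := ball_sub_of_closed hc hvA (hb hw)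
  obtain ⟨p1, p2⟩ := pos_near (hb hw)
  rw [abs_le] at p1 p2
  have h1 : (i + 1) * (R + 1) ≤ j * (R + 1) := Nat.mul_le_mul_right _ hij
  rw [add_mul, one_mul] at h1
  simp only [ch, mem_inter, mem_box] at hvA ⊢
  refine ⟨hwU, ?_⟩
  have := hvA.2
  omega

lemma union_sdiff_aux {D A Q : Finset Λ} (h1 : D ⊆ A) (h2 : A ⊆ Q) : A ∪ Q \ D = Q := by
  ext v
  have := @h1 v
  have := @h2 v
  simp only [mem_union, mem_sdiff]
  tauto

lemma inter_sdiff_aux {D A Q : Finset Λ} (h2 : A ⊆ Q) : A ∩ (Q \ D) = A \ D := by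
  ext v
  have := @h2 v
  simp only [mem_inter, mem_sdiff]
  tauto

set_option maxHeartbeats 800000 in
/-- one step: the central small square is weakly correlated with the rest -/
theorem one_step (H : TiltSubStmt) (q R : ℕ) (J Δ : ℝ) (hq : 1 ≤ q) (hJ : 0 < J) (hΔ : 0 < Δ) :
    ∃ (a : ℕ) (C : ℝ), 1 ≤ a ∧ 0 ≤ C ∧ ∀ (Λ : Type) [Fintype Λ] [DecidableEq Λ]
      (s : Sys q R J Δ Λ) (U : Finset Λ) (x y : ℤ) (l : ℕ), 1 ≤ l →
      Cl s U x y ((2 * a + 1) * l) →
      S s.Ω (U ∩ box s x y (((2 * a + 1) * l : ℕ) : ℤ)) ≤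
        S s.Ω ((U ∩ box s x y (((2 * a + 1) * l : ℕ) : ℤ)) \
          (U ∩ box s (x + (a * l : ℕ)) (y + (a * l : ℕ)) l)) +
        7 / 10 * S s.Ω (U ∩ box s (x + (a * l : ℕ)) (y + (a * l : ℕ)) l) + C * l := by
  have hT := cT_pos hq R hJ
  set c2 : ℝ := cT q R J * c1 R * (1 + 2 * (R + 1)) with hc2
  have hc20 : 0 ≤ c2 := by positivity
  set H0 : ℝ := 4 + 32 * 1600 * c2 / Δ with hH0
  obtain ⟨k, hk⟩ := exists_nat_ge (Real.exp H0)
  have hH4 : 4 ≤ H0 := by
    have : 0 ≤ 32 * 1600 * c2 / Δ := by positivity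
    linarith
  have hk1 : 1 ≤ k := by
    have := Real.add_one_le_exp H0
    have h2 : (1 : ℝ) ≤ k := by linarith
    exact_mod_cast h2
  have hlog : H0 ≤ Real.log (1 + k) := by
    rw [Real.le_log_iff_exp_le (by positivity)]; linarith
  set T : ℝ := 1 + 480 * c2 * (1 + k) / Δ with hTdef
  have hT1 : 1 ≤ T := by
    have : 0 ≤ 480 * c2 * (1 + k) / Δ := by positivity
    linarith
  refine ⟨k * (R + 1), 2 * T + 3, Nat.mul_pos hk1 (by omega), by positivity, ?_⟩
  intro Λ _ _ s U x y l hl hc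
  have : ∀ _ : Λ, Nonempty (Fin q) := fun _ => ⟨⟨0, hq⟩⟩
  set a := k * (R + 1) with ha
  set x' : ℤ := x + (a * l : ℕ) with hx'
  set y' : ℤ := y + (a * l : ℕ) with hy'
  set m := k * l with hm
  have hl' : (1 : ℝ) ≤ l := by exact_mod_cast hl
  have hjr : ∀ j < m, j * (R + 1) ≤ a * l := fun j hj => by
    calc j * (R + 1) ≤ m * (R + 1) := Nat.mul_le_mul_right _ hj.le
      _ = a * l := by rw [hm, ha]; ring
  have eM : (2 * a + 1) * l = 2 * (a * l) + l := by ring
  have hcl : ∀ j < m, Cl s U (x' - (j * (R + 1) : ℕ)) (y' - (j * (R + 1) : ℕ))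
      (l + 2 * (j * (R + 1))) := fun j hj => by
    have := hjr j hj
    refine hc.mono ?_ ?_ ?_ ?_ <;> omega
  have hm0 : 0 < m := Nat.mul_pos hk1 hl
  have hD : ch s U x' y' l 0 = U ∩ box s x' y' l := by simp [ch]
  have hclD : Cl s U x' y' l := by simpa using hcl 0 hm0
  -- crossing weights
  have hcr : ∀ j < m, cT q R J * s.cross (ch s U x' y' l j) ≤ c2 * (l + j) := fun j hj => by
    have h1 : (s.cross (ch s U x' y' l j) : ℝ) ≤ c1 R * ((l + 2 * (j * (R + 1)) : ℕ) : ℝ) := by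
      exact_mod_cast cross_le (hcl j hj)
    have h2 : ((l + 2 * (j * (R + 1)) : ℕ) : ℝ) ≤ (1 + 2 * (R + 1)) * (l + j) := by
      push_cast
      have : (0 : ℝ) ≤ j := by positivity
      have : (0 : ℝ) ≤ R := by positivity
      nlinarith
    calc cT q R J * s.cross (ch s U x' y' l j)
        ≤ cT q R J * (c1 R * ((1 + 2 * (R + 1)) * (l + j))) := by
          gcongr
          exact h1.trans (by gcongr)
      _ = c2 * (l + j) := by rw [hc2]; ring
  set Hs : ℝ := ∑ j ∈ range m, 1 / ((l : ℝ) + j) with hHs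
  have hHs0 : H0 ≤ Hs := by
    refine hlog.trans (le_trans (le_of_eq ?_) (log_le_sum hl m))
    congr 1
    rw [hm]; push_cast; field_simp
  have hHp : 0 < Hs := by linarith
  have hlj : ∀ j : ℕ, (1 : ℝ) ≤ l + j := fun j => by
    have : (0 : ℝ) ≤ j := by positivity
    linarith
  have hmj : ∀ j < m, (l : ℝ) + j ≤ (1 + k) * l := fun j hj => by
    have : (j : ℝ) ≤ (m : ℕ) := by exact_mod_cast hj.le
    rw [hm] at this; push_cast at this; linarith
  have ht : 480 * (c2 * ((1 + k) * l)) ≤ (T * l) ^ 2 * Δ := by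
    have h1 : 480 * c2 * (1 + k) ≤ T * Δ := by
      rw [hTdef, add_mul, div_mul_cancel₀ _ hΔ.ne']; linarith
    have h2 : T * l ≤ (T * l) ^ 2 := by
      have : 1 ≤ T * l := by nlinarith
      nlinarith
    calc 480 * (c2 * ((1 + k) * l)) = 480 * c2 * (1 + k) * l := by ring
      _ ≤ T * Δ * l := by gcongr
      _ = T * l * Δ := by ring
      _ ≤ _ := by gcongr
  obtain ⟨j, hj, hS⟩ := H Λ (fun _ => Fin q) (Finset Λ) s.h id s.Ω s.E Δ (ch s U x' y' l) m
    (U ∩ box s x' y' l) (fun j => 1 / ((l + j) * Hs)) (T * l)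
    ⟨h_supp s, h_herm s, gap_sys s, hΔ⟩
    ⟨fun i j hij _ => ch_mono s U x' y' l hij,
      fun X hX i j hij hj hx => ch_term (hcl i (by omega)) hX hij hx⟩
    (fun j _ => hD ▸ ch_mono s U x' y' l (Nat.zero_le j))
    (fun j _ => by
      have := hlj j
      refine ⟨by positivity, ?_⟩
      rw [div_le_div_iff₀ (by positivity) (by norm_num)]
      nlinarith)
    (by
      have : ∀ j : ℕ, 1 / (((l : ℝ) + j) * Hs) = 1 / (l + j) * (1 / Hs) := fun j => by
        have := hlj j; field_simp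
      simp only [this]
      rw [← sum_mul, ← hHs]; field_simp)
    (by
      calc ∑ j ∈ range m, 32 * (1 / (((l : ℝ) + j) * Hs)) ^ 2 *
            cw (d := fun _ : Λ => Fin q) s.h id (ch s U x' y' l j)
          ≤ ∑ j ∈ range m, 1 / ((l : ℝ) + j) * (32 * c2 / Hs ^ 2) := by
            refine sum_le_sum fun j hj => ?_
            have h1 := (cw_le hq s _).trans (hcr j (mem_range.1 hj))
            have h2 := hlj j
            calc _ ≤ 32 * (1 / (((l : ℝ) + j) * Hs)) ^ 2 * (c2 * (l + j)) := by gcongr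
              _ = _ := by field_simp
        _ = 32 * c2 / Hs := by rw [← sum_mul, ← hHs]; field_simp
        _ ≤ Δ / 1600 := by
            rw [div_le_div_iff₀ hHp (by norm_num)]
            have h1 : 32 * 1600 * c2 / Δ ≤ Hs := by linarith
            rw [div_le_iff₀ hΔ] at h1
            linarith)
    (by positivity)
    (fun j hj => by
      have h1 := hcr j hj
      have h2 := hcr 0 hm0
      have h3 : c2 * ((l : ℝ) + j) ≤ c2 * ((1 + k) * l) := by gcongr; exact hmj j hj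
      have h4 : c2 * ((l : ℝ) + (0 : ℕ)) ≤ c2 * ((1 + k) * l) := by gcongr; exact hmj 0 hm0
      have h5 : 0 ≤ c2 * ((1 + k) * l) := by positivity
      have h6 := cw_le hq s (ch s U x' y' l j)
      have h7 := cw_le hq s (ch s U x' y' l j \ (U ∩ box s x' y' l))
      have h8 : (s.cross (ch s U x' y' l j \ (U ∩ box s x' y' l)) : ℝ) ≤
          s.cross (ch s U x' y' l j) + s.cross (ch s U x' y' l 0) := by
        rw [hD]
        exact_mod_cast cross_sdiff s _ _
      have h9 := mul_le_mul_of_nonneg_left h8 hT.le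
      rw [mul_add] at h9
      constructor <;> linarith)
  set Q := U ∩ box s x y (((2 * a + 1) * l : ℕ) : ℤ) with hQ
  have hAQ : ch s U x' y' l j ⊆ Q := fun v hv => by
    have := hjr j hj
    simp only [ch, hQ, mem_inter, mem_box] at hv ⊢
    refine ⟨hv.1, ?_⟩
    have := hv.2
    omega
  have hDA : U ∩ box s x' y' l ⊆ ch s U x' y' l j := hD ▸ ch_mono s U x' y' l (Nat.zero_le j)
  have h1 := SX_submod (d := fun _ : Λ => Fin q) (ch s U x' y' l j) (Q \ (U ∩ box s x' y' l))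
    (dens s).psd
  have e1 : ch s U x' y' l j ∪ Q \ (U ∩ box s x' y' l) = Q := by
    exact union_sdiff_aux hDA hAQ
  have e2 : ch s U x' y' l j ∩ (Q \ (U ∩ box s x' y' l)) =
      ch s U x' y' l j \ (U ∩ box s x' y' l) := by
    exact inter_sdiff_aux hAQ
  rw [e1, e2] at h1
  simp only [S_SX]
  linarith

lemma tiling (s : Sys q R J Δ Λ) (U : Finset Λ) (x y : ℤ) (M a : ℕ) {l : ℕ} (hl : 1 ≤ l) :
    (U ∩ box s x y ((M * l : ℕ) : ℤ)) \ (U ∩ box s (x + (a * l : ℕ)) (y + (a * l : ℕ)) l) =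
      ((range M ×ˢ range M).erase (a, a)).biUnion fun p =>
        U ∩ box s (x + (p.1 * l : ℕ)) (y + (p.2 * l : ℕ)) l := by
  have key : ∀ z : ℤ, 0 ≤ z → z < (M * l : ℕ) → ∃ b < M, ((b * l : ℕ) : ℤ) ≤ z ∧
      z < (b * l : ℕ) + l := fun z h0 h1 => by
    obtain ⟨n, rfl⟩ := Int.eq_ofNat_of_zero_le h0
    refine ⟨n / l, (Nat.div_lt_iff_lt_mul hl).2 (by exact_mod_cast h1), ?_, ?_⟩
    · exact_mod_cast Nat.div_mul_le_self n l
    · exact_mod_cast Nat.lt_div_mul_add hl
  have up : ∀ b c : ℕ, b < c → b * l + l ≤ c * l := fun b c h => by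
    have := Nat.mul_le_mul_right l (Nat.succ_le_of_lt h)
    rwa [Nat.succ_mul] at this
  ext v
  simp only [mem_sdiff, mem_inter, mem_box, mem_biUnion, mem_erase, mem_product, mem_range]
  constructor
  · rintro ⟨⟨hU, h1⟩, h2⟩
    obtain ⟨b, hb, b1, b2⟩ := key ((s.pos v).1 - x) (by omega) (by omega)
    obtain ⟨c, hc, c1, c2⟩ := key ((s.pos v).2 - y) (by omega) (by omega)
    refine ⟨(b, c), ⟨fun h => h2 ⟨hU, ?_⟩, hb, hc⟩, hU, ?_⟩
    · obtain ⟨rfl, rfl⟩ := Prod.mk.inj h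
      omega
    · dsimp only; omega
  · rintro ⟨⟨b, c⟩, ⟨hne, hb, hc⟩, hU, h⟩
    dsimp only at hb hc h
    have u1 := up b M hb
    have u2 := up c M hc
    refine ⟨⟨hU, by omega⟩, fun h' => hne ?_⟩
    have h2 := h'.2
    have e1 : b = a := by
      rcases lt_trichotomy b a with h3 | h3 | h3
      · have := up _ _ h3; omega
      · exact h3
      · have := up _ _ h3; omega
    have e2 : c = a := by
      rcases lt_trichotomy c a with h3 | h3 | h3
      · have := up _ _ h3; omega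
      · exact h3
      · have := up _ _ h3; omega
    rw [e1, e2]

/-- the recursion -/
theorem recur (H : TiltSubStmt) (q R : ℕ) (J Δ : ℝ) (hq : 1 ≤ q) (hJ : 0 < J) (hΔ : 0 < Δ) :
    ∃ (M : ℕ) (C : ℝ), 2 ≤ M ∧ 0 ≤ C ∧ ∀ (Λ : Type) [Fintype Λ] [DecidableEq Λ]
      (s : Sys q R J Δ Λ) (U : Finset Λ) (x y : ℤ) (L : ℕ) (B : ℝ), M ≤ L → Cl s U x y L →
      (∀ x' y', Cl s U x' y' (L / M) → S s.Ω (U ∩ box s x' y' ((L / M : ℕ) : ℤ)) ≤ B) →
      S s.Ω (U ∩ box s x y L) ≤ ((M : ℝ) ^ 2 - 3 / 10) * B + C * L := by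
  obtain ⟨a, C, ha, hC, h⟩ := one_step H q R J Δ hq hJ hΔ
  have hlq : 0 ≤ Real.log q := Real.log_nonneg (by exact_mod_cast hq)
  set M := 2 * a + 1 with hM
  refine ⟨M, C + 2 * M * Real.log q, by omega, by positivity, ?_⟩
  intro Λ _ _ s U x y L B hL hc hB
  set l := L / M with hl
  have hl1 : 1 ≤ l := (Nat.le_div_iff_mul_le (by omega)).2 (by omega)
  have hMl : M * l ≤ L := Nat.mul_div_le L M
  have hMl' : L < M * l + M := Nat.lt_mul_div_succ L (by omega)
  have hlL : (l : ℝ) ≤ L := by exact_mod_cast Nat.div_le_self L M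
  have up : ∀ b < M, b * l + l ≤ M * l := fun b h => by
    have := Nat.mul_le_mul_right l (Nat.succ_le_of_lt h)
    rwa [Nat.succ_mul] at this
  have hsq : ∀ b < M, ∀ c < M, S s.Ω (U ∩ box s (x + (b * l : ℕ)) (y + (c * l : ℕ)) l) ≤ B :=
    fun b hb c hc' => hB _ _ (by
      have := up b hb
      have := up c hc'
      refine hc.mono ?_ ?_ ?_ ?_ <;> omega)
  have h1 := h Λ s U x y l hl1 (hc.mono le_rfl le_rfl (by omega) (by omega))
  rw [tiling s U x y M a hl1] at h1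
  have h2 := S_biUnion hq s ((range M ×ˢ range M).erase (a, a))
    (fun p => U ∩ box s (x + (p.1 * l : ℕ)) (y + (p.2 * l : ℕ)) l) (B := B) fun p hp => by
      have := mem_product.1 (mem_of_mem_erase hp)
      exact hsq _ (mem_range.1 this.1) _ (mem_range.1 this.2)
  have hc3 : (((range M ×ˢ range M).erase (a, a)).card : ℝ) = (M : ℝ) ^ 2 - 1 := by
    rw [card_erase_of_mem (mem_product.2 ⟨mem_range.2 (by omega), mem_range.2 (by omega)⟩),
      card_product, card_range, Nat.cast_sub (Nat.mul_pos (by omega) (by omega))]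
    push_cast; ring
  rw [hc3] at h2
  have h3 := hsq a (by omega) a (by omega)
  set St := (U ∩ box s x y L) \ (U ∩ box s x y ((M * l : ℕ) : ℤ)) with hSt
  have e : U ∩ box s x y L = (U ∩ box s x y ((M * l : ℕ) : ℤ)) ∪ St := by
    rw [hSt, union_sdiff_of_subset]
    intro v hv
    simp only [mem_inter, mem_box] at hv ⊢
    refine ⟨hv.1, ?_⟩
    have := hv.2
    omega
  have h4 : St.card ≤ 2 * M * L := by
    have a1 := card_rect s (x + (M * l : ℕ)) y M L
    have a2 := card_rect s x (y + (M * l : ℕ)) L M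
    have a3 : St ⊆ rect s (x + (M * l : ℕ)) y M L ∪ rect s x (y + (M * l : ℕ)) L M := by
      intro v hv
      simp only [hSt, mem_sdiff, mem_inter, mem_box, mem_union, mem_rect, not_and] at hv ⊢
      have b1 := hv.1.2
      have b2 := hv.2 hv.1.1
      omega
    have a4 := (card_le_card a3).trans (card_union_le _ _)
    rw [mul_comm L M] at a2
    rw [mul_assoc]; omega
  have h5 : S s.Ω St ≤ 2 * M * L * Real.log q :=
    (S_le_card hq s St).trans (by gcongr; exact_mod_cast h4)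
  have h6 := S_union hq s (U ∩ box s x y ((M * l : ℕ) : ℤ)) St
  rw [← e] at h6
  have h7 : C * l ≤ C * L := by gcongr
  nlinarith

lemma exists_eta {M : ℝ} (hM : 0 < M) :
    ∃ η : ℝ, 0 < η ∧ η ≤ 1 ∧ M ^ 2 - 3 / 10 < M ^ (2 - η) := by
  have hc : Continuous fun η : ℝ => M ^ (2 - η) :=
    (Real.continuous_const_rpow hM.ne').comp (by fun_prop)
  have h0 : M ^ 2 - 3 / 10 < M ^ ((2 : ℝ) - 0) := by
    rw [sub_zero, Real.rpow_two]; linarith
  have h1 : ∀ᶠ η in nhdsWithin (0 : ℝ) (Set.Ioi 0), M ^ 2 - 3 / 10 < M ^ (2 - η) :=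
    nhdsWithin_le_nhds (hc.continuousAt.eventually (lt_mem_nhds h0))
  obtain ⟨η, h2, h3⟩ := (h1.and (Ioc_mem_nhdsGT (zero_lt_one' ℝ))).exists
  exact ⟨η, h3.1, h3.2, h2⟩

end SG

open SG in
theorem sub_of (H : TiltSubStmt) : A.SubStmt := by
  intro q R J Δ hq hJ hΔ
  obtain ⟨M, C, hM, hC, h⟩ := recur H q R J Δ hq hJ hΔ
  have hM' : (2 : ℝ) ≤ M := by exact_mod_cast hM
  obtain ⟨η, h0, h1, hη⟩ := exists_eta (M := M) (by linarith)
  have hlq : 0 ≤ Real.log q := Real.log_nonneg (by exact_mod_cast hq)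
  have hP : 0 < (M : ℝ) ^ (2 - η) := by positivity
  set κ : ℝ := ((M : ℝ) ^ 2 - 3 / 10) / (M : ℝ) ^ (2 - η) with hκ
  have hκ1 : κ < 1 := (div_lt_one hP).2 hη
  have hM3 : 0 ≤ (M : ℝ) ^ 2 - 3 / 10 := by nlinarith
  have hκ' : 0 < 1 - κ := by linarith
  set C' : ℝ := C / (1 - κ) + M * Real.log q + 1 with hC'
  have hq1 : 0 ≤ C / (1 - κ) := by positivity
  have hq2 : 0 ≤ M * Real.log q := by positivity
  have hC0 : 0 < C' := by positivity
  refine ⟨η, C', h0, h1, hC0, fun Λ _ _ s U x y L => ?_⟩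
  change Cl s U x y L → _
  induction L using Nat.strong_induction_on generalizing x y with
  | _ L ih =>
    intro hc
    have hLp : (L : ℝ) ≤ (L : ℝ) ^ (2 - η) := by
      rcases Nat.eq_zero_or_pos L with rfl | hL
      · simpa using Real.rpow_nonneg le_rfl _
      · conv_lhs => rw [← Real.rpow_one (L : ℝ)]
        exact Real.rpow_le_rpow_of_exponent_le (by exact_mod_cast hL) (by linarith)
    have hL0 : (0 : ℝ) ≤ L := by positivity
    rcases lt_or_ge L M with hL | hL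
    · have a1 : (U ∩ box s x y L).card ≤ L * L :=
        (card_le_card fun v hv => mem_rect.2 (mem_box.1 (mem_inter.1 hv).2)).trans
          (card_rect s x y L L)
      have a2 : ((U ∩ box s x y L).card : ℝ) ≤ M * L := by
        exact_mod_cast a1.trans (Nat.mul_le_mul_right L hL.le)
      calc S s.Ω (U ∩ box s x y L) ≤ M * L * Real.log q :=
            (S_le_card hq s _).trans (by gcongr)
        _ = M * Real.log q * L := by ring
        _ ≤ C' * (L : ℝ) ^ (2 - η) := by gcongr; linarith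
    · have b1 := h Λ s U x y L (C' * ((L / M : ℕ) : ℝ) ^ (2 - η)) hL hc fun x' y' hc' =>
        ih (L / M) (Nat.div_lt_self (by omega) (by omega)) x' y' hc'
      have b2 : ((L / M : ℕ) : ℝ) ^ (2 - η) ≤ (L : ℝ) ^ (2 - η) / (M : ℝ) ^ (2 - η) := by
        rw [← Real.div_rpow hL0 (by positivity)]
        exact Real.rpow_le_rpow (by positivity) Nat.cast_div_le (by linarith)
      have b3 : ((M : ℝ) ^ 2 - 3 / 10) * (C' * ((L / M : ℕ) : ℝ) ^ (2 - η)) ≤
          κ * C' * (L : ℝ) ^ (2 - η) := by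
        calc _ ≤ ((M : ℝ) ^ 2 - 3 / 10) * (C' * ((L : ℝ) ^ (2 - η) / (M : ℝ) ^ (2 - η))) := by
              gcongr
          _ = _ := by rw [hκ]; field_simp
      have b4 : C ≤ (1 - κ) * C' := by
        rw [hC', mul_add, mul_add, mul_div_cancel₀ _ hκ'.ne']
        have : 0 ≤ (1 - κ) * (M * Real.log q) := by positivity
        linarith
      have b5 : C * L ≤ (1 - κ) * C' * (L : ℝ) ^ (2 - η) := by gcongr
      linarith

end Crest.Agent.N336.T
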