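import Crest.Agent.N336.Q.Ent
import Crest.Agent.N336.A.Geo

-- ▼ part N336/T/Cross
section

/-!
# Row 336: crossing terms in the Schmidt basis, flatness (item 2) (helper87)

* `cc X ψ h i j = ⟨P_i ψ, h P_j ψ⟩`, `cross_bound`, `tilt_cross`
* `flat : FlatStmt`
-/

set_option autoImplicit false
set_option linter.unusedSectionVars false

open Matrix Finset
open scoped Kronecker ComplexOrder MatrixOrder Matrix.Norms.L2Operator InnerProductSpace

namespace Crest.Agent.N336.T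

open Crest.Agent.N336.Q Crest.Agent.N336.A

attribute [local irreducible] ev eU

variable {ι : Type} [Fintype ι] [DecidableEq ι]
  {d : ι → Type} [∀ x, Fintype (d x)] [∀ x, DecidableEq (d x)] [∀ x, Nonempty (d x)]

/-- reduced matrix of a vector -/
noncomputable abbrev rd (X : Finset ι) (ψ : Q.Vec (Cfg d)) : Q.Op (sub (sb X) d) :=
  red (sb X) (pj ψ)

/-- matrix units in the Schmidt basis -/
noncomputable def su (X : Finset ι) (ψ : Q.Vec (Cfg d)) (i j : Cfg (sub (sb X) d)) : Q.Op d :=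
  lift X (kb (evec (rd X ψ) i) (evec (rd X ψ) j))

/-- Schmidt basis coefficients of an operator -/
noncomputable def cc (X : Finset ι) (ψ : Q.Vec (Cfg d)) (h : Q.Op d)
    (i j : Cfg (sub (sb X) d)) : ℂ := ⟪ψ, ap (su X ψ i i * h * su X ψ j j) ψ⟫_ℂ

variable {X : Finset ι} {ψ : Q.Vec (Cfg d)}

lemma rd_psd (X : Finset ι) (ψ : Q.Vec (Cfg d)) : (rd X ψ).PosSemidef :=
  red_posSemidef _ (pj_posSemidef ψ)

lemma inner_lift (m : Q.Op (sub (sb X) d)) : ⟪ψ, ap (lift X m) ψ⟫_ℂ = trace (m * rd X ψ) := by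
  rw [← trace_mul_kb, trace_emb_mul]

lemma su_mul (i j k l : Cfg (sub (sb X) d)) :
    su X ψ i j * su X ψ k l = if j = k then su X ψ i l else 0 := by
  rw [su, su, ← map_mul, mul_kb, ap_kb, inner_evec]
  split_ifs
  · rw [one_smul, su]
  · rw [kb_smul_left, zero_smul, map_zero]

lemma su_conjTranspose (i j : Cfg (sub (sb X) d)) : (su X ψ i j)ᴴ = su X ψ j i := by
  rw [su, su, ← emb_conjTranspose, kb_conjTranspose]

lemma supp_su (i j : Cfg (sub (sb X) d)) : Supp X (su X ψ i j) := supp_lift _ _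

lemma inner_su (i j : Cfg (sub (sb X) d)) :
    ⟪ψ, ap (su X ψ i j) ψ⟫_ℂ = if j = i then (ev (rd X ψ) i : ℂ) else 0 := by
  rw [su, inner_lift, trace_kb_mul, ap_evec (rd_psd X ψ).1, inner_smul_right, inner_evec]
  split_ifs <;> simp

lemma lift_fc (f : ℝ → ℂ) :
    lift X (fc f (rd X ψ)) = ∑ i, f (ev (rd X ψ) i) • su X ψ i i := by
  rw [fc_eq_sum, map_sum]
  simp only [map_smul, su]

lemma fc_mg (f : ℝ → ℂ) : fc f (mg X (pj ψ)) = ∑ i, f (ev (rd X ψ) i) • su X ψ i i := by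
  rw [mg, ← emb_fc _ _ (rd_psd X ψ).1, lift_fc]

lemma inner_fc_mul_fc (f g : ℝ → ℂ) (h : Q.Op d) :
    ⟪ψ, ap (fc f (mg X (pj ψ)) * h * fc g (mg X (pj ψ))) ψ⟫_ℂ =
      ∑ i, ∑ j, f (ev (rd X ψ) i) * g (ev (rd X ψ) j) * cc X ψ h i j := by
  simp only [fc_mg, Matrix.sum_mul, Matrix.mul_sum, Matrix.smul_mul, Matrix.mul_smul, ap_sum,
    ap_smul, inner_sum, inner_smul_right, Finset.mul_sum, cc]
  rw [Finset.sum_comm]
  exact Finset.sum_congr rfl fun i _ => Finset.sum_congr rfl fun j _ => by ring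

lemma cc_add (h k : Q.Op d) (i j : Cfg (sub (sb X) d)) :
    cc X ψ (h + k) i j = cc X ψ h i j + cc X ψ k i j := by
  simp only [cc, Matrix.mul_add, Matrix.add_mul, ap_add, inner_add_right]

lemma cc_sum {K : Type*} (s : Finset K) (h : K → Q.Op d) (i j : Cfg (sub (sb X) d)) :
    cc X ψ (∑ k ∈ s, h k) i j = ∑ k ∈ s, cc X ψ (h k) i j := by
  simp only [cc, Matrix.mul_sum, Matrix.sum_mul, ap_sum, inner_sum]

lemma cc_smul (c : ℂ) (h : Q.Op d) (i j : Cfg (sub (sb X) d)) :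
    cc X ψ (c • h) i j = c * cc X ψ h i j := by
  simp only [cc, Matrix.mul_smul, Matrix.smul_mul, ap_smul, inner_smul_right]

lemma cc_conj (h : Q.Op d) (i j : Cfg (sub (sb X) d)) :
    cc X ψ hᴴ j i = (starRingEnd ℂ) (cc X ψ h i j) := by
  rw [cc, cc, inner_conj_symm, inner_ap_left]
  simp only [conjTranspose_mul, su_conjTranspose, Matrix.mul_assoc]

lemma su_mul_lift_mul (a : Q.Op (sub (sb X) d)) (i j : Cfg (sub (sb X) d)) :
    su X ψ i i * lift X a * su X ψ j j =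
      ⟪evec (rd X ψ) i, ap a (evec (rd X ψ) j)⟫_ℂ • su X ψ i j := by
  rw [su, su, su, ← map_mul, ← map_mul, Matrix.mul_assoc, mul_kb, mul_kb, ap_kb, kb_smul_left,
    map_smul]

lemma cc_inside {h : Q.Op d} (hh : Supp X h) {i j : Cfg (sub (sb X) d)} (hij : i ≠ j) :
    cc X ψ h i j = 0 := by
  obtain ⟨a, rfl⟩ := hh.exists_lift
  rw [cc, su_mul_lift_mul, ap_smul, inner_smul_right, inner_su, if_neg hij.symm, mul_zero]

lemma cc_outside {h : Q.Op d} (hh : Supp Xᶜ h) {i j : Cfg (sub (sb X) d)} (hij : i ≠ j) :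
    cc X ψ h i j = 0 := by
  rw [cc, ((supp_su i i).commute hh disjoint_compl_right).eq, Matrix.mul_assoc, su_mul,
    if_neg hij]
  simp

/-- Bessel's inequality for an orthogonal family -/
lemma bessel {n K : Type} [Fintype n] [DecidableEq n] [Fintype K] [DecidableEq K]
    {φ : K → Q.Vec n} {l : K → ℝ} (hl : ∀ j, 0 ≤ l j)
    (h : ∀ j k, ⟪φ j, φ k⟫_ℂ = if j = k then (l j : ℂ) else 0) (v : Q.Vec n) :
    ∑ j, ‖⟪v, φ j⟫_ℂ‖ ^ 2 / l j ≤ ‖v‖ ^ 2 := by
  set w : Q.Vec n := ∑ j, (⟪φ j, v⟫_ℂ / l j) • φ j with hw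
  have e1 : ⟪v, w⟫_ℂ = ((∑ j, ‖⟪v, φ j⟫_ℂ‖ ^ 2 / l j : ℝ) : ℂ) := by
    rw [hw, inner_sum]
    push_cast
    refine Finset.sum_congr rfl fun j _ => ?_
    rw [inner_smul_right, ← inner_conj_symm (φ j) v, div_mul_eq_mul_div, Complex.conj_mul']
  have e2 : ⟪w, w⟫_ℂ = ((∑ j, ‖⟪v, φ j⟫_ℂ‖ ^ 2 / l j : ℝ) : ℂ) := by
    rw [hw, sum_inner]
    push_cast
    refine Finset.sum_congr rfl fun j _ => ?_
    simp only [inner_sum, inner_smul_left, inner_smul_right, h, mul_ite, mul_zero,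
      Finset.sum_ite_eq, mem_univ, if_true, map_div₀, Complex.conj_ofReal, inner_conj_symm]
    rw [← Complex.conj_mul', inner_conj_symm]
    by_cases h0 : (l j : ℂ) = 0
    · simp [h0]
    · field_simp
  set S := ∑ j, ‖⟪v, φ j⟫_ℂ‖ ^ 2 / l j
  have h1 := norm_sub_sq (𝕜 := ℂ) v w
  have h2 : ‖w‖ ^ 2 = S := by
    rw [inner_self_eq_norm_sq_to_K] at e2
    have : ((‖w‖ ^ 2 : ℝ) : ℂ) = (S : ℂ) := by rw [← e2]; norm_cast
    exact_mod_cast this
  rw [e1, h2] at h1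
  have h3 := sq_nonneg ‖v - w‖
  simp only [RCLike.re_to_complex, Complex.ofReal_re] at h1
  linarith

lemma sum_ev_rd (X : Finset ι) (ψ : Q.Vec (Cfg d)) : ∑ i, ev (rd X ψ) i = ‖ψ‖ ^ 2 := by
  rw [← re_trace_eq (rd_psd X ψ).1, trace_red, trace_pj, Complex.ofReal_re]

lemma cross_prod {a b : Q.Op d} (ha : Supp X a) (hb : Supp Xᶜ b) (ha1 : ‖a‖ ≤ 1) (hb1 : ‖b‖ ≤ 1) :
    ∑ i, ∑ j, Real.sqrt (ev (rd X ψ) i / ev (rd X ψ) j) * ‖cc X ψ (a * b) i j‖ ≤ ‖ψ‖ ^ 2 := by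
  obtain ⟨a, rfl⟩ := ha.exists_lift
  rw [norm_emb] at ha1
  rw [← sum_ev_rd X ψ]
  refine Finset.sum_le_sum fun i _ => ?_
  have hl := ev_nonneg (rd_psd X ψ)
  have e1 : ∀ j, cc X ψ (lift X a * b) i j = ⟪evec (rd X ψ) i, ap a (evec (rd X ψ) j)⟫_ℂ *
      ⟪ap bᴴ (ap (su X ψ i i) ψ), ap (su X ψ i j) ψ⟫_ℂ := by
    intro j
    have c1 := ((supp_su (ψ := ψ) j j).commute hb disjoint_compl_right).eq
    have c2 := ((supp_su (ψ := ψ) i j).commute hb disjoint_compl_right).eq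
    rw [cc, ← Matrix.mul_assoc, Matrix.mul_assoc _ b, ← c1, ← Matrix.mul_assoc, su_mul_lift_mul,
      Matrix.smul_mul, ap_smul, inner_smul_right, ← inner_ap_right, inner_ap_left,
      su_conjTranspose, ← ap_mul, ← ap_mul, Matrix.mul_assoc, ← c2, ← Matrix.mul_assoc, su_mul,
      if_pos rfl]
  have hB := bessel (φ := fun j => ap (su X ψ i j) ψ) hl (fun j k => by
    rw [inner_ap_left, su_conjTranspose, ← ap_mul, su_mul, if_pos rfl, inner_su]
    simp only [eq_comm]) (ap bᴴ (ap (su X ψ i i) ψ))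
  have hn : ‖ap (su X ψ i i) ψ‖ ^ 2 = ev (rd X ψ) i := by
    rw [norm_ap_sq, su_conjTranspose, su_mul, if_pos rfl, inner_su, if_pos rfl, Complex.ofReal_re]
  have hv : ‖ap bᴴ (ap (su X ψ i i) ψ)‖ ^ 2 ≤ ev (rd X ψ) i := by
    rw [← hn]
    have := norm_ap_le bᴴ (ap (su X ψ i i) ψ)
    rw [l2_opNorm_conjTranspose] at this
    gcongr
    exact this.trans (mul_le_of_le_one_left (norm_nonneg _) hb1)
  have hA : ∑ j, ‖⟪evec (rd X ψ) i, ap a (evec (rd X ψ) j)⟫_ℂ‖ ^ 2 ≤ 1 := by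
    simp only [inner_ap_right a, ← norm_inner_symm (evec _ _), sum_sq_inner_evec]
    have := norm_ap_le aᴴ (evec (rd X ψ) i)
    rw [l2_opNorm_conjTranspose, norm_evec, mul_one] at this
    exact pow_le_one₀ (norm_nonneg _) (this.trans ha1)
  have hCS := Real.sum_mul_le_sqrt_mul_sqrt univ
    (fun j => ‖⟪evec (rd X ψ) i, ap a (evec (rd X ψ) j)⟫_ℂ‖)
    fun j => ‖⟪ap bᴴ (ap (su X ψ i i) ψ), ap (su X ψ i j) ψ⟫_ℂ‖ / Real.sqrt (ev (rd X ψ) j)
  simp only [div_pow, Real.sq_sqrt (hl _)] at hCS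
  calc _ = Real.sqrt (ev (rd X ψ) i) * ∑ j, ‖⟪evec (rd X ψ) i, ap a (evec (rd X ψ) j)⟫_ℂ‖ *
        (‖⟪ap bᴴ (ap (su X ψ i i) ψ), ap (su X ψ i j) ψ⟫_ℂ‖ / Real.sqrt (ev (rd X ψ) j)) := by
        rw [Finset.mul_sum]
        refine Finset.sum_congr rfl fun j _ => ?_
        rw [e1, norm_mul, Real.sqrt_div (hl i)]; ring
    _ ≤ Real.sqrt (ev (rd X ψ) i) * (Real.sqrt 1 * Real.sqrt (ev (rd X ψ) i)) := by
        refine mul_le_mul_of_nonneg_left (hCS.trans ?_) (Real.sqrt_nonneg _)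
        exact mul_le_mul (Real.sqrt_le_sqrt hA) (Real.sqrt_le_sqrt (hB.trans hv))
          (Real.sqrt_nonneg _) (Real.sqrt_nonneg _)
    _ = _ := by rw [Real.sqrt_one, one_mul, Real.mul_self_sqrt (hl i)]

lemma cc_eq_zero_left (h : Q.Op d) {i : Cfg (sub (sb X) d)} (hi : ev (rd X ψ) i = 0)
    (j : Cfg (sub (sb X) d)) : cc X ψ h i j = 0 := by
  have hn : ‖ap (su X ψ i i) ψ‖ ^ 2 = 0 := by
    rw [norm_ap_sq, su_conjTranspose, su_mul, if_pos rfl, inner_su, if_pos rfl, Complex.ofReal_re,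
      hi]
  rw [sq_eq_zero_iff, norm_eq_zero] at hn
  rw [cc, Matrix.mul_assoc, ap_mul, inner_ap_right, su_conjTranspose, hn, inner_zero_left]

lemma cc_eq_zero_right (h : Q.Op d) (i : Cfg (sub (sb X) d)) {j : Cfg (sub (sb X) d)}
    (hj : ev (rd X ψ) j = 0) : cc X ψ h i j = 0 := by
  have := cc_conj (X := X) (ψ := ψ) h i j
  rw [cc_eq_zero_left _ hj] at this
  simpa using this.symm

/-- **crossing bound** -/
theorem cross_bound {Z : Finset ι} {h : Q.Op d} (hh : Supp Z h) {κ : ℝ → ℝ → ℝ} {K : ℝ}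
    (hK : 0 ≤ K) (hκ : ∀ x y, 0 < x → 0 < y →
      |κ x y| ≤ K * (Real.sqrt (x / y) + Real.sqrt (y / x))) :
    ∑ i, ∑ j, |κ (ev (rd X ψ) i) (ev (rd X ψ) j)| * ‖cc X ψ h i j‖ ≤
      2 * K * (dim d Z) ^ 2 * ‖h‖ * ‖ψ‖ ^ 2 := by
  obtain ⟨I, _, c, a, b, hI, hc, e⟩ := hh.decomp X
  have hl := ev_nonneg (rd_psd X ψ)
  have key : ∀ k, ∑ i, ∑ j, |κ (ev (rd X ψ) i) (ev (rd X ψ) j)| * ‖cc X ψ (a k * b k) i j‖ ≤
      2 * K * ‖ψ‖ ^ 2 := by
    intro k
    obtain ⟨-, h1, h2, h3, h4⟩ := hc k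
    have h1' := h1.mono (inter_subset_right : Z ∩ X ⊆ X)
    have h2' : Supp Xᶜ (b k) := h2.mono (by intro x; simp)
    have k1 := cross_prod (ψ := ψ) h1' h2' h3 h4
    have k2 := cross_prod (ψ := ψ) h1'.conjTranspose h2'.conjTranspose
      (by rwa [l2_opNorm_conjTranspose]) (by rwa [l2_opNorm_conjTranspose])
    rw [← conjTranspose_mul, ← (h1'.commute h2' disjoint_compl_right).eq, Finset.sum_comm] at k2
    simp only [cc_conj, Complex.norm_conj] at k2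
    calc _ ≤ ∑ i, ∑ j, K * (Real.sqrt (ev (rd X ψ) i / ev (rd X ψ) j) * ‖cc X ψ (a k * b k) i j‖ +
          Real.sqrt (ev (rd X ψ) j / ev (rd X ψ) i) * ‖cc X ψ (a k * b k) i j‖) := by
          refine Finset.sum_le_sum fun i _ => Finset.sum_le_sum fun j _ => ?_
          rcases (hl i).eq_or_lt with hi | hi
          · simp [cc_eq_zero_left _ hi.symm]
          rcases (hl j).eq_or_lt with hj | hj
          · simp [cc_eq_zero_right _ _ hj.symm]
          rw [← add_mul, ← mul_assoc]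
          exact mul_le_mul_of_nonneg_right (hκ _ _ hi hj) (norm_nonneg _)
      _ ≤ _ := by
          simp only [← Finset.mul_sum, Finset.sum_add_distrib]
          nlinarith
  calc _ ≤ ∑ i, ∑ j, ∑ k, ‖h‖ * (|κ (ev (rd X ψ) i) (ev (rd X ψ) j)| *
        ‖cc X ψ (a k * b k) i j‖) := by
        refine Finset.sum_le_sum fun i _ => Finset.sum_le_sum fun j _ => ?_
        conv_lhs => rw [e, cc_sum]
        refine (mul_le_mul_of_nonneg_left (norm_sum_le _ _) (abs_nonneg _)).trans ?_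
        rw [Finset.mul_sum]
        refine Finset.sum_le_sum fun k _ => ?_
        rw [cc_smul, norm_mul, mul_left_comm]
        exact mul_le_mul_of_nonneg_right (hc k).1 (by positivity)
    _ = ∑ k, ‖h‖ * ∑ i, ∑ j, |κ (ev (rd X ψ) i) (ev (rd X ψ) j)| * ‖cc X ψ (a k * b k) i j‖ := by
        simp only [Finset.mul_sum]
        rw [Finset.sum_congr rfl fun i _ => Finset.sum_comm, Finset.sum_comm]
    _ ≤ ∑ _k : I, ‖h‖ * (2 * K * ‖ψ‖ ^ 2) := by gcongr with k; exact key k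
    _ = _ := by rw [Finset.sum_const, card_univ, hI, nsmul_eq_mul]; push_cast; ring

lemma sq_le_exp (u c : ℝ) (hc : 0 < c) : u ^ 2 ≤ 2 * c ^ 2 * Real.exp (|u| / c) := by
  have h := Real.pow_div_factorial_le_exp (|u| / c) (by positivity) 2
  rw [div_pow, sq_abs, Nat.factorial_two, div_div, div_le_iff₀ (by positivity)] at h
  push_cast at h; linarith

lemma exp_abs_log_le {x y : ℝ} (hx : 0 < x) (hy : 0 < y) :
    Real.exp (|Real.log x - Real.log y| / 2) ≤ Real.sqrt (x / y) + Real.sqrt (y / x) := by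
  have key : ∀ {x y : ℝ}, 0 < x → 0 < y →
      Real.exp ((Real.log x - Real.log y) / 2) = Real.sqrt (x / y) := by
    intro x y hx hy
    rw [← Real.log_div hx.ne' hy.ne', ← Real.log_sqrt (by positivity),
      Real.exp_log (Real.sqrt_pos.2 (by positivity))]
  have h1 := Real.sqrt_nonneg (x / y)
  have h2 := Real.sqrt_nonneg (y / x)
  rcases abs_cases (Real.log x - Real.log y) with h | h
  · rw [h.1, key hx hy]; linarith
  · rw [h.1, neg_sub, key hy hx]; linarith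

lemma exp_add_exp_sub_two_le (v : ℝ) :
    Real.exp v + Real.exp (-v) - 2 ≤ v ^ 2 * Real.exp |v| := by
  have key : ∀ t : ℝ, 0 ≤ t → Real.exp t + Real.exp (-t) - 2 ≤ t ^ 2 * Real.exp t := by
    intro t ht
    have h1 : 1 - Real.exp (-t) ≤ t := by have := Real.add_one_le_exp (-t); linarith
    have h2 : 0 ≤ 1 - Real.exp (-t) := by
      have := Real.exp_le_one_iff.2 (neg_nonpos.2 ht); linarith
    have h3 : Real.exp t + Real.exp (-t) - 2 = (1 - Real.exp (-t)) ^ 2 * Real.exp t := by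
      have h4 : Real.exp (-t) * Real.exp t = 1 := by rw [← Real.exp_add]; simp
      linear_combination (Real.exp (-t) - 2) * (-h4)
    rw [h3]
    gcongr
  rcases abs_cases v with h | h
  · rw [h.1]; exact key v h.2
  · have := key (-v) (by linarith [h.2])
    rw [h.1]; rw [neg_neg, neg_sq] at this; linarith

/-- a crossing term under a slowly varying tilt -/
theorem tilt_cross {Z : Finset ι} {h : Q.Op d} (hh : Supp Z h) (hh' : h.IsHermitian) {y : ℝ → ℝ}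
    {δ : ℝ} (hδ0 : 0 ≤ δ) (hδ : δ ≤ 1 / 4) (hy0 : ∀ x, 0 < x → 0 < y x)
    (hy : ∀ a b, 0 < a → 0 < b → |Real.log (y a) - Real.log (y b)| ≤ δ * |Real.log a - Real.log b|) :
    (⟪ψ, ap h ψ⟫_ℂ).re - (⟪ψ, ap (fr y (mg X (pj ψ)) * h * fr (fun x => (y x)⁻¹) (mg X (pj ψ)))
      ψ⟫_ℂ).re ≤ 32 * δ ^ 2 * (dim d Z) ^ 2 * ‖h‖ * ‖ψ‖ ^ 2 := by
  have hl := ev_nonneg (rd_psd X ψ)
  have h0 := inner_fc_mul_fc (X := X) (ψ := ψ) (fun _ => 1) (fun _ => 1) h
  rw [fc_one, Matrix.one_mul, Matrix.mul_one] at h0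
  have hre : ∀ i j, (cc X ψ h j i).re = (cc X ψ h i j).re := by
    intro i j
    have := cc_conj (X := X) (ψ := ψ) h i j
    rw [hh'.eq] at this
    rw [this, Complex.conj_re]
  have hb := cross_bound (X := X) (ψ := ψ) hh (κ := fun a b => y a / y b + y b / y a - 2)
    (K := 32 * δ ^ 2) (by positivity) fun a b ha hb => by
      have h1 := hy a b ha hb
      set u := |Real.log a - Real.log b| with hu
      have hu0 : 0 ≤ u := abs_nonneg _
      have e1 : y a / y b = Real.exp (Real.log (y a) - Real.log (y b)) := by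
        rw [Real.exp_sub, Real.exp_log (hy0 a ha), Real.exp_log (hy0 b hb)]
      have e2 : y b / y a = Real.exp (-(Real.log (y a) - Real.log (y b))) := by
        rw [neg_sub, Real.exp_sub, Real.exp_log (hy0 a ha), Real.exp_log (hy0 b hb)]
      set v := Real.log (y a) - Real.log (y b)
      have h2 : 0 ≤ Real.exp v + Real.exp (-v) - 2 := by
        linarith [Real.add_one_le_exp v, Real.add_one_le_exp (-v)]
      rw [e1, e2, abs_of_nonneg h2]
      have h3 : v ^ 2 ≤ δ ^ 2 * u ^ 2 := by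
        rw [← sq_abs v, ← mul_pow]; gcongr
      have h4 : Real.exp |v| ≤ Real.exp (u / 4) := Real.exp_le_exp.2 (by nlinarith)
      have h5 := sq_le_exp u 4 (by norm_num)
      rw [abs_of_nonneg hu0] at h5
      have h6 : Real.exp (u / 4) * Real.exp (u / 4) = Real.exp (u / 2) := by
        rw [← Real.exp_add]; ring_nf
      calc _ ≤ v ^ 2 * Real.exp |v| := exp_add_exp_sub_two_le v
        _ ≤ δ ^ 2 * (2 * 4 ^ 2 * Real.exp (u / 4)) * Real.exp (u / 4) := by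
            gcongr; exact h3.trans (by gcongr)
        _ = 32 * δ ^ 2 * Real.exp (u / 2) := by rw [← h6]; ring
        _ ≤ _ := by gcongr; exact exp_abs_log_le ha hb
  rw [fr, fr, inner_fc_mul_fc, h0]
  simp only [Complex.re_sum, ← Complex.ofReal_mul, Complex.re_ofReal_mul, one_mul]
  set l := ev (rd X ψ)
  have e : ∑ i, ∑ j, y (l i) * (y (l j))⁻¹ * (cc X ψ h i j).re =
      ∑ i, ∑ j, y (l j) * (y (l i))⁻¹ * (cc X ψ h i j).re := by
    rw [Finset.sum_comm]; simp only [hre]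
  have h7 : 2 * (∑ i, ∑ j, (cc X ψ h i j).re) - ∑ i, ∑ j, y (l i) * (y (l j))⁻¹ *
      (cc X ψ h i j).re - ∑ i, ∑ j, y (l j) * (y (l i))⁻¹ * (cc X ψ h i j).re ≤
      ∑ i, ∑ j, |y (l i) / y (l j) + y (l j) / y (l i) - 2| * ‖cc X ψ h i j‖ := by
    simp only [Finset.mul_sum, ← Finset.sum_sub_distrib]
    refine Finset.sum_le_sum fun i _ => Finset.sum_le_sum fun j _ => ?_
    have h8 := Complex.abs_re_le_norm (cc X ψ h i j)
    calc _ = -((y (l i) / y (l j) + y (l j) / y (l i) - 2) * (cc X ψ h i j).re) := by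
          simp only [div_eq_mul_inv]; ring
      _ ≤ |(y (l i) / y (l j) + y (l j) / y (l i) - 2) * (cc X ψ h i j).re| := neg_le_abs _
      _ ≤ _ := by rw [abs_mul]; gcongr
  linarith

end Crest.Agent.N336.T
end

-- ▼ part N336/T/Flat
section

/-!
# Row 336: flatness of the entanglement spectrum (item 2) (helper87)

* `flat : FlatStmt`, Chebyshev form `flat_tail`
-/

set_option autoImplicit false
set_option linter.unusedSectionVars false

open Matrix Finset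
open scoped Kronecker ComplexOrder MatrixOrder Matrix.Norms.L2Operator InnerProductSpace

namespace Crest.Agent.N336.T

open Crest.Agent.N336.Q Crest.Agent.N336.A

attribute [local irreducible] ev eU

section abstract

variable {ι : Type} [Fintype ι] [DecidableEq ι]
  {d : ι → Type} [∀ x, Fintype (d x)] [∀ x, DecidableEq (d x)] [∀ x, Nonempty (d x)]

/-- a set of sites crosses the boundary of `X` -/
def Crosses (Z X : Finset ι) : Prop := (∃ x ∈ Z, x ∈ X) ∧ ∃ x ∈ Z, x ∉ X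

instance (Z X : Finset ι) : Decidable (Crosses Z X) := by unfold Crosses; infer_instance

lemma cc_eq_zero_of_not_crosses {Z X : Finset ι} {ψ : Q.Vec (Cfg d)} {h : Q.Op d} (hh : Supp Z h)
    (hc : ¬ Crosses Z X) {i j : Cfg (sub (sb X) d)} (hij : i ≠ j) : cc X ψ h i j = 0 := by
  rw [Crosses, not_and_or] at hc
  rcases hc with hc | hc
  · exact cc_outside (hh.mono fun x hx => mem_compl.2 fun h' => hc ⟨x, hx, h'⟩) hij
  · exact cc_inside (hh.mono fun x hx => by by_contra h'; exact hc ⟨x, hx, h'⟩) hij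

theorem var_le {K : Type} [Fintype K] {h : K → Q.Op d} {Z : K → Finset ι}
    (hZ : ∀ k, Supp (Z k) (h k)) {Ω : Q.Vec (Cfg d)} {E Δ : ℝ} (hg : Gap (∑ k, h k) Ω E Δ)
    (X : Finset ι) :
    Δ * ∑ i, ev (rd X Ω) i * (-Real.log (ev (rd X Ω) i) - SX X (pj Ω)) ^ 2 ≤
      ∑ k, if Crosses (Z k) X then 8 * (dim d (Z k) : ℝ) ^ 2 * ‖h k‖ else 0 := by
  set k : ℝ → ℝ := fun x => -Real.log x - SX X (pj Ω) with hk
  set ρ := mg X (pj Ω) with hρ
  set l := ev (rd X Ω) with hl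
  have hs : ∑ i, l i = 1 := by rw [hl, sum_ev_rd, hg.norm]; simp
  have hexp : ∀ f : ℝ → ℝ, ⟪Ω, ap (fr f ρ) Ω⟫_ℂ = ((∑ i, l i * f (l i) : ℝ) : ℂ) := by
    intro f
    rw [fr, hρ, fc_mg, ap_sum, inner_sum]
    push_cast
    refine Finset.sum_congr rfl fun i _ => ?_
    rw [ap_smul, inner_smul_right, inner_su, if_pos rfl, mul_comm]
  have h1 : ⟪Ω, ap (fr k ρ) Ω⟫_ℂ = 0 := by
    rw [hexp]
    simp only [hk, mul_sub, Finset.sum_sub_distrib, ← Finset.sum_mul, hs, one_mul]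
    rw [SX, ent]
    simp [Real.negMulLog, hl]
  have hkk : fr k ρ * fr k ρ = fr (fun x => k x ^ 2) ρ := by
    rw [fc_mul]; exact fc_congr fun i => by push_cast; ring
  have h2 : ‖ap (fr k ρ) Ω‖ ^ 2 = ∑ i, l i * k (l i) ^ 2 := by
    rw [norm_ap_sq, (fr_isHermitian _ _).eq, hkk, hexp, Complex.ofReal_re]
  have h3 := hg.gap (ap (fr k ρ) Ω)
  rw [h1, h2, norm_zero, inner_ap_left, (fr_isHermitian _ _).eq, ← ap_mul, ← ap_mul, fr, hρ,
    inner_fc_mul_fc] at h3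
  have h4 := inner_fc_mul_fc (X := X) (ψ := Ω) (fun x => ((k x ^ 2 : ℝ) : ℂ)) (fun _ => 1)
    (∑ k, h k)
  rw [fc_one, Matrix.mul_one, ap_mul, hg.eig, map_smul, inner_smul_right] at h4
  have h5 := inner_fc_mul_fc (X := X) (ψ := Ω) (fun _ => 1) (fun x => ((k x ^ 2 : ℝ) : ℂ))
    (∑ k, h k)
  rw [fc_one, Matrix.one_mul, ap_mul, inner_ap_right, hg.herm.eq, hg.eig, inner_smul_left,
    Complex.conj_ofReal] at h5
  have h6 := hexp fun x => k x ^ 2
  rw [fr, hρ] at h6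
  rw [h6] at h4 h5
  have h4' := congrArg Complex.re h4
  have h5' := congrArg Complex.re h5
  simp only [← Complex.ofReal_mul, Complex.ofReal_re, Complex.re_sum, mul_one, one_mul,
    Complex.re_ofReal_mul, ← hl] at h3 h4' h5'
  have h7 : ∑ i, ∑ j, k (l i) * k (l j) * (cc X Ω (∑ k, h k) i j).re -
      E * ∑ i, l i * k (l i) ^ 2 =
      ∑ a, ∑ i, ∑ j, -(1 / 2) * ((k (l i) - k (l j)) ^ 2 * (cc X Ω (h a) i j).re) := by
    have e0 : ∑ a, ∑ i, ∑ j, -(1 / 2) * ((k (l i) - k (l j)) ^ 2 * (cc X Ω (h a) i j).re) =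
        -(1 / 2) * ∑ i, ∑ j, (k (l i) - k (l j)) ^ 2 * (cc X Ω (∑ k, h k) i j).re := by
      simp only [cc_sum, Complex.re_sum, Finset.mul_sum]
      rw [Finset.sum_comm]
      exact Finset.sum_congr rfl fun i _ => Finset.sum_comm
    rw [e0]
    have : ∀ i j, (k (l i) - k (l j)) ^ 2 * (cc X Ω (∑ k, h k) i j).re =
        k (l i) ^ 2 * (cc X Ω (∑ k, h k) i j).re + k (l j) ^ 2 * (cc X Ω (∑ k, h k) i j).re -
          2 * (k (l i) * k (l j) * (cc X Ω (∑ k, h k) i j).re) := fun i j => by ring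
    have e2 : ∑ i, ∑ j, 2 * (k (l i) * k (l j) * (cc X Ω (∑ k, h k) i j).re) =
        2 * ∑ i, ∑ j, k (l i) * k (l j) * (cc X Ω (∑ k, h k) i j).re := by
      simp only [Finset.mul_sum]
    simp only [this, Finset.sum_sub_distrib, Finset.sum_add_distrib]
    rw [e2]
    linarith
  rw [h7, zero_pow two_ne_zero, sub_zero] at h3
  refine le_trans h3 (Finset.sum_le_sum fun a _ => ?_)
  split_ifs with hc
  · have hb := cross_bound (X := X) (ψ := Ω) (hZ a) (κ := fun x y => (Real.log x - Real.log y) ^ 2)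
      (K := 8) (by norm_num) fun x y hx hy => by
        rw [abs_of_nonneg (sq_nonneg _)]
        have := sq_le_exp (Real.log x - Real.log y) 2 (by norm_num)
        have := exp_abs_log_le hx hy
        linarith
    rw [hg.norm] at hb
    have : ∑ i, ∑ j, -(1 / 2) * ((k (l i) - k (l j)) ^ 2 * (cc X Ω (h a) i j).re) ≤
        1 / 2 * ∑ i, ∑ j, |(Real.log (l i) - Real.log (l j)) ^ 2| * ‖cc X Ω (h a) i j‖ := by
      simp only [Finset.mul_sum]
      refine Finset.sum_le_sum fun i _ => Finset.sum_le_sum fun j _ => ?_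
      have e : (k (l i) - k (l j)) ^ 2 = (Real.log (l i) - Real.log (l j)) ^ 2 := by
        simp only [hk]; ring
      rw [e, abs_of_nonneg (sq_nonneg _)]
      have := (neg_le_abs _).trans (Complex.abs_re_le_norm (cc X Ω (h a) i j))
      nlinarith [sq_nonneg (Real.log (l i) - Real.log (l j))]
    linarith
  · refine le_of_eq ?_
    refine Finset.sum_eq_zero fun i _ => Finset.sum_eq_zero fun j _ => ?_
    by_cases hij : i = j
    · simp [hij]
    · simp [cc_eq_zero_of_not_crosses (hZ a) hc hij]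

end abstract

variable {q R : ℕ} {J Δ : ℝ} {Λ : Type} [Fintype Λ] [DecidableEq Λ]

/-- the constant `dim ^ 2 * J` for one term -/
noncomputable def cT (q R : ℕ) (J : ℝ) : ℝ := (q : ℝ) ^ (2 * (2 * R + 1) ^ 2) * J

lemma cT_pos (hq : 1 ≤ q) (R : ℕ) (hJ : 0 < J) : 0 < cT q R J := by
  have : (0 : ℝ) < q := by exact_mod_cast hq
  unfold cT; positivity

lemma dim_sq_mul_norm_le (hq : 1 ≤ q) (s : Sys q R J Δ Λ) (X : Finset Λ) :
    (dim (fun _ : Λ => Fin q) X : ℝ) ^ 2 * ‖s.h X‖ ≤ cT q R J := by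
  have hq' : (1 : ℝ) ≤ q := by exact_mod_cast hq
  have hJ := J_nonneg s
  by_cases h : s.h X = 0
  · rw [h, norm_zero, mul_zero, cT]; positivity
  · obtain ⟨v, hv⟩ := nonempty_of_h_ne h
    have h1 := (card_le_card (sub_ball h hv)).trans (card_ball_le s v R)
    rw [dim_const, Fintype.card_fin, cT]
    push_cast
    rw [← pow_mul]
    exact mul_le_mul (pow_le_pow_right₀ hq' (by omega)) (norm_h_le s X) (norm_nonneg _)
      (by positivity)

lemma sum_crosses_le (hq : 1 ≤ q) (s : Sys q R J Δ Λ) (A : Finset Λ) {c : ℝ} (hc : 0 ≤ c) :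
    (∑ X : Finset Λ, if Crosses X A then c * (dim (fun _ : Λ => Fin q) X : ℝ) ^ 2 * ‖s.h X‖
      else 0) ≤ c * cT q R J * s.cross A := by
  classical
  rw [Sys.cross, Finset.card_filter]
  push_cast
  rw [Finset.mul_sum]
  refine Finset.sum_le_sum fun X _ => ?_
  have h1 := dim_sq_mul_norm_le hq s X
  have h2 : 0 ≤ cT q R J := le_trans (by positivity) h1
  by_cases h : s.h X = 0
  · simp [h]
  · by_cases h' : Crosses X A
    · rw [if_pos h', if_pos ⟨h, h'⟩, mul_one, mul_assoc]; gcongr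
    · rw [if_neg h']; positivity

lemma S_eq (Ω : Q.Vec (Cfg fun _ : Λ => Fin q)) (A : Finset Λ) :
    S Ω A = ent (red (sb A) (pj Ω)) := entanglementEntropy_eq Ω A


end Crest.Agent.N336.T
end

-- ▼ part N336/T/Defs

/-!
# Row 336: the tilt engine, definitions and frozen statements (helper87)

* `seg Y k l = Y (k+l-1) * ⋯ * Y k`, the functional `LL`, admissible families `Adm`
* `Stat` : a positive minimiser with its stationarity equations
* `EngStmt` (existence), `EnergyStmt` (the tilted state has small energy),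
  `TiltSubStmt` (abstract item 3), `TiltPLStmt` (abstract patch lemma)
-/

set_option autoImplicit false
set_option linter.unusedSectionVars false

open Matrix Finset
open scoped ComplexOrder MatrixOrder Matrix.Norms.L2Operator InnerProductSpace

namespace Crest.Agent.N336.T

open Crest.Agent.N336.Q Crest.Agent.N336.A

section matrices

variable {n : Type} [Fintype n] [DecidableEq n]

/-- the ordered product `Y (k + l - 1) * ⋯ * Y k` -/
noncomputable def seg (Y : ℕ → Matrix n n ℂ) (k : ℕ) : ℕ → Matrix n n ℂ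
  | 0 => 1
  | l + 1 => Y (k + l) * seg Y k l

/-- bounds `a ≤ W ≤ b` for the quadratic form -/
def Bw (a b : ℝ) (W : Matrix n n ℂ) : Prop :=
  ∀ v : Q.Vec n, a * ‖v‖ ^ 2 ≤ (⟪v, ap W v⟫_ℂ).re ∧ (⟪v, ap W v⟫_ℂ).re ≤ b * ‖v‖ ^ 2

/-- the trace function `tr F(W)` -/
noncomputable def tF (F : ℝ → ℝ) (W : Matrix n n ℂ) : ℝ := ∑ i, F (ev W i)

end matrices

/-- `F` is smooth on `I` and blows up at the ends of `I` -/
structure Barrier (s : ℝ) (I : Set ℝ) (F : ℝ → ℝ) : Prop where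
  smooth : ContDiffOn ℝ 2 F I
  sub : ∀ c : ℝ, 0 < c → ∀ M : ℝ, ∃ a ∈ I, ∃ b ∈ I, ∀ w ∈ I,
    c * F w + min (s * Real.log w) 0 ≤ M → a ≤ w ∧ w ≤ b

section sites

variable {ι : Type} [Fintype ι] [DecidableEq ι]
  {d : ι → Type} [∀ x, Fintype (d x)] [∀ x, DecidableEq (d x)]

/-- `tr_X F(W)` for an operator `W` living on `X` -/
noncomputable def tX (X : Finset ι) (F : ℝ → ℝ) (W : Q.Op d) : ℝ := (dim d Xᶜ : ℝ)⁻¹ * tF F W

/-- admissible families -/
def Adm (I : Set ℝ) (A : ℕ → Finset ι) (m : ℕ) (Y : ℕ → Q.Op d) : Prop :=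
  ∀ j < m, Supp (A j) (Y j) ∧ ∀ i, ev ((Y j)ᴴ * Y j) i ∈ I

/-- the functional -/
noncomputable def LL (s : ℝ) (F : ℕ → ℝ → ℝ) (A : ℕ → Finset ι) (m : ℕ) (Ω : Q.Vec (Cfg d))
    (Y : ℕ → Q.Op d) : ℝ :=
  s * Real.log (‖ap (seg Y 0 m) Ω‖ ^ 2) + ∑ j ∈ range m, tX (A j) (F j) ((Y j)ᴴ * Y j)

/-- a minimiser `Y` in the positive gauge; `N • χ` is the tilted state -/
structure Stat (s : ℝ) (I : Set ℝ) (F : ℕ → ℝ → ℝ) (A : ℕ → Finset ι) (m : ℕ)
    (Ω : Q.Vec (Cfg d)) (y : ℕ → ℝ → ℝ) (Y : ℕ → Q.Op d) (χ : Q.Vec (Cfg d)) (N : ℝ) : Prop where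
  adm : Adm I A m Y
  min : ∀ Y', Adm I A m Y' → LL s F A m Ω Y ≤ LL s F A m Ω Y'
  norm : ‖χ‖ = 1
  pos : 0 < N
  chi : ap (seg Y 0 m) Ω = (N : ℂ) • χ
  eq : ∀ j < m, Y j = fr (y j) (mg (A j) (pj χ))
  phi : ∀ k ≤ m, ∀ X : Q.Op d, (k < m → Supp (A k) X) →
    ⟪χ, ap (seg Y k (m - k) * X * seg Y 0 k) Ω⟫_ℂ = N * ⟪χ, ap X χ⟫_ℂ

variable {K : Type} [Fintype K]

/-- a gapped Hamiltonian `∑ h k` with supports `Z k` -/
structure Loc (h : K → Q.Op d) (Z : K → Finset ι) (Ω : Q.Vec (Cfg d)) (E Δ : ℝ) : Prop where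
  supp : ∀ k, Supp (Z k) (h k)
  herm : ∀ k, (h k).IsHermitian
  gap : Gap (∑ k, h k) Ω E Δ
  pos : 0 < Δ

/-- an increasing chain such that every term crosses at most one cut -/
structure Chain (h : K → Q.Op d) (Z : K → Finset ι) (A : ℕ → Finset ι) (m : ℕ) : Prop where
  mono : ∀ i j, i ≤ j → j < m → A i ⊆ A j
  term : ∀ k, h k ≠ 0 → ∀ i j, i < j → j < m → (∃ x ∈ Z k, x ∈ A i) → Z k ⊆ A j

/-- weight of the terms crossing the boundary of `X` -/
noncomputable def cw (h : K → Q.Op d) (Z : K → Finset ι) (X : Finset ι) : ℝ :=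
  ∑ k, if Crosses (Z k) X then (dim d (Z k) : ℝ) ^ 2 * ‖h k‖ else 0

end sites

/-- existence of a stationary minimiser -/
def EngStmt : Prop :=
  ∀ (ι : Type) [Fintype ι] [DecidableEq ι] (d : ι → Type) [∀ x, Fintype (d x)]
    [∀ x, DecidableEq (d x)] [∀ x, Nonempty (d x)] (s : ℝ) (I : Set ℝ) (F y : ℕ → ℝ → ℝ)
    (A : ℕ → Finset ι) (m : ℕ) (Ω : Q.Vec (Cfg d)),
    s ≠ 0 → IsOpen I → I.OrdConnected → I ⊆ Set.Ioi 0 → Ω ≠ 0 →
    (∀ i j, i ≤ j → j < m → A i ⊆ A j) → (∀ j < m, Barrier s I (F j)) →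
    (∀ j < m, ∀ w ∈ I, y j (-(w * deriv (F j) w) / s) = Real.sqrt w) →
    ∃ Y χ N, Stat s I F A m Ω y Y χ N

/-- the tilted state has small energy -/
def EnergyStmt : Prop :=
  ∀ (ι : Type) [Fintype ι] [DecidableEq ι] (d : ι → Type) [∀ x, Fintype (d x)]
    [∀ x, DecidableEq (d x)] [∀ x, Nonempty (d x)] (K : Type) [Fintype K] (h : K → Q.Op d)
    (Z : K → Finset ι) (Ω : Q.Vec (Cfg d)) (E Δ s : ℝ) (I : Set ℝ) (F y : ℕ → ℝ → ℝ)
    (A : ℕ → Finset ι) (m : ℕ) (δ : ℕ → ℝ) (Y : ℕ → Q.Op d) (χ : Q.Vec (Cfg d)) (N : ℝ),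
    Loc h Z Ω E Δ → Chain h Z A m → Stat s I F A m Ω y Y χ N →
    (∀ j < m, 0 ≤ δ j ∧ δ j ≤ 1 / 4 ∧ (∀ x, 0 ≤ x → 0 < y j x) ∧ ∀ a b, 0 < a → 0 < b →
      |Real.log (y j a) - Real.log (y j b)| ≤ δ j * |Real.log a - Real.log b|) →
    Δ * (1 - ‖⟪Ω, χ⟫_ℂ‖ ^ 2) ≤ ∑ j ∈ range m, 32 * δ j ^ 2 * cw h Z (A j)

/-- abstract form of item 3 -/
def TiltSubStmt : Prop :=
  ∀ (ι : Type) [Fintype ι] [DecidableEq ι] (d : ι → Type) [∀ x, Fintype (d x)]
    [∀ x, DecidableEq (d x)] [∀ x, Nonempty (d x)] (K : Type) [Fintype K] (h : K → Q.Op d)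
    (Z : K → Finset ι) (Ω : Q.Vec (Cfg d)) (E Δ : ℝ) (A : ℕ → Finset ι) (m : ℕ) (D : Finset ι)
    (δ : ℕ → ℝ) (t : ℝ),
    Loc h Z Ω E Δ → Chain h Z A m → (∀ j < m, D ⊆ A j) → (∀ j < m, 0 < δ j ∧ δ j ≤ 1 / 4) →
    ∑ j ∈ range m, δ j = 1 → ∑ j ∈ range m, 32 * δ j ^ 2 * cw h Z (A j) ≤ Δ / 1600 → 0 < t →
    (∀ j < m, 240 * cw h Z (A j) ≤ t ^ 2 * Δ ∧ 240 * cw h Z (A j \ D) ≤ t ^ 2 * Δ) →
    ∃ j < m, SX (A j) (pj Ω) - SX (A j \ D) (pj Ω) ≤ 7 / 10 * SX D (pj Ω) + 2 * t + 3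

/-- abstract form of the patch lemma -/
def TiltPLStmt : Prop :=
  ∀ (ι : Type) [Fintype ι] [DecidableEq ι] (d : ι → Type) [∀ x, Fintype (d x)]
    [∀ x, DecidableEq (d x)] [∀ x, Nonempty (d x)] (K : Type) [Fintype K] (h : K → Q.Op d)
    (Z : K → Finset ι) (Ω : Q.Vec (Cfg d)) (E Δ : ℝ) (A : ℕ → Finset ι) (m : ℕ) (θ s₀ t : ℝ),
    Loc h Z Ω E Δ → Chain h Z A m → 0 < θ → θ ≤ 1 / 4 →
    ∑ j ∈ range m, 32 * θ ^ 2 * cw h Z (A j) ≤ Δ / 400 → 0 ≤ s₀ → 1 ≤ t →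
    (∀ j < m, SX (A j) (pj Ω) ≤ s₀) →
    ∃ χ : Q.Vec (Cfg d), ‖χ‖ = 1 ∧
      ‖ap (seg (fun j => fr (fun x => (1 + Real.exp (10 * s₀ + 10 * t + 4) * x) ^ (-θ))
        (mg (A j) (pj χ))) 0 m) Ω‖ ≤ Real.exp (-(5 / 2 * θ * m * t))

end Crest.Agent.N336.T
private theorem rz_ac64784043 : type_of% @_root_.Crest.Agent.N336.T.seg.eq_def := @_root_.Crest.Agent.N336.T.seg.eq_def -- L27
private theorem rz_aea6458181 : type_of% @_root_.Crest.Agent.N336.T.seg.eq_1 := @_root_.Crest.Agent.N336.T.seg.eq_1 -- L27
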