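import Crest.Agent.N336.T.Seg

-- ▼ part N336/T/TrD
section

/-!
# Row 336: trace functions: spectral bounds, Taylor bound, continuity, derivative (helper87)
-/

set_option autoImplicit false
set_option linter.unusedSectionVars false

open Matrix Finset Filter Topology
open scoped ComplexOrder MatrixOrder Matrix.Norms.L2Operator InnerProductSpace

namespace Crest.Agent.N336.T

open Crest.Agent.N336.Q Crest.Agent.N336.A

attribute [local irreducible] ev eU

variable {n : Type} [Fintype n] [DecidableEq n] {a b : ℝ} {W : Matrix n n ℂ}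

lemma Bw.ev_mem (h : Bw a b W) (hW : W.IsHermitian) (i : n) : ev W i ∈ Set.Icc a b := by
  have := h (evec W i)
  rwa [norm_evec, one_pow, mul_one, mul_one, ← ev_eq_re_inner hW] at this

lemma bw_of_ev (hW : W.IsHermitian) (h : ∀ i, ev W i ∈ Set.Icc a b) : Bw a b W := fun v => by
  have h1 := Eng.qf_self hW v
  rw [Eng.qf] at h1
  rw [h1, ← sum_sq_inner_evec W v, Finset.mul_sum, Finset.mul_sum]
  exact ⟨Finset.sum_le_sum fun i _ => mul_le_mul_of_nonneg_right (h i).1 (sq_nonneg _),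
    Finset.sum_le_sum fun i _ => mul_le_mul_of_nonneg_right (h i).2 (sq_nonneg _)⟩

lemma exists_bw [Nonempty n] (hW : W.IsHermitian) : ∃ i j, Bw (ev W i) (ev W j) W := by
  obtain ⟨i, -, hi⟩ := Finset.exists_min_image univ (ev W) univ_nonempty
  obtain ⟨j, -, hj⟩ := Finset.exists_max_image univ (ev W) univ_nonempty
  exact ⟨i, j, bw_of_ev hW fun k => ⟨hi k (mem_univ k), hj k (mem_univ k)⟩⟩

lemma Bw.perturb (h : Bw a b W) {W' : Matrix n n ℂ} {a' b' : ℝ} (h1 : a' ≤ a - ‖W' - W‖)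
    (h2 : b + ‖W' - W‖ ≤ b') : Bw a' b' W' := fun v => by
  have e : (⟪v, ap W' v⟫_ℂ).re = (⟪v, ap W v⟫_ℂ).re + (⟪v, ap (W' - W) v⟫_ℂ).re := by
    rw [ap_sub, inner_sub_right, Complex.sub_re]; ring
  have h3 := abs_le.1 ((Complex.abs_re_le_norm _).trans (norm_inner_ap_le (W' - W) v v))
  obtain ⟨h4, h5⟩ := h v
  have h6 := sq_nonneg ‖v‖
  rw [e]
  constructor <;> nlinarith [h3.1, h3.2]

lemma Bw.conj (h : Bw a b W) {V : Matrix n n ℂ} (hV : Vᴴ * V = 1) : Bw a b (Vᴴ * W * V) :=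
  fun v => by
    have := h (ap V v)
    rwa [norm_ap_unitary hV, inner_ap_left, ← ap_mul, ← ap_mul] at this

lemma Bw.norm_sq {Y : Matrix n n ℂ} (h : Bw a b (Yᴴ * Y)) (v : Q.Vec n) :
    a * ‖v‖ ^ 2 ≤ ‖ap Y v‖ ^ 2 ∧ ‖ap Y v‖ ^ 2 ≤ b * ‖v‖ ^ 2 := by
  rw [norm_ap_sq]; exact h v

lemma isClosed_bw (a b : ℝ) : IsClosed {W : Matrix n n ℂ | Bw a b W} := by
  have hc : ∀ v : Q.Vec n, Continuous fun W : Matrix n n ℂ => (⟪v, ap W v⟫_ℂ).re := fun v =>
    Complex.continuous_re.comp (continuous_const.inner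
      (((Eng.SB.apL n).continuous).clm_apply continuous_const))
  simp only [Bw, Set.setOf_forall]
  exact isClosed_iInter fun v =>
    (isClosed_le continuous_const (hc v)).inter (isClosed_le (hc v) continuous_const)

lemma ev_conj_mem [Nonempty n] {I : Set ℝ} (hI : I.OrdConnected) (hW : W.IsHermitian)
    (h : ∀ i, ev W i ∈ I) {V : Matrix n n ℂ} (hV : Vᴴ * V = 1) (i : n) :
    ev (Vᴴ * W * V) i ∈ I := by
  obtain ⟨j, k, hb⟩ := exists_bw hW
  exact hI.out (h j) (h k) ((hb.conj hV).ev_mem (isHermitian_conjTranspose_mul_mul V hW) i)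

lemma tF_conj (F : ℝ → ℝ) (hW : W.IsHermitian) {V : Matrix n n ℂ} (hV : Vᴴ * V = 1) :
    tF F (Vᴴ * W * V) = tF F W := by
  have hV' : V * Vᴴ = 1 := mul_eq_one_comm.1 hV
  have := fc_conj (fun x => (F x : ℂ)) hW (U := Vᴴ) (by simpa using hV') (by simpa using hV)
  rw [conjTranspose_conjTranspose] at this
  rw [tF_eq, tF_eq, fr, this, trace_mul_cycle, hV', Matrix.one_mul]

variable {F : ℝ → ℝ} {I : Set ℝ}

lemma scalar_taylor (hF : ContDiffOn ℝ 2 F I) (hI : IsOpen I) (hab : Set.Icc a b ⊆ I) :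
    ∃ K : ℝ, 0 ≤ K ∧ ∀ x ∈ Set.Icc a b, ∀ y ∈ Set.Icc a b,
      |F y - F x - deriv F x * (y - x)| ≤ K * (y - x) ^ 2 := by
  have h1 : ContDiffOn ℝ 1 (deriv F) I := hF.deriv_of_isOpen hI (by norm_num)
  obtain ⟨K, hK⟩ := (h1.mono hab).exists_lipschitzOnWith (by norm_num) (convex_Icc a b)
    isCompact_Icc
  refine ⟨K, K.2, fun x hx y hy => ?_⟩
  have hs : Set.uIcc x y ⊆ Set.Icc a b := Set.uIcc_subset_Icc hx hy
  have hd : ∀ z ∈ Set.uIcc x y, HasDerivWithinAt (fun z => F z - deriv F x * z)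
      (deriv F z - deriv F x) (Set.uIcc x y) z := fun z hz => by
    have h2 : DifferentiableAt ℝ F z :=
      (hF.differentiableOn (by norm_num)).differentiableAt (hI.mem_nhds (hab (hs hz)))
    have h3 := (hasDerivAt_id z).const_mul (deriv F x)
    rw [mul_one] at h3
    exact (h2.hasDerivAt.fun_sub h3).hasDerivWithinAt
  have h3 := (convex_uIcc x y).norm_image_sub_le_of_norm_hasDerivWithin_le (C := K * |y - x|) hd
    (fun z hz => by
      have := hK.dist_le_mul z (hs hz) x hx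
      rw [Real.dist_eq, Real.dist_eq] at this
      exact this.trans (mul_le_mul_of_nonneg_left (Set.abs_sub_left_of_mem_uIcc hz) K.2))
    Set.left_mem_uIcc Set.right_mem_uIcc
  rw [Real.norm_eq_abs, Real.norm_eq_abs, mul_assoc, ← sq, sq_abs] at h3
  convert h3 using 2; ring

/-- the two-spectra form of a first order expansion -/
lemma tF_sub (F F' : ℝ → ℝ) {W W' : Matrix n n ℂ} (hW : W.IsHermitian) (hW' : W'.IsHermitian) :
    tF F W' - tF F W - (trace (fr F' W * (W' - W))).re = ∑ i, ∑ j, ov W W' i j *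
      (F (ev W' j) - F (ev W i) - F' (ev W i) * (ev W' j - ev W i)) := by
  have h1 := re_trace_fr_mul_fr F' (fun x => x) W W'
  have h2 : (trace (fr F' W * W)).re = ∑ i, F' (ev W i) * ev W i := by
    conv_lhs => arg 1; arg 1; arg 2; rw [← fc_id hW]
    rw [fc_mul, ← re_trace_fr (fun x => F' x * x)]; simp only [fr, Complex.ofReal_mul]
  rw [fr_id hW'] at h1
  rw [Matrix.mul_sub, trace_sub, Complex.sub_re, h1, h2, tF, tF, sum_ev_right F W W',
    sum_ev_left F W W', sum_ev_left (fun x => F' x * x) W W']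
  simp only [← Finset.sum_sub_distrib]
  exact Finset.sum_congr rfl fun i _ => Finset.sum_congr rfl fun j _ => by ring

lemma hs_eq {W W' : Matrix n n ℂ} (hW : W.IsHermitian) (hW' : W'.IsHermitian) :
    ∑ i, ∑ j, ov W W' i j * (ev W' j - ev W i) ^ 2 = (trace ((W' - W) * (W' - W))).re := by
  have h := tF_sub (fun x => x ^ 2) (fun x => 2 * x) hW hW'
  have e : ∀ {A : Matrix n n ℂ}, A.IsHermitian → fr (fun x => x ^ 2) A = A * A := fun {A} hA => by
    rw [← fr_sq, fr_id hA, hA.eq]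
  have e2 : fr (fun x => 2 * x) W = W + W := by
    conv_rhs => rw [← fc_id hW, fc_add]
    exact fc_congr fun i => by push_cast; ring
  rw [tF_eq, tF_eq, e hW, e hW', e2] at h
  simp only [Matrix.mul_sub, Matrix.sub_mul, Matrix.add_mul, trace_sub, trace_add, Complex.sub_re,
    Complex.add_re, trace_mul_comm W' W] at h ⊢
  have e3 : ∑ i, ∑ j, ov W W' i j * (ev W' j - ev W i) ^ 2 = ∑ i, ∑ j, ov W W' i j *
      (ev W' j ^ 2 - ev W i ^ 2 - 2 * ev W i * (ev W' j - ev W i)) :=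
    Finset.sum_congr rfl fun i _ => Finset.sum_congr rfl fun j _ => by ring
  linarith

lemma re_trace_le_norm (M : Matrix n n ℂ) : (trace M).re ≤ Fintype.card n * ‖M‖ := by
  rw [trace, Complex.re_sum, ← card_univ, ← nsmul_eq_mul]
  exact Finset.sum_le_card_nsmul _ _ _ fun i _ =>
    (Complex.re_le_norm _).trans (norm_apply_le M i i)

theorem tF_taylor (hF : ContDiffOn ℝ 2 F I) (hI : IsOpen I) (hab : Set.Icc a b ⊆ I) :
    ∃ K : ℝ, ∀ W W' : Matrix n n ℂ, W.IsHermitian → W'.IsHermitian → Bw a b W → Bw a b W' →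
      |tF F W' - tF F W - (trace (fr (deriv F) W * (W' - W))).re| ≤ K * ‖W' - W‖ ^ 2 := by
  obtain ⟨K, hK, h⟩ := scalar_taylor hF hI hab
  refine ⟨K * Fintype.card n, fun W W' hW hW' h1 h2 => ?_⟩
  rw [tF_sub F _ hW hW']
  calc _ ≤ ∑ i, ∑ j, K * (ov W W' i j * (ev W' j - ev W i) ^ 2) := by
        refine (Finset.abs_sum_le_sum_abs _ _).trans (Finset.sum_le_sum fun i _ =>
          (Finset.abs_sum_le_sum_abs _ _).trans (Finset.sum_le_sum fun j _ => ?_))
        rw [abs_mul, abs_of_nonneg (ov_nonneg _ _ _ _), mul_left_comm]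
        exact mul_le_mul_of_nonneg_left (h _ (h1.ev_mem hW i) _ (h2.ev_mem hW' j))
          (ov_nonneg _ _ _ _)
    _ = K * (trace ((W' - W) * (W' - W))).re := by
        rw [← hs_eq hW hW']; simp only [Finset.mul_sum]
    _ ≤ _ := by
        rw [mul_assoc]
        refine mul_le_mul_of_nonneg_left ((re_trace_le_norm _).trans ?_) hK
        rw [sq]
        exact mul_le_mul_of_nonneg_left (norm_mul_le _ _) (Nat.cast_nonneg _)

/-- `M ↦ re tr (G * M)` as a continuous real linear map -/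
noncomputable def rtL (G : Matrix n n ℂ) : Matrix n n ℂ →L[ℝ] ℝ :=
  LinearMap.toContinuousLinearMap
    { toFun := fun M => (trace (G * M)).re
      map_add' := fun M N => by rw [Matrix.mul_add, trace_add, Complex.add_re]
      map_smul' := fun c M => by
        rw [Matrix.mul_smul, trace_smul, Complex.smul_re]; rfl }

lemma rtL_apply (G M : Matrix n n ℂ) : rtL G M = (trace (G * M)).re := rfl

theorem hasFDerivWithinAt_tF (hF : ContDiffOn ℝ 2 F I) (hI : IsOpen I) (hab : Set.Icc a b ⊆ I)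
    (hW : W.IsHermitian) (h : Bw a b W) : HasFDerivWithinAt (tF F) (rtL (fr (deriv F) W))
      {W : Matrix n n ℂ | W.IsHermitian ∧ Bw a b W} W := by
  obtain ⟨K, hK⟩ := tF_taylor (n := n) hF hI hab
  rw [hasFDerivWithinAt_iff_isLittleO]
  refine Asymptotics.IsBigO.trans_isLittleO (g := fun W' => ‖W' - W‖ ^ 2)
    (Asymptotics.IsBigO.of_bound K ?_) ?_
  · filter_upwards [self_mem_nhdsWithin] with W' hW'
    rw [Real.norm_eq_abs, Real.norm_eq_abs, abs_of_nonneg (sq_nonneg ‖W' - W‖), rtL_apply]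
    exact hK W W' hW hW'.1 h hW'.2
  · exact (Asymptotics.isLittleO_pow_sub_sub W (by norm_num)).mono nhdsWithin_le_nhds

theorem continuousOn_tF (hF : ContDiffOn ℝ 2 F I) (hI : IsOpen I) (hab : Set.Icc a b ⊆ I) :
    ContinuousOn (tF F) {W : Matrix n n ℂ | W.IsHermitian ∧ Bw a b W} := fun _ hW =>
  (hasFDerivWithinAt_tF hF hI hab hW.1 hW.2).continuousWithinAt

/-- derivative of a trace function along a curve of Hermitian matrices -/
theorem hasDerivAt_tF [Nonempty n] (hF : ContDiffOn ℝ 2 F I) (hI : IsOpen I)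
    (hI' : I.OrdConnected) {c : ℝ → Matrix n n ℂ} {c' : Matrix n n ℂ} (hc : HasDerivAt c c' 0)
    (hh : ∀ t, (c t).IsHermitian) (h0 : ∀ i, ev (c 0) i ∈ I) :
    (∀ᶠ t in 𝓝 0, ∀ i, ev (c t) i ∈ I) ∧
      HasDerivAt (fun t => tF F (c t)) (trace (fr (deriv F) (c 0) * c')).re 0 := by
  obtain ⟨i, j, hb⟩ := exists_bw (hh 0)
  obtain ⟨r, hr, h1⟩ := Metric.isOpen_iff.1 hI _ (h0 i)
  obtain ⟨r', hr', h2⟩ := Metric.isOpen_iff.1 hI _ (h0 j)
  have hab : Set.Icc (ev (c 0) i - r / 2) (ev (c 0) j + r' / 2) ⊆ I :=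
    hI'.out (h1 (by rw [Metric.mem_ball, Real.dist_eq, abs_lt]; constructor <;> linarith))
      (h2 (by rw [Metric.mem_ball, Real.dist_eq, abs_lt]; constructor <;> linarith))
  have h3 : ∀ᶠ t in 𝓝 (0 : ℝ), dist (c t) (c 0) < min (r / 2) (r' / 2) :=
    Metric.tendsto_nhds.1 hc.continuousAt _ (by positivity)
  have h4 : ∀ᶠ t in 𝓝 (0 : ℝ), c t ∈ {W : Matrix n n ℂ | W.IsHermitian ∧
      Bw (ev (c 0) i - r / 2) (ev (c 0) j + r' / 2) W} := by
    filter_upwards [h3] with t ht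
    rw [dist_eq_norm, lt_min_iff] at ht
    exact ⟨hh t, hb.perturb (by linarith [ht.1]) (by linarith [ht.2])⟩
  refine ⟨h4.mono fun t ht k => hab (ht.2.ev_mem ht.1 k), ?_⟩
  have h5 := hasFDerivWithinAt_tF hF hI hab (hh 0) h4.self_of_nhds.2
  exact (h5.comp_hasDerivAt 0 hc h4 :)

end Crest.Agent.N336.T
end

-- ▼ part N336/T/Min
section

/-!
# Row 336: existence of a minimiser of the tilt functional and the positive gauge (helper87)
-/

set_option autoImplicit false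
set_option linter.unusedSectionVars false

open Matrix Finset Filter Topology
open scoped ComplexOrder MatrixOrder Matrix.Norms.L2Operator InnerProductSpace

namespace Crest.Agent.N336.T

open Crest.Agent.N336.Q Crest.Agent.N336.A

attribute [local irreducible] ev eU

lemma sum_min_le {n : Type} [Fintype n] [DecidableEq n] (f : n → ℝ) (i : n) :
    ∑ j, min (f j) 0 ≤ f i := by
  rw [← Finset.add_sum_erase _ _ (mem_univ i)]
  have := Finset.sum_nonpos (s := univ.erase i) fun j _ => min_le_right (f j) 0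
  linarith [min_le_left (f i) 0]

lemma log_step {n : Type} [Fintype n] [DecidableEq n] [Nonempty n] (s : ℝ) {Y : Matrix n n ℂ}
    (h : ∀ i, 0 < ev (Yᴴ * Y) i) {v : Q.Vec n} (hv : v ≠ 0) : ap Y v ≠ 0 ∧
      s * Real.log (‖v‖ ^ 2) + ∑ i, min (s * Real.log (ev (Yᴴ * Y) i)) 0 ≤
        s * Real.log (‖ap Y v‖ ^ 2) := by
  obtain ⟨i, j, hb⟩ := exists_bw (isHermitian_conjTranspose_mul_self Y)
  obtain ⟨h1, h2⟩ := hb.norm_sq v
  have hv' : 0 < ‖v‖ ^ 2 := by positivity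
  have h3 : 0 < ‖ap Y v‖ ^ 2 := (mul_pos (h i) hv').trans_le h1
  refine ⟨fun h0 => by simp [h0] at h3, ?_⟩
  have h4 := Real.log_le_log (mul_pos (h i) hv') h1
  have h5 := Real.log_le_log h3 h2
  rw [Real.log_mul (h i).ne' hv'.ne'] at h4
  rw [Real.log_mul (h j).ne' hv'.ne'] at h5
  have a1 := sum_min_le (fun i => s * Real.log (ev (Yᴴ * Y) i)) i
  have a2 := sum_min_le (fun i => s * Real.log (ev (Yᴴ * Y) i)) j
  rcases le_total 0 s with hs | hs <;> nlinarith

lemma Barrier.lo {s : ℝ} {I : Set ℝ} {F : ℝ → ℝ} (h : Barrier s I F) (hI : I.OrdConnected)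
    (hI0 : I ⊆ Set.Ioi 0) {c : ℝ} (hc : 0 < c) :
    ∃ l ≤ 0, ∀ w ∈ I, l ≤ c * F w + min (s * Real.log w) 0 := by
  obtain ⟨a, ha, b, hb, H⟩ := h.sub c hc 0
  have hab := hI.out ha hb
  have h1 : ContinuousOn (fun w => c * F w + min (s * Real.log w) 0) (Set.Icc a b) :=
    (continuousOn_const.mul (h.smooth.continuousOn.mono hab)).add
      ((continuousOn_const.mul (Real.continuousOn_log.mono fun w hw =>
        (hI0 (hab hw)).ne')).inf continuousOn_const)
  obtain ⟨l, hl⟩ := isCompact_Icc.bddBelow_image h1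
  refine ⟨min l 0, min_le_right _ _, fun w hw => ?_⟩
  by_cases h0 : c * F w + min (s * Real.log w) 0 ≤ 0
  · exact (min_le_left _ _).trans (hl ⟨w, H w hw h0, rfl⟩)
  · exact (min_le_right _ _).trans (not_le.1 h0).le

variable {ι : Type} [Fintype ι] [DecidableEq ι]
  {d : ι → Type} [∀ x, Fintype (d x)] [∀ x, DecidableEq (d x)] [∀ x, Nonempty (d x)]
  {s : ℝ} {I : Set ℝ} {F : ℕ → ℝ → ℝ} {A : ℕ → Finset ι} {m : ℕ} {Ω : Q.Vec (Cfg d)}
  {Y Y' : ℕ → Q.Op d}

lemma Adm.congr (h : Adm I A m Y) (e : ∀ j < m, Y' j = Y j) : Adm I A m Y' := fun j hj => by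
  rw [e j hj]; exact h j hj

lemma LL_congr (e : ∀ j < m, Y' j = Y j) : LL s F A m Ω Y' = LL s F A m Ω Y := by
  rw [LL, LL, seg_congr (Y := Y') (Y' := Y) fun j _ hj => e j (by omega)]
  congr 1
  exact Finset.sum_congr rfl fun j hj => by rw [e j (mem_range.1 hj)]

lemma Adm.log_seg (h : Adm I A m Y) (hI0 : I ⊆ Set.Ioi 0) (hΩ : Ω ≠ 0) (s : ℝ) {l : ℕ}
    (hl : l ≤ m) : ap (seg Y 0 l) Ω ≠ 0 ∧ s * Real.log (‖Ω‖ ^ 2) +
      ∑ j ∈ range l, ∑ i, min (s * Real.log (ev ((Y j)ᴴ * Y j) i)) 0 ≤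
        s * Real.log (‖ap (seg Y 0 l) Ω‖ ^ 2) := by
  induction l with
  | zero => simpa using hΩ
  | succ l ih =>
    obtain ⟨h1, h2⟩ := ih (by omega)
    obtain ⟨h3, h4⟩ := log_step s (fun i => hI0 ((h l hl).2 i)) h1
    rw [seg_succ, zero_add, ap_mul, Finset.sum_range_succ]
    exact ⟨h3, by linarith⟩

lemma exists_unif (hI : I.OrdConnected) (hI0 : I ⊆ Set.Ioi 0) (hΩ : Ω ≠ 0)
    (hF : ∀ j < m, Barrier s I (F j)) (L₀ : ℝ) : ∃ a b : ℕ → ℝ, (∀ j < m, a j ∈ I ∧ b j ∈ I) ∧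
      ∀ Y, Adm I A m Y → LL s F A m Ω Y ≤ L₀ → ∀ j < m, Bw (a j) (b j) ((Y j)ᴴ * Y j) := by
  have hc : ∀ j, 0 < (dim d (A j)ᶜ : ℝ)⁻¹ := fun j => inv_pos.2 (dim_pos_real _)
  choose! lo hlo0 hlo using fun j (hj : j < m) => (hF j hj).lo hI hI0 (hc j)
  choose! a ha b hb H using fun j (hj : j < m) => (hF j hj).sub _ (hc j)
    (L₀ - s * Real.log (‖Ω‖ ^ 2) - ∑ j ∈ range m, ∑ _i : Cfg d, lo j)
  refine ⟨a, b, fun j hj => ⟨ha j hj, hb j hj⟩, fun Y hY hL j hj =>
    bw_of_ev (isHermitian_conjTranspose_mul_self _) fun i => H j hj _ ((hY j hj).2 i) ?_⟩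
  set G : ℕ → Cfg d → ℝ := fun j i => (dim d (A j)ᶜ : ℝ)⁻¹ * F j (ev ((Y j)ᴴ * Y j) i) +
    min (s * Real.log (ev ((Y j)ᴴ * Y j) i)) 0 - lo j with hG
  have h0 : ∀ j ∈ range m, ∀ i, 0 ≤ G j i := fun j hj i =>
    sub_nonneg.2 (hlo j (mem_range.1 hj) _ ((hY j (mem_range.1 hj)).2 i))
  have h1 : G j i ≤ ∑ j ∈ range m, ∑ i, G j i :=
    (Finset.single_le_sum (fun i _ => h0 j (mem_range.2 hj) i) (mem_univ i)).trans
      (Finset.single_le_sum (f := fun j => ∑ i, G j i)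
        (fun j hj => Finset.sum_nonneg fun i _ => h0 j hj i) (mem_range.2 hj))
  have h2 := (hY.log_seg hI0 hΩ s le_rfl).2
  simp only [hG, Finset.sum_sub_distrib, Finset.sum_add_distrib, ← Finset.mul_sum] at h1
  simp only [LL, tX, tF] at hL
  linarith [hlo0 j hj]

lemma isCompact_slot (X : Finset ι) (a b : ℝ) :
    IsCompact {Y : Q.Op d | Supp X Y ∧ Bw a b (Yᴴ * Y)} := by
  have := FiniteDimensional.proper ℂ (Q.Op d)
  refine Metric.isCompact_of_isClosed_isBounded (IsClosed.inter ?_ ?_) ?_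
  · have := (alg (d := d) X).toSubalgebra.toSubmodule.closed_of_finiteDimensional
    have e : ((alg (d := d) X).toSubalgebra.toSubmodule : Set (Q.Op d)) = {M | Supp X M} :=
      Set.ext fun M => mem_alg
    rwa [e] at this
  · exact (isClosed_bw a b).preimage (continuous_id.matrix_conjTranspose.mul continuous_id)
  · refine (isBounded_iff_forall_norm_le.2 ⟨|b| + 1, fun Y hY => ?_⟩)
    rw [← norm_ap]
    refine ContinuousLinearMap.opNorm_le_bound _ (by positivity) fun v => ?_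
    refine abs_le_of_sq_le_sq' ?_ (by positivity) |>.2
    have := (hY.2.norm_sq v).2
    rw [mul_pow]
    nlinarith [le_abs_self b, abs_nonneg b, sq_nonneg ‖v‖, sq_nonneg |b|,
      mul_nonneg (sq_nonneg |b|) (sq_nonneg ‖v‖), mul_nonneg (abs_nonneg b) (sq_nonneg ‖v‖)]

lemma continuous_seg (k l : ℕ) : Continuous fun Y : ℕ → Q.Op d => seg Y k l := by
  induction l with
  | zero => exact continuous_const
  | succ l ih => exact (continuous_apply (k + l)).mul ih

theorem exists_min (hI1 : IsOpen I) (hI : I.OrdConnected) (hI0 : I ⊆ Set.Ioi 0) (hΩ : Ω ≠ 0)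
    (hF : ∀ j < m, Barrier s I (F j)) :
    ∃ Y, Adm I A m Y ∧ ∀ Y', Adm I A m Y' → LL s F A m Ω Y ≤ LL s F A m Ω Y' := by
  choose! w hw _ using fun j (hj : j < m) => (hF j hj).sub 1 one_pos 0
  set Y₀ : ℕ → Q.Op d := fun j => (Real.sqrt (w j) : ℂ) • 1 with hY₀
  have h0 : Adm I A m Y₀ := fun j hj => ⟨(Supp.one _).smul _, fun i => by
    have : Bw (w j) (w j) ((Y₀ j)ᴴ * Y₀ j) := fun v => by
      rw [← norm_ap_sq, hY₀, ap_smul, ap_one, norm_smul, mul_pow, Complex.norm_real,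
        Real.norm_eq_abs, sq_abs, Real.sq_sqrt (hI0 (hw j hj)).le]
      exact ⟨le_rfl, le_rfl⟩
    exact hI.out (hw j hj) (hw j hj) (this.ev_mem (isHermitian_conjTranspose_mul_self _) i)⟩
  obtain ⟨a, b, hab, H⟩ := exists_unif (A := A) hI hI0 hΩ hF (LL s F A m Ω Y₀)
  set Kc : Set (ℕ → Q.Op d) := Set.pi Set.univ fun j =>
    if j < m then {Y : Q.Op d | Supp (A j) Y ∧ Bw (a j) (b j) (Yᴴ * Y)} else {1} with hKc
  have hK : IsCompact Kc := isCompact_univ_pi fun j => by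
    split_ifs; exacts [isCompact_slot _ _ _, isCompact_singleton]
  have h1 : ∀ Y ∈ Kc, ∀ j < m, Supp (A j) (Y j) ∧ Bw (a j) (b j) ((Y j)ᴴ * Y j) :=
    fun Y hY j hj => by simpa [hj] using hY j trivial
  have h2 : ∀ Y ∈ Kc, Adm I A m Y := fun Y hY j hj => ⟨(h1 Y hY j hj).1, fun i =>
    hI.out (hab j hj).1 (hab j hj).2
      ((h1 Y hY j hj).2.ev_mem (isHermitian_conjTranspose_mul_self _) i)⟩
  have h3 : ∀ Y, Adm I A m Y → LL s F A m Ω Y ≤ LL s F A m Ω Y₀ →
      ∃ Y' ∈ Kc, LL s F A m Ω Y' = LL s F A m Ω Y := fun Y hY hL =>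
    ⟨fun j => if j < m then Y j else 1, fun j _ => by
      by_cases hj : j < m
      · simp only [hj, if_true]; exact ⟨(hY j hj).1, H Y hY hL j hj⟩
      · simp [hj], LL_congr fun j hj => if_pos hj⟩
  have hc : ContinuousOn (LL s F A m Ω) Kc := by
    refine ContinuousOn.add (continuousOn_const.mul (ContinuousOn.log ?_ fun Y hY => ?_))
      (continuousOn_finsetSum _ fun j hj => continuousOn_const.mul ?_)
    · exact (((((Eng.SB.apL (Cfg d)).continuous.comp (continuous_seg 0 m)).clm_apply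
        continuous_const).norm).pow 2).continuousOn
    · exact pow_ne_zero 2 (norm_ne_zero_iff.2 ((h2 Y hY).log_seg hI0 hΩ s le_rfl).1)
    · rw [mem_range] at hj
      exact (continuousOn_tF (hF j hj).smooth hI1 (hI.out (hab j hj).1 (hab j hj).2)).comp
        ((continuous_apply j).matrix_conjTranspose.mul (continuous_apply j)).continuousOn
        fun Y hY => ⟨isHermitian_conjTranspose_mul_self _, (h1 Y hY j hj).2⟩
  obtain ⟨Y₁, hY₁, e₁⟩ := h3 Y₀ h0 le_rfl
  obtain ⟨Y, hY, hmin⟩ := hK.exists_isMinOn ⟨Y₁, hY₁⟩ hc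
  refine ⟨Y, h2 Y hY, fun Y' hY' => ?_⟩
  by_cases hL : LL s F A m Ω Y' ≤ LL s F A m Ω Y₀
  · obtain ⟨Y'', h4, e⟩ := h3 Y' hY' hL
    exact (isMinOn_iff.1 hmin _ h4).trans e.le
  · exact ((isMinOn_iff.1 hmin _ hY₁).trans e₁.le).trans (not_le.1 hL).le

/-- the positive gauge -/
theorem exists_gauge (hI : I.OrdConnected) (hI0 : I ⊆ Set.Ioi 0)
    (hA : ∀ i j, i ≤ j → j < m → A i ⊆ A j) (h : Adm I A m Y) :
    ∃ Y', Adm I A m Y' ∧ LL s F A m Ω Y' = LL s F A m Ω Y ∧ ∀ j < m, (Y' j).PosSemidef := by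
  have key : ∀ l ≤ m, ∃ (V : Q.Op d) (Y' : ℕ → Q.Op d), Vᴴ * V = 1 ∧
      (∀ j, l ≤ j → j < m → Supp (A j) V) ∧ seg Y 0 l = V * seg Y' 0 l ∧
      ∀ j < l, Supp (A j) (Y' j) ∧ (Y' j).PosSemidef ∧ (∀ i, ev ((Y' j)ᴴ * Y' j) i ∈ I) ∧
        tF (F j) ((Y' j)ᴴ * Y' j) = tF (F j) ((Y j)ᴴ * Y j) := by
    intro l
    induction l with
    | zero => exact fun _ => ⟨1, Y, by simp, fun j _ _ => Supp.one _, by simp, by simp⟩
    | succ l ih =>
      intro hl
      obtain ⟨V, Y', h1, h2, h3, h4⟩ := ih (by omega)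
      have hW0 := isHermitian_conjTranspose_mul_self (Y l)
      set W := Vᴴ * ((Y l)ᴴ * Y l) * V with hW
      have hWh : W.IsHermitian := isHermitian_conjTranspose_mul_mul V hW0
      have hev : ∀ i, ev W i ∈ I := ev_conj_mem hI hW0 (h l hl).2 h1
      have hp : ∀ i, 0 < Real.sqrt (ev W i) := fun i => Real.sqrt_pos.2 (hI0 (hev i))
      have hV := h2 l le_rfl hl
      have hWs : Supp (A l) W :=
        (hV.conjTranspose.mul ((h l hl).1.conjTranspose.mul (h l hl).1)).mul hV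
      have e1 : fr (fun x => (Real.sqrt x)⁻¹) W * fr Real.sqrt W = 1 := by
        rw [fc_mul, ← fc_one W]
        exact fc_congr fun i => by rw [← Complex.ofReal_mul, inv_mul_cancel₀ (hp i).ne']; simp
      have e2 : (fr Real.sqrt W)ᴴ * fr Real.sqrt W = W := by
        rw [fr_sq]
        conv_rhs => rw [← fc_id hWh]
        exact fc_congr fun i => by beta_reduce; rw [Real.sq_sqrt (hI0 (hev i)).le]
      have e3 : fr Real.sqrt W * fr (fun x => (Real.sqrt x)⁻¹) W = 1 := mul_eq_one_comm.1 e1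
      refine ⟨Y l * V * fr (fun x => (Real.sqrt x)⁻¹) W, Function.update Y' l (fr Real.sqrt W),
        ?_, fun j h5 h6 => ?_, ?_, fun j hj => ?_⟩
      · have : (Y l * V * fr (fun x => (Real.sqrt x)⁻¹) W)ᴴ *
            (Y l * V * fr (fun x => (Real.sqrt x)⁻¹) W) =
            fr (fun x => (Real.sqrt x)⁻¹) W * W * fr (fun x => (Real.sqrt x)⁻¹) W := by
          simp only [conjTranspose_mul, (fr_isHermitian _ W).eq, Matrix.mul_assoc]
          simp only [hW, Matrix.mul_assoc]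
        rw [this]
        conv_lhs => arg 1; arg 2; rw [← e2, (fr_isHermitian _ W).eq]
        rw [← Matrix.mul_assoc, e1, Matrix.one_mul, e3]
      · exact (((h l hl).1.mul hV).mul (hWs.fc _ hWh)).mono (hA l j (by omega) h6)
      · rw [seg_succ, seg_succ, zero_add, Function.update_self, h3,
          seg_congr (Y := Function.update Y' l _) (Y' := Y') fun j _ hj =>
            Function.update_of_ne (by omega) _ _]
        simp only [Matrix.mul_assoc]
        rw [← Matrix.mul_assoc (fr _ W), e1, Matrix.one_mul]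
      · by_cases hjl : j = l
        · subst hjl
          rw [Function.update_self, e2]
          exact ⟨hWs.fc _ hWh, fr_posSemidef fun i => (hp i).le, hev, tF_conj _ hW0 h1⟩
        · rw [Function.update_of_ne hjl]; exact h4 j (by omega)
  obtain ⟨V, Y', h1, -, h3, h4⟩ := key m le_rfl
  refine ⟨Y', fun j hj => ⟨(h4 j hj).1, (h4 j hj).2.2.1⟩, ?_, fun j hj => (h4 j hj).2.1⟩
  rw [LL, LL, h3, ap_mul, norm_ap_unitary h1]
  congr 1
  exact Finset.sum_congr rfl fun j hj => by rw [tX, tX, (h4 j (mem_range.1 hj)).2.2.2]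

end Crest.Agent.N336.T
end

-- ▼ part N336/T/Eng
section

/-!
# Row 336: stationarity equations of the tilt functional, `eng : EngStmt` (helper87)
-/

set_option autoImplicit false
set_option linter.unusedSectionVars false

open Matrix Finset Filter Topology
open scoped ComplexOrder MatrixOrder Matrix.Norms.L2Operator InnerProductSpace

namespace Crest.Agent.N336.T

open Crest.Agent.N336.Q Crest.Agent.N336.A

attribute [local irreducible] ev eU

lemma hasDerivAt_norm_sq {n : Type} [Fintype n] [DecidableEq n] (v ξ : Q.Vec n) :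
    HasDerivAt (fun t : ℝ => ‖v + (t : ℂ) • ξ‖ ^ 2) (2 * (⟪v, ξ⟫_ℂ).re) 0 := by
  have e : (fun t : ℝ => ‖v + (t : ℂ) • ξ‖ ^ 2) =
      fun t => ‖v‖ ^ 2 + 2 * (⟪v, ξ⟫_ℂ).re * t + ‖ξ‖ ^ 2 * t ^ 2 := by
    funext t
    rw [norm_add_sq (𝕜 := ℂ), inner_smul_right, norm_smul, mul_pow, Complex.norm_real,
      Real.norm_eq_abs, sq_abs]
    simp only [RCLike.re_to_complex, Complex.re_ofReal_mul]
    ring
  rw [e]
  have h1 := (hasDerivAt_id (0 : ℝ)).const_mul (2 * (⟪v, ξ⟫_ℂ).re)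
  have h2 := (hasDerivAt_pow 2 (0 : ℝ)).const_mul (‖ξ‖ ^ 2)
  have h3 := (h1.const_add (‖v‖ ^ 2)).fun_add h2
  simpa using h3

variable {ι : Type} [Fintype ι] [DecidableEq ι]
  {d : ι → Type} [∀ x, Fintype (d x)] [∀ x, DecidableEq (d x)] [∀ x, Nonempty (d x)]
  {s : ℝ} {I : Set ℝ} {F : ℕ → ℝ → ℝ} {A : ℕ → Finset ι} {m : ℕ} {Ω : Q.Vec (Cfg d)}
  {Y : ℕ → Q.Op d}

lemma first_var_re (hI1 : IsOpen I) (hI : I.OrdConnected) (hI0 : I ⊆ Set.Ioi 0) (hΩ : Ω ≠ 0)
    (h : Adm I A m Y) (hmin : ∀ Y', Adm I A m Y' → LL s F A m Ω Y ≤ LL s F A m Ω Y') {k : ℕ}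
    (hk : k < m) (hF : ContDiffOn ℝ 2 (F k) I) (hY : (Y k).IsHermitian) {C : Q.Op d}
    (hC : Supp (A k) C) :
    (s * ⟪ap (seg Y 0 m) Ω, ap (seg Y (k + 1) (m - (k + 1)) * C * seg Y 0 k) Ω⟫_ℂ +
      (‖ap (seg Y 0 m) Ω‖ ^ 2 * (dim d (A k)ᶜ : ℝ)⁻¹ : ℝ) *
        trace (fr (deriv (F k)) (Y k * Y k) * Y k * C)).re = 0 := by
  set c : ℝ → Q.Op d := fun t => Y k + (t : ℂ) • C with hc
  set v := ap (seg Y 0 m) Ω with hv
  set ξ := ap (seg Y (k + 1) (m - (k + 1)) * C * seg Y 0 k) Ω with hξ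
  have hv0 : 0 < ‖v‖ ^ 2 := by have := (h.log_seg hI0 hΩ s le_rfl).1; positivity
  have c0 : c 0 = Y k := by simp [hc]
  have d0 : ∀ a b : Q.Op d, HasDerivAt (fun t : ℝ => a + (t : ℂ) • b) b 0 := fun a b => by
    have := ((Complex.ofRealCLM.hasDerivAt (x := 0)).smul_const b).const_add a
    rwa [Complex.ofRealCLM_apply, Complex.ofReal_one, one_smul] at this
  have d1 : HasDerivAt c C 0 := d0 _ _
  have d2 : HasDerivAt (fun t => (c t)ᴴ) Cᴴ 0 := by
    have e : (fun t => (c t)ᴴ) = fun t : ℝ => (Y k)ᴴ + (t : ℂ) • Cᴴ := by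
      funext t; simp [hc, conjTranspose_smul]
    rw [e]
    exact d0 _ _
  obtain ⟨h1, h2⟩ := hasDerivAt_tF (c := fun t => (c t)ᴴ * c t) hF hI1 hI (d2.mul d1)
    (fun t => isHermitian_conjTranspose_mul_self _) (by simpa only [c0] using (h k hk).2)
  simp only [c0, hY.eq] at h2
  have e1 : ∀ t : ℝ, LL s F A m Ω (Function.update Y k (c t)) =
      s * Real.log (‖v + (t : ℂ) • ξ‖ ^ 2) + (dim d (A k)ᶜ : ℝ)⁻¹ * tF (F k) ((c t)ᴴ * c t) +
        ∑ j ∈ (range m).erase k, tX (A j) (F j) ((Y j)ᴴ * Y j) := fun t => by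
    rw [LL, ← Finset.add_sum_erase _ _ (mem_range.2 hk), seg_cut' _ hk, Function.update_self,
      seg_congr (Y := Function.update Y k _) (Y' := Y) fun j h1 _ =>
        Function.update_of_ne (by omega) _ _,
      seg_congr (Y := Function.update Y k _) (Y' := Y) fun j _ h1 =>
        Function.update_of_ne (by omega) _ _, hv, seg_cut' Y hk, hξ, ← ap_smul, ← ap_add,
      add_assoc, tX]
    congr 2
    · simp only [hc, Matrix.mul_add, Matrix.add_mul, Matrix.mul_smul, Matrix.smul_mul]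
    · exact Finset.sum_congr rfl fun j hj => by rw [Function.update_of_ne (ne_of_mem_erase hj)]
  have h3 : IsLocalMin (fun t : ℝ => LL s F A m Ω (Function.update Y k (c t))) 0 := by
    filter_upwards [h1] with t ht
    rw [c0, Function.update_eq_self]
    refine hmin _ fun j hj => ?_
    by_cases hjk : j = k
    · subst hjk
      rw [Function.update_self]; exact ⟨(h j hj).1.add (hC.smul _), ht⟩
    · rw [Function.update_of_ne hjk]; exact h j hj
  simp only [e1] at h3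
  have h4 := h3.hasDerivAt_eq_zero (((((hasDerivAt_norm_sq v ξ).log (by simpa using hv0.ne')
    ).const_mul s).fun_add (h2.const_mul _)).add_const _)
  have e2 : (trace (fr (deriv (F k)) (Y k * Y k) * (Cᴴ * Y k))).re =
      (trace (fr (deriv (F k)) (Y k * Y k) * Y k * C)).re := by
    have hc : Commute (fr (deriv (F k)) (Y k * Y k)) (Y k) :=
      commute_fc _ (by simpa only [hY.eq] using isHermitian_conjTranspose_mul_self (Y k))
        ((Commute.refl _).mul_left (Commute.refl _))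
    rw [← Complex.conj_re, ← Complex.star_def, ← trace_conjTranspose, conjTranspose_mul,
      conjTranspose_mul, hY.eq, conjTranspose_conjTranspose, (fr_isHermitian _ _).eq,
      trace_mul_comm, Matrix.mul_assoc]
  rw [Matrix.mul_add, trace_add, Complex.add_re, e2, ← Matrix.mul_assoc] at h4
  simp only [Complex.ofReal_zero, zero_smul, add_zero] at h4
  rw [Complex.add_re, Complex.re_ofReal_mul, Complex.re_ofReal_mul]
  have h5 := congrArg (· * (‖v‖ ^ 2 / 2)) h4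
  simp only [add_mul, zero_mul] at h5
  have hv1 : ‖v‖ ≠ 0 := fun h0 => by simp [h0] at hv0
  rw [← h5]
  field_simp
  ring

lemma first_var (hI1 : IsOpen I) (hI : I.OrdConnected) (hI0 : I ⊆ Set.Ioi 0) (hΩ : Ω ≠ 0)
    (h : Adm I A m Y) (hmin : ∀ Y', Adm I A m Y' → LL s F A m Ω Y ≤ LL s F A m Ω Y') {k : ℕ}
    (hk : k < m) (hF : ContDiffOn ℝ 2 (F k) I) (hY : (Y k).IsHermitian) {C : Q.Op d}
    (hC : Supp (A k) C) :
    s * ⟪ap (seg Y 0 m) Ω, ap (seg Y (k + 1) (m - (k + 1)) * C * seg Y 0 k) Ω⟫_ℂ +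
      (‖ap (seg Y 0 m) Ω‖ ^ 2 * (dim d (A k)ᶜ : ℝ)⁻¹ : ℝ) *
        trace (fr (deriv (F k)) (Y k * Y k) * Y k * C) = 0 := by
  have h1 := first_var_re hI1 hI hI0 hΩ h hmin hk hF hY hC
  have h2 := first_var_re hI1 hI hI0 hΩ h hmin hk hF hY (hC.smul Complex.I)
  rw [Matrix.mul_smul, Matrix.smul_mul, ap_smul, inner_smul_right, Matrix.mul_smul, trace_smul,
    smul_eq_mul, mul_left_comm, mul_left_comm _ Complex.I, ← mul_add, Complex.I_mul_re,
    neg_eq_zero] at h2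
  exact Complex.ext h1 h2

theorem eng : EngStmt := by
  intro ι _ _ d _ _ _ s I F y A m Ω hs hI1 hI hI0 hΩ hA hF hy
  obtain ⟨Y₀, h0, hmin0⟩ := exists_min (A := A) hI1 hI hI0 hΩ hF
  obtain ⟨Y, h, e, hp⟩ := exists_gauge (s := s) (F := F) (Ω := Ω) hI hI0 hA h0
  have hmin : ∀ Y', Adm I A m Y' → LL s F A m Ω Y ≤ LL s F A m Ω Y' := fun Y' h' =>
    e.le.trans (hmin0 Y' h')
  set v := ap (seg Y 0 m) Ω with hv
  have hN : 0 < ‖v‖ := norm_pos_iff.2 (h.log_seg hI0 hΩ s le_rfl).1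
  have hN' : (‖v‖ : ℂ) ≠ 0 := by exact_mod_cast hN.ne'
  have hs' : (s : ℂ) ≠ 0 := by exact_mod_cast hs
  set χ : Q.Vec (Cfg d) := (‖v‖ : ℂ)⁻¹ • v with hχ
  have hχ1 : ‖χ‖ = 1 := by
    rw [hχ, norm_smul, norm_inv, Complex.norm_real, norm_norm, inv_mul_cancel₀ hN.ne']
  have hvχ : v = (‖v‖ : ℂ) • χ := by rw [hχ, smul_smul, mul_inv_cancel₀ hN', one_smul]
  have var : ∀ k < m, ∀ C, Supp (A k) C →
      s * ⟪χ, ap (seg Y (k + 1) (m - (k + 1)) * C * seg Y 0 k) Ω⟫_ℂ = -(‖v‖ *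
        (dim d (A k)ᶜ : ℂ)⁻¹ * trace (fr (deriv (F k)) (Y k * Y k) * Y k * C)) := fun k hk C hC => by
    have := first_var hI1 hI hI0 hΩ h hmin hk (hF k hk).smooth (hp k hk).1 hC
    rw [← hv] at this
    conv_lhs at this => arg 1; rw [hvχ, inner_smul_left, Complex.conj_ofReal]
    push_cast at this
    refine mul_left_cancel₀ hN' ?_
    linear_combination this
  have hW : ∀ k < m, (Y k * Y k).IsHermitian := fun k hk => by
    simpa only [(hp k hk).1.eq] using isHermitian_conjTranspose_mul_self (Y k)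
  have v1 : ∀ k < m, ∀ X, Supp (A k) X → s * ⟪χ, ap (seg Y k (m - k) * X * seg Y 0 k) Ω⟫_ℂ =
      -(‖v‖ * (dim d (A k)ᶜ : ℂ)⁻¹ * trace (fr (deriv (F k)) (Y k * Y k) * (Y k * Y k) * X)) :=
    fun k hk X hX => by
      have := var k hk _ ((h k hk).1.mul hX)
      rw [seg_split Y hk]
      simpa only [Matrix.mul_assoc] using this
  have v2 : ∀ k < m, ∀ X, Supp (A k) X → ⟪χ, ap (seg Y k (m - k) * X * seg Y 0 k) Ω⟫_ℂ =
      ⟪χ, ap (seg Y (k + 1) (m - (k + 1)) * X * seg Y 0 (k + 1)) Ω⟫_ℂ := fun k hk X hX => by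
    refine mul_left_cancel₀ hs' ?_
    have := var k hk _ (hX.mul (h k hk).1)
    have hc : Commute (fr (deriv (F k)) (Y k * Y k)) (Y k) :=
      commute_fc _ (hW k hk) ((Commute.refl _).mul_left (Commute.refl _))
    rw [← Matrix.mul_assoc (_ * Y k), trace_mul_cycle, ← Matrix.mul_assoc (Y k), ← hc.eq] at this
    rw [v1 k hk X hX, seg_succ, zero_add]
    simpa only [Matrix.mul_assoc] using this.symm
  have phi : ∀ k ≤ m, ∀ X : Q.Op d, (k < m → Supp (A k) X) →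
      ⟪χ, ap (seg Y k (m - k) * X * seg Y 0 k) Ω⟫_ℂ = ‖v‖ * ⟪χ, ap X χ⟫_ℂ := by
    intro k hk
    induction hk using Nat.decreasingInduction with
    | self =>
      intro X _
      rw [Nat.sub_self, seg_zero, Matrix.one_mul, ap_mul, ← hv]
      conv_lhs => rw [hvχ, map_smul, inner_smul_right]
    | of_succ k hk ih =>
      intro X hX
      rw [v2 k hk X (hX hk), ih X fun h1 => (hX hk).mono (hA _ _ (by omega) h1)]
  refine ⟨Y, χ, ‖v‖, h, hmin, hχ1, hN, hvχ, fun k hk => ?_, phi⟩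
  have hWs : Supp (A k) (Y k * Y k) := (h k hk).1.mul (h k hk).1
  have e1 : mg (A k) (pj χ) = fr (fun w => -(w * deriv (F k) w) / s) (Y k * Y k) := by
    refine (supp_mg _ _).ext_trace (hWs.fc _ (hW k hk)) fun X hX => ?_
    have h1 := v1 k hk X hX
    have e2 : fr (deriv (F k)) (Y k * Y k) * (Y k * Y k) =
        (-s : ℂ) • fr (fun w => -(w * deriv (F k) w) / s) (Y k * Y k) := by
      conv_lhs => arg 2; rw [← fc_id (hW k hk)]
      rw [fc_mul, fc_smul]
      exact fc_congr fun i => by push_cast; field_simp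
    rw [phi k hk.le X fun _ => hX, e2, Matrix.smul_mul, trace_smul, trace_mul_comm] at h1
    rw [hX.trace_mul_mg, trace_mul_kb]
    have hD := dim_ne_zero (d := d) (A k)ᶜ
    refine mul_left_cancel₀ (mul_ne_zero (mul_ne_zero hs' hN') (inv_ne_zero hD)) ?_
    rw [smul_eq_mul] at h1
    field_simp at h1 ⊢
    linear_combination h1
  have hev := (h k hk).2
  rw [(hp k hk).1.eq] at hev
  rw [e1, fr, fc_fr, fc_congr (g := fun x => (Real.sqrt x : ℂ)) fun i => by rw [hy k hk _ (hev i)]]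
  have e3 : Y k * Y k = fr (fun x => x ^ 2) (Y k) := by
    rw [← fr_sq, fr_id (hp k hk).1, (hp k hk).1.eq]
  rw [e3, fc_fr]
  conv_lhs => rw [← fc_id (hp k hk).1]
  exact fc_congr fun i => by rw [Real.sqrt_sq (ev_nonneg (hp k hk) i)]

end Crest.Agent.N336.T
end

-- ▼ part N336/T/Energy

/-!
# Row 336: the tilted state has small energy (helper31)
-/

set_option autoImplicit false
set_option linter.unusedSectionVars false

open Matrix Finset
open scoped ComplexOrder MatrixOrder Matrix.Norms.L2Operator InnerProductSpace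

namespace Crest.Agent.N336.T

open Crest.Agent.N336.Q Crest.Agent.N336.A

attribute [local irreducible] ev eU

namespace EnA

variable {ι : Type} [Fintype ι] [DecidableEq ι]
  {d : ι → Type} [∀ x, Fintype (d x)] [∀ x, DecidableEq (d x)] [∀ x, Nonempty (d x)]
  {s : ℝ} {I : Set ℝ} {F y : ℕ → ℝ → ℝ} {A : ℕ → Finset ι} {m : ℕ} {Ω χ : Q.Vec (Cfg d)}
  {Y : ℕ → Q.Op d} {N : ℝ} {δ : ℕ → ℝ}

/-- one term of the Hamiltonian -/
lemma term (hS : Stat s I F A m Ω y Y χ N) {Z : Finset ι} {h : Q.Op d} (hZ : Supp Z h)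
    (hh : h.IsHermitian) (hmono : ∀ i j, i ≤ j → j < m → A i ⊆ A j)
    (hterm : ∀ i j, i < j → j < m → (∃ x ∈ Z, x ∈ A i) → Z ⊆ A j)
    (hδ : ∀ j < m, 0 ≤ δ j ∧ δ j ≤ 1 / 4 ∧ (∀ x, 0 ≤ x → 0 < y j x) ∧ ∀ a b, 0 < a → 0 < b →
      |Real.log (y j a) - Real.log (y j b)| ≤ δ j * |Real.log a - Real.log b|) :
    ∃ c : ℂ, ⟪χ, ap (seg Y 0 m * h) Ω⟫_ℂ = N * c ∧ (⟪χ, ap h χ⟫_ℂ).re - c.re ≤
      ∑ j ∈ range m, 32 * δ j ^ 2 * (if Crosses Z (A j) then (dim d Z : ℝ) ^ 2 * ‖h‖ else 0) := by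
  classical
  have hnn : ∀ j ∈ range m,
      0 ≤ 32 * δ j ^ 2 * (if Crosses Z (A j) then (dim d Z : ℝ) ^ 2 * ‖h‖ else 0) := by
    intro j _
    split_ifs <;> positivity
  have hex : ∃ j, j = m ∨ (j < m ∧ ∃ x ∈ Z, x ∈ A j) := ⟨m, Or.inl rfl⟩
  have hle : Nat.find hex ≤ m := Nat.find_min' hex (Or.inl rfl)
  have hsp := Nat.find_spec hex
  have hmin : ∀ i < Nat.find hex, ¬ ∃ x ∈ Z, x ∈ A i := fun i hi hx =>
    Nat.find_min hex hi (Or.inr ⟨by omega, hx⟩)
  generalize Nat.find hex = j at hle hsp hmin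
  have hc : Commute h (seg Y 0 j) := commute_seg fun i _ hi =>
    hZ.commute (hS.adm i (by omega)).1
      (disjoint_left.2 fun x hx hx' => hmin i (by omega) ⟨x, hx, hx'⟩)
  have e1 : seg Y 0 m * h = seg Y j (m - j) * h * seg Y 0 j := by
    rw [seg_cut Y hle, Matrix.mul_assoc, Matrix.mul_assoc, hc.eq]
  by_cases hin : j < m → Z ⊆ A j
  · refine ⟨⟪χ, ap h χ⟫_ℂ, ?_, by rw [sub_self]; exact sum_nonneg hnn⟩
    rw [e1, hS.phi j hle h fun hj => hZ.mono (hin hj)]
  push Not at hin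
  obtain ⟨hj, hns⟩ := hin
  have hmeet : ∃ x ∈ Z, x ∈ A j := by
    rcases hsp with h1 | h1
    · omega
    · exact h1.2
  have hcr : Crosses Z (A j) := ⟨hmeet, not_subset.1 hns⟩
  obtain ⟨h0, h1, h2, h3⟩ := hδ j hj
  set Yi := fr (fun x => (y j x)⁻¹) (mg (A j) (pj χ)) with hYi
  have hinv : Yi * Y j = 1 := by
    rw [hS.eq j hj, hYi, fc_mul, ← fc_one (mg (A j) (pj χ))]
    refine fc_congr fun i => ?_
    have := (h2 _ (ev_mg_mem hS.norm (A j) i).1).ne'
    rw [← Complex.ofReal_mul, inv_mul_cancel₀ this, Complex.ofReal_one]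
  have e2 : seg Y 0 m * h =
      seg Y (j + 1) (m - (j + 1)) * (Y j * h * Yi) * seg Y 0 (j + 1) := by
    rw [e1, seg_split Y hj, seg_succ, zero_add]
    simp only [Matrix.mul_assoc]
    rw [← Matrix.mul_assoc Yi, hinv, Matrix.one_mul]
  refine ⟨⟪χ, ap (Y j * h * Yi) χ⟫_ℂ, ?_, ?_⟩
  · rw [e2, hS.phi (j + 1) hj _ fun hj' => ?_]
    have hA := hmono j (j + 1) (by omega) hj'
    exact (((hS.adm j hj).1.mono hA).mul (hZ.mono (hterm j (j + 1) (by omega) hj' hmeet))).mul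
      (((supp_mg _ _).fc _ (mg_posSemidef _ (pj_posSemidef χ)).1).mono hA)
  · refine le_trans ?_ (single_le_sum hnn (mem_range.2 hj))
    have := tilt_cross (X := A j) (ψ := χ) hZ hh h0 h1 (fun x hx => h2 x hx.le) h3
    rw [← hS.eq j hj, hS.norm] at this
    rw [if_pos hcr]
    linarith

end EnA

/-- the tilted state has small energy -/
theorem energy : EnergyStmt := by
  intro ι _ _ d _ _ _ K _ h Z Ω E Δ s I F y A m δ Y χ N hL hC hS hδ
  classical
  have key : ∀ k, ∃ c : ℂ, ⟪χ, ap (seg Y 0 m * h k) Ω⟫_ℂ = N * c ∧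
      (⟪χ, ap (h k) χ⟫_ℂ).re - c.re ≤ ∑ j ∈ range m, 32 * δ j ^ 2 *
        (if Crosses (Z k) (A j) then (dim d (Z k) : ℝ) ^ 2 * ‖h k‖ else 0) := by
    intro k
    by_cases h0 : h k = 0
    · refine ⟨0, by simp [h0], ?_⟩
      simp [h0]
    exact EnA.term hS (hL.supp k) (hL.herm k) hC.mono (hC.term k h0) hδ
  choose c hc1 hc2 using key
  have hχ : ⟪χ, χ⟫_ℂ = 1 := by rw [inner_self_eq_norm_sq_to_K, hS.norm]; simp
  have hN : (N : ℂ) ≠ 0 := Complex.ofReal_ne_zero.2 hS.pos.ne'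
  have e1 : ∑ k, c k = E := by
    refine mul_left_cancel₀ hN ?_
    rw [Finset.mul_sum, ← Finset.sum_congr rfl fun k _ => hc1 k, ← inner_sum, ← ap_sum,
      ← Matrix.mul_sum, ap_mul, hL.gap.eig, map_smul, hS.chi, inner_smul_right, inner_smul_right,
      hχ]
    ring
  have e2 : ∑ k, (c k).re = E := by rw [← Complex.re_sum, e1, Complex.ofReal_re]
  have h1 := hL.gap.gap χ
  rw [hS.norm, one_pow, mul_one, ap_sum, inner_sum, Complex.re_sum, ← e2,
    ← Finset.sum_sub_distrib] at h1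
  refine h1.trans ((Finset.sum_le_sum fun k _ => hc2 k).trans (le_of_eq ?_))
  rw [Finset.sum_comm]
  simp only [cw, Finset.mul_sum]

end Crest.Agent.N336.T
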